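import Mathlib

/-!
P329: generalized regular expressions, star height, the witness automaton and the
relation monoid attached to one star.
-/

namespace Vale.Agent.P329

/-- Generalized regular expressions over `α`. -/
inductive GRegex (α : Type) : Type
  | zero
  | one
  | char (a : α)
  | plus (P Q : GRegex α)
  | mul (P Q : GRegex α)
  | compl (P : GRegex α)
  | star (P : GRegex α)

variable {α : Type}

/-- The language denoted by an expression; complement is taken in all of `List α`. -/
def GRegex.lang : GRegex α → Language α
  | .zero => 0
  | .one => 1
  | .char a => {[a]}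
  | .plus P Q => P.lang + Q.lang
  | .mul P Q => P.lang * Q.lang
  | .compl P => (P.lang)ᶜ
  | .star P => KStar.kstar P.lang

/-- Star height. -/
def GRegex.sh : GRegex α → ℕ
  | .zero => 0
  | .one => 0
  | .char _ => 0
  | .plus P Q => max P.sh Q.sh
  | .mul P Q => max P.sh Q.sh
  | .compl P => P.sh
  | .star P => P.sh + 1

/-- `L` is denoted by an expression of star height at most `n`. -/
def HeightLE (L : Language α) (n : ℕ) : Prop :=
  ∃ P : GRegex α, P.lang = L ∧ P.sh ≤ n

/-- Binary relations under composition (first `r`, then `s`). -/
@[ext] structure RelM (Q : Type) : Type where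
  /-- the relation -/
  rel : Q → Q → Prop

instance (Q : Type) : Monoid (RelM Q) where
  mul r s := ⟨fun a c => ∃ b, r.rel a b ∧ s.rel b c⟩
  one := ⟨fun a b => a = b⟩
  mul_assoc r s t := by
    apply RelM.ext
    funext a d
    apply propext
    constructor
    · rintro ⟨c, ⟨b, h1, h2⟩, h3⟩
      exact ⟨b, h1, c, h2, h3⟩
    · rintro ⟨b, h1, c, h2, h3⟩
      exact ⟨c, ⟨b, h1, h2⟩, h3⟩
  one_mul r := by
    apply RelM.ext
    funext a c
    exact propext ⟨fun ⟨_, h, h'⟩ => h ▸ h', fun h => ⟨a, rfl, h⟩⟩
  mul_one r := by
    apply RelM.ext
    funext a c
    exact propext ⟨fun ⟨_, h, h'⟩ => h' ▸ h, fun h => ⟨c, h, rfl⟩⟩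

section star

variable {M : Type} [Monoid M]

/-- The value carried by a state of the star automaton; `none` is the cut state. -/
def stateVal (q : Option M) : M := q.getD 1

/-- One letter in the star automaton of `P = f ⁻¹ Acc`: multiply, and possibly cut. -/
def stepRel (f : α → M) (Acc : Set M) (a : α) : RelM (Option M) :=
  ⟨fun q q' => q' = some (stateVal q * f a) ∨ (q' = none ∧ stateVal q * f a ∈ Acc)⟩

/-- The relation of a word in the star automaton. -/
def starRel (f : α → M) (Acc : Set M) (w : List α) : RelM (Option M) :=
  (w.map (stepRel f Acc)).prod

theorem starRel_append (f : α → M) (Acc : Set M) (u v : List α) :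
    starRel f Acc (u ++ v) = starRel f Acc u * starRel f Acc v := by
  simp [starRel]

end star

section witness

variable {G : Type} [Group G]

/-- Step of the witness automaton; the letter `none` is the separator. -/
def wStep (F : G → G) : Option (G × G) → Option G → Option (G × G)
  | none, some _ => none
  | none, none => some (1, 1)
  | some (p, g), some x => some (p, g * x)
  | some (p, g), none => some (p * F g, 1)

/-- The witness automaton: product of `F` over the segments between consecutive separators. -/
def wDFA (F : G → G) : DFA (Option G) (Option (G × G)) where
  step := wStep F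
  start := none
  accept := {s | ∃ g : G, s = some (1, g)}

/-- The witness language. -/
def witness (F : G → G) : Language (Option G) := (wDFA F).accepts

/-- The value of a word: the product over its complete segments. -/
def nu (F : G → G) (w : List (Option G)) : G := ((wDFA F).eval w).elim 1 Prod.fst

/-- Words that begin and end with the separator. -/
def Bracketed (w : List (Option G)) : Prop :=
  w.head? = some none ∧ w.getLast? = some none

theorem witness_isRegular [Finite G] (F : G → G) : (witness F).IsRegular := by
  have := Fintype.ofFinite (Option (G × G))
  exact ⟨Option (G × G), this, wDFA F, rfl⟩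

end witness

end Vale.Agent.P329
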