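import Mathlib
import Vale.Agent.P329.Defs

/-!
P329: automata in which every move either goes up, stays, or returns to one root have all their
transition languages of generalized star height at most one.
-/

namespace Vale.Agent.P329

namespace RootInc

set_option linter.unusedSectionVars false

open scoped Classical

variable {α : Type}

theorem hle_zero (n : ℕ) : HeightLE (0 : Language α) n := ⟨.zero, rfl, Nat.zero_le _⟩

theorem hle_one (n : ℕ) : HeightLE (1 : Language α) n := ⟨.one, rfl, Nat.zero_le _⟩

theorem hle_char (a : α) (n : ℕ) : HeightLE ({[a]} : Language α) n :=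
  ⟨.char a, rfl, Nat.zero_le _⟩

theorem hle_add {K L : Language α} {n : ℕ} (hK : HeightLE K n) (hL : HeightLE L n) :
    HeightLE (K + L) n := by
  obtain ⟨P, rfl, hP⟩ := hK
  obtain ⟨Q, rfl, hQ⟩ := hL
  exact ⟨.plus P Q, rfl, max_le hP hQ⟩

theorem hle_mul {K L : Language α} {n : ℕ} (hK : HeightLE K n) (hL : HeightLE L n) :
    HeightLE (K * L) n := by
  obtain ⟨P, rfl, hP⟩ := hK
  obtain ⟨Q, rfl, hQ⟩ := hL
  exact ⟨.mul P Q, rfl, max_le hP hQ⟩

theorem hle_compl {K : Language α} {n : ℕ} (hK : HeightLE K n) : HeightLE Kᶜ n := by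
  obtain ⟨P, rfl, hP⟩ := hK
  exact ⟨.compl P, rfl, hP⟩

theorem hle_star {K : Language α} (hK : HeightLE K 0) : HeightLE (KStar.kstar K) 1 := by
  obtain ⟨P, rfl, hP⟩ := hK
  exact ⟨.star P, rfl, Nat.succ_le_succ hP⟩

theorem hle_mono {K : Language α} {m n : ℕ} (h : HeightLE K m) (hmn : m ≤ n) : HeightLE K n := by
  obtain ⟨P, hP, hs⟩ := h
  exact ⟨P, hP, hs.trans hmn⟩

theorem hle_congr {K L : Language α} {n : ℕ} (h : HeightLE K n) (he : ∀ w, w ∈ K ↔ w ∈ L) :
    HeightLE L n :=
  (show K = L from Set.ext he) ▸ h

/-- Finite unions. -/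
theorem hle_iUnion {ι : Type} [Fintype ι] (K : ι → Language α) {n : ℕ}
    (h : ∀ i, HeightLE (K i) n) : HeightLE ({w | ∃ i, w ∈ K i} : Language α) n := by
  suffices ∀ s : Finset ι, HeightLE ({w | ∃ i ∈ s, w ∈ K i} : Language α) n by
    simpa using this Finset.univ
  intro s
  induction s using Finset.induction_on with
  | empty =>
    refine hle_congr (hle_zero (α := α) n) fun w => ?_
    change _ ↔ ∃ i ∈ (∅ : Finset ι), w ∈ K i
    simp [Language.notMem_zero]
  | insert i s _ ih =>
    refine hle_congr (hle_add (h i) ih) fun w => ?_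
    change w ∈ K i ∨ (∃ j ∈ s, w ∈ K j) ↔ ∃ j ∈ insert i s, w ∈ K j
    simp

/-- Finite intersections. -/
theorem hle_iInter {ι : Type} [Fintype ι] (K : ι → Language α) {n : ℕ}
    (h : ∀ i, HeightLE (K i) n) : HeightLE ({w | ∀ i, w ∈ K i} : Language α) n := by
  refine hle_congr (hle_compl (hle_iUnion (fun i => (K i)ᶜ) fun i => hle_compl (h i))) fun w => ?_
  change (¬ ∃ i, ¬ w ∈ K i) ↔ ∀ i, w ∈ K i
  simp

/-- The one-letter words with a property. -/
def letters (p : α → Prop) : Language α := {w | ∃ a, p a ∧ w = [a]}

/-- The words all of whose letters have a property. -/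
def allWords (p : α → Prop) : Language α := {w | ∀ a ∈ w, p a}

/-- A finite union of letters. -/
theorem hle_letters [Fintype α] (p : α → Prop) (n : ℕ) : HeightLE (letters p) n := by
  refine hle_congr (hle_iUnion (fun a => if p a then ({[a]} : Language α) else 0) (n := n)
    fun a => ?_) fun w => exists_congr fun a => ?_
  · split_ifs
    · exact hle_char a n
    · exact hle_zero n
  · by_cases h : p a
    · rw [if_pos h]
      exact ⟨fun h' => ⟨h, h'⟩, fun h' => h'.2⟩
    · rw [if_neg h]
      exact ⟨fun h' => absurd h' (Language.notMem_zero w), fun h' => absurd h'.1 h⟩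

/-- The words all of whose letters satisfy a property. -/
theorem hle_all [Fintype α] (p : α → Prop) : HeightLE (allWords p) 0 := by
  have htop : HeightLE ((0 : Language α)ᶜ) 0 := hle_compl (hle_zero 0)
  refine hle_congr (hle_compl (hle_mul (hle_mul htop (hle_letters (fun a => ¬p a) 0)) htop))
    fun w => Iff.symm ?_
  change (∀ a ∈ w, p a) ↔ ¬ w ∈ (0 : Language α)ᶜ * letters (fun a => ¬p a) *
    (0 : Language α)ᶜ
  simp only [Language.mem_mul]
  constructor
  · rintro h ⟨_, ⟨u, _, _, ⟨a, hpa, rfl⟩, rfl⟩, v, _, rfl⟩
    exact hpa (h a (by simp))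
  · intro h a ha
    by_contra hpa
    obtain ⟨u, v, rfl⟩ := List.append_of_mem ha
    refine h ⟨u ++ [a], ⟨u, Language.notMem_zero u, [a], ⟨a, hpa, rfl⟩, rfl⟩,
      v, Language.notMem_zero v, by simp⟩

variable {X : Type} (δ : X → α → X) (z : X)

/-- The run stopped at the first visit of the root. -/
noncomputable def runAvoid : X → List α → Option X
  | x, [] => some x
  | x, a :: w => if δ x a = z then none else runAvoid (δ x a) w

/-- Words leading from x to y without a visit of the root. -/
def avoid (x y : X) : Language α := {w | runAvoid δ z x w = some y}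

/-- Words starting with a move to a new state off the root, then avoiding it. -/
def steps (x y : X) : Language α :=
  {w | ∃ a, (δ x a ≠ x ∧ δ x a ≠ z) ∧ ∃ v, v ∈ avoid δ z (δ x a) y ∧ w = a :: v}

/-- Words whose first visit of the root is at their end. -/
def first (x : X) : Language α :=
  {w | ∃ u a s, w = u ++ [a] ∧ runAvoid δ z x u = some s ∧ δ s a = z}

theorem foldl_of_avoid : ∀ (w : List α) (x y : X), runAvoid δ z x w = some y →
    w.foldl δ x = y := by
  intro w
  induction w with
  | nil => intro x y h; simpa [runAvoid] using h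
  | cons a w ih =>
    intro x y h
    simp only [runAvoid] at h
    split_ifs at h with ha
    exact ih _ _ h

theorem foldl_of_first {x : X} {w : List α} (h : w ∈ first δ z x) : w.foldl δ x = z := by
  obtain ⟨u, a, s, rfl, hu, ha⟩ := h
  simp [foldl_of_avoid δ z u x s hu, ha]

theorem foldl_of_star {w : List α} (h : w ∈ KStar.kstar (first δ z z)) : w.foldl δ z = z := by
  obtain ⟨L, rfl, hL⟩ := Language.mem_kstar.1 h
  induction L with
  | nil => rfl
  | cons u L ih =>
    rw [List.flatten_cons, List.foldl_append, foldl_of_first δ z (hL u (by simp))]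
    exact ih (fun y hy => hL y (by simp [hy]))
      (Language.mem_kstar.2 ⟨L, rfl, fun y hy => hL y (by simp [hy])⟩)

theorem foldl_iff : ∀ (w : List α) (x y : X), w.foldl δ x = y ↔
    w ∈ avoid δ z x y + first δ z x * KStar.kstar (first δ z z) * avoid δ z z y := by
  intro w x y
  constructor
  · induction w generalizing x with
    | nil =>
      rintro rfl
      exact Or.inl (show runAvoid δ z x [] = some x by simp [runAvoid])
    | cons a w ih =>
      intro h
      have h' := ih (δ x a) (by simpa using h)
      by_cases ha : δ x a = z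
      · refine Or.inr (Language.mem_mul.2 ?_)
        have hfirst : [a] ∈ first δ z x := ⟨[], a, x, rfl, by simp [runAvoid], ha⟩
        rw [ha] at h'
        rcases h' with h' | h'
        · exact ⟨[a], Language.mem_mul.2 ⟨[a], hfirst, [],
            Language.nil_mem_kstar _, by simp⟩, w, h', rfl⟩
        · obtain ⟨_, ⟨p, hp, q, hq, rfl⟩, r, hr, rfl⟩ := h'
          refine ⟨[a] ++ (p ++ q), Language.mem_mul.2 ⟨[a], hfirst, p ++ q, ?_, rfl⟩, r, hr,
            by simp⟩
          obtain ⟨L, rfl, hL⟩ := Language.mem_kstar.1 hq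
          exact Language.mem_kstar.2 ⟨p :: L, rfl, by
            intro y hy
            rcases List.mem_cons.1 hy with rfl | hy
            · exact hp
            · exact hL y hy⟩
      · rcases h' with h' | h'
        · refine Or.inl (show runAvoid δ z x (a :: w) = some y from ?_)
          simp only [runAvoid, ha, if_false]
          exact h'
        · obtain ⟨_, ⟨p, ⟨u, b, s, rfl, hu, hb⟩, q, hq, rfl⟩, r, hr, rfl⟩ := h'
          refine Or.inr (Language.mem_mul.2 ⟨(a :: u ++ [b]) ++ q, Language.mem_mul.2
            ⟨a :: u ++ [b], ⟨a :: u, b, s, rfl, ?_, hb⟩, q, hq, rfl⟩, r, hr, by simp⟩)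
          simp only [runAvoid, ha, if_false]
          exact hu
  · rintro (h | h)
    · exact foldl_of_avoid δ z w x y h
    · obtain ⟨_, ⟨p, hp, q, hq, rfl⟩, r, hr, rfl⟩ := h
      rw [List.foldl_append, List.foldl_append, foldl_of_first δ z hp, foldl_of_star δ z hq]
      exact foldl_of_avoid δ z r z y hr

theorem avoid_cons {a : α} {w : List α} {x y : X} :
    a :: w ∈ avoid δ z x y ↔ δ x a ≠ z ∧ w ∈ avoid δ z (δ x a) y := by
  change runAvoid δ z x (a :: w) = some y ↔ δ x a ≠ z ∧ runAvoid δ z (δ x a) w = some y
  simp only [runAvoid]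
  split_ifs with h <;> simp [h]

theorem avoid_stay {x : X} (hx : x ≠ z) : ∀ (u w : List α) (y : X), (∀ a ∈ u, δ x a = x) →
    (u ++ w ∈ avoid δ z x y ↔ w ∈ avoid δ z x y) := by
  intro u
  induction u with
  | nil => intro w y _; simp
  | cons b u ih =>
    intro w y h
    have hb : δ x b = x := h b (by simp)
    rw [List.cons_append, avoid_cons, hb, ih w y fun a ha => h a (by simp [ha])]
    exact ⟨fun h' => h'.2, fun h' => ⟨hx, h'⟩⟩

variable [Fintype α] [Fintype X] [LinearOrder X]

theorem avoid_eq {x y : X} (hx : x ≠ z) : avoid δ z x y =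
    allWords (fun a => δ x a = x) *
      ((if x = y then 1 else 0) + steps δ z x y) := by
  ext w
  constructor
  · intro hw
    induction w with
    | nil =>
      refine Language.mem_mul.2 ⟨[], by intro a ha; simp at ha, [], Or.inl ?_, rfl⟩
      have : x = y := Option.some.inj hw
      rw [if_pos this]
      exact rfl
    | cons b w ih =>
      rw [avoid_cons] at hw
      by_cases hb : δ x b = x
      · obtain ⟨u, hu, v, hv, he⟩ := Language.mem_mul.1 (ih (by rw [← hb]; rw [hb] at hw; rw [hb]; exact hw.2))
        refine Language.mem_mul.2 ⟨b :: u, ?_, v, hv, by rw [List.cons_append, he]⟩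
        intro a ha
        rcases List.mem_cons.1 ha with rfl | ha
        · exact hb
        · exact hu a ha
      · exact Language.mem_mul.2 ⟨[], by intro a ha; simp at ha, b :: w,
          Or.inr ⟨b, ⟨hb, hw.1⟩, w, hw.2, rfl⟩, rfl⟩
  · intro hw
    obtain ⟨u, hu, v, hv, rfl⟩ := Language.mem_mul.1 hw
    rw [avoid_stay δ z hx u v y hu]
    rcases hv with hv | ⟨a, ⟨-, ha⟩, t, ht, rfl⟩
    · by_cases hxy : x = y
      · rw [if_pos hxy] at hv
        obtain rfl : v = [] := hv
        exact show runAvoid δ z x [] = some y by simp [runAvoid, hxy]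
      · rw [if_neg hxy] at hv
        exact absurd hv (Language.notMem_zero v)
    · exact (avoid_cons δ z).2 ⟨ha, ht⟩

variable (hinc : ∀ x a, x ≠ z → δ x a = z ∨ x ≤ δ x a)
include hinc

theorem hle_avoid_ne : ∀ x, x ≠ z → ∀ y, HeightLE (avoid δ z x y) 0 := by
  intro x
  induction x using WellFoundedGT.induction with
  | ind x ih =>
    intro hx y
    rw [avoid_eq δ z hx]
    refine hle_mul (hle_all _) (hle_add ?_ ?_)
    · split_ifs
      · exact hle_one 0
      · exact hle_zero 0
    · refine hle_congr (hle_iUnion (fun a : α => if δ x a ≠ x ∧ δ x a ≠ z then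
        ({[a]} : Language α) * avoid δ z (δ x a) y else 0) (n := 0) (fun a => ?_))
        fun w => Iff.symm ?_
      rotate_left
      · refine exists_congr fun a => ?_
        split_ifs with h
        · rw [Language.mem_mul]
          constructor
          · rintro ⟨-, v, hv, rfl⟩
            exact ⟨[a], rfl, v, hv, rfl⟩
          · rintro ⟨_, rfl, v, hv, rfl⟩
            exact ⟨h, v, hv, rfl⟩
        · exact ⟨fun h' => absurd h'.1 h, fun h' => absurd h' (Language.notMem_zero w)⟩
      · split_ifs with h
        · refine hle_mul (hle_char a 0) (ih _ ?_ h.2 y)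
          exact lt_of_le_of_ne ((hinc x a hx).resolve_left h.2) (Ne.symm h.1)
        · exact hle_zero 0

theorem hle_avoid (x y : X) : HeightLE (avoid δ z x y) 0 := by
  by_cases hx : x = z
  · subst hx
    refine hle_congr (hle_add (show HeightLE (if x = y then (1 : Language α) else 0) 0 by
      split_ifs
      · exact hle_one 0
      · exact hle_zero 0)
      (hle_iUnion (fun a : α => if δ x a ≠ x then
        ({[a]} : Language α) * avoid δ x (δ x a) y else 0) (n := 0) fun a => by
        split_ifs with h
        · exact hle_mul (hle_char a 0) (hle_avoid_ne δ x hinc _ h y)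
        · exact hle_zero 0)) fun w => Iff.symm ?_
    cases w with
    | nil =>
      constructor
      · intro h
        refine Or.inl ?_
        rw [if_pos (Option.some.inj h)]
        exact rfl
      · rintro (h | ⟨a, h⟩)
        · by_cases hxy : x = y
          · exact show runAvoid δ x x [] = some y by simp [runAvoid, hxy]
          · rw [if_neg hxy] at h
            exact absurd h (Language.notMem_zero _)
        · split_ifs at h
          · obtain ⟨_, rfl, v, _, he⟩ := Language.mem_mul.1 h
            simp at he
          · exact absurd h (Language.notMem_zero _)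
    | cons b w =>
      rw [avoid_cons]
      constructor
      · intro h
        refine Or.inr ⟨b, ?_⟩
        rw [if_pos h.1]
        exact Language.mem_mul.2 ⟨[b], rfl, w, h.2, rfl⟩
      · rintro (h | ⟨a, h⟩)
        · by_cases hxy : x = y
          · rw [if_pos hxy] at h
            exact absurd (show b :: w = [] from h) (by simp)
          · rw [if_neg hxy] at h
            exact absurd h (Language.notMem_zero _)
        · split_ifs at h with ha
          · obtain ⟨_, rfl, v, hv, he⟩ := Language.mem_mul.1 h
            obtain ⟨rfl, rfl⟩ := List.cons.inj he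
            exact ⟨ha, hv⟩
          · exact absurd h (Language.notMem_zero _)
  · exact hle_avoid_ne δ z hinc x hx y

theorem hle_first (x : X) : HeightLE (first δ z x) 0 := by
  refine hle_congr (hle_iUnion (fun s : X => avoid δ z x s *
    letters (fun a => δ s a = z)) (n := 0)
    (fun s => hle_mul (hle_avoid δ z hinc x s) (hle_letters _ 0))) fun w => Iff.symm ?_
  constructor
  · rintro ⟨u, a, s, rfl, hu, ha⟩
    exact ⟨s, Language.mem_mul.2 ⟨u, hu, [a], ⟨a, ha, rfl⟩, rfl⟩⟩
  · rintro ⟨s, hs⟩
    obtain ⟨u, hu, _, ⟨a, ha, rfl⟩, rfl⟩ := Language.mem_mul.1 hs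
    exact ⟨u, a, s, rfl, hu, ha⟩

theorem hle_run (x y : X) : HeightLE ({w | w.foldl δ x = y} : Language α) 1 := by
  exact hle_congr (hle_add (hle_mono (hle_avoid δ z hinc x y) zero_le_one)
    (hle_mul (hle_mul (hle_mono (hle_first δ z hinc x) zero_le_one)
      (hle_star (hle_first δ z hinc z))) (hle_mono (hle_avoid δ z hinc z y) zero_le_one)))
    fun w => (foldl_iff δ z w x y).symm

/-- Every language read off the transformation of a word has height at most one. -/
theorem hle_transition (T : Set (X → X)) :
    HeightLE ({w | (fun x => w.foldl δ x) ∈ T} : Language α) 1 := by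
  refine hle_congr (hle_iUnion (fun f : {f : X → X // f ∈ T} => ({w | ∀ x, w ∈
    ({w | w.foldl δ x = f.1 x} : Language α)} : Language α)) (n := 1)
    (fun f => hle_iInter _ fun x => hle_run δ z hinc x (f.1 x))) fun w => Iff.symm ?_
  constructor
  · intro h
    exact ⟨⟨_, h⟩, fun x => rfl⟩
  · rintro ⟨⟨f, hf⟩, h⟩
    change (fun x => w.foldl δ x) ∈ T
    rwa [show (fun x => w.foldl δ x) = f from funext h]

end RootInc

end Vale.Agent.P329
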