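import Vale.Agent.P329.Defs

/-!
P329: star-free languages have finite aperiodic recognisers, and one star of such a language
is read off its relation monoid.
-/

namespace Vale.Agent.P329

variable {α : Type}

/-- The image of a word under the morphism extending `f`. -/
def ev {M : Type} [Monoid M] (f : α → M) (w : List α) : M := (w.map f).prod

section ev

variable {M : Type} [Monoid M] (f : α → M)

@[simp] theorem ev_nil : ev f [] = 1 := by simp [ev]

@[simp] theorem ev_cons (a : α) (w : List α) : ev f (a :: w) = f a * ev f w := by simp [ev]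

@[simp] theorem ev_append (u v : List α) : ev f (u ++ v) = ev f u * ev f v := by simp [ev]

theorem starRel_eq_ev (Acc : Set M) (w : List α) : starRel f Acc w = ev (stepRel f Acc) w := rfl

theorem ev_map {N : Type} [Monoid N] (g : M →* N) (w : List α) :
    ev (fun a => g (f a)) w = g (ev f w) := by
  induction w <;> simp_all

end ev

theorem ev_prod {M N : Type} [Monoid M] [Monoid N] (f : α → M) (g : α → N) (w : List α) :
    ev (fun a => (f a, g a)) w = (ev f w, ev g w) := by
  induction w <;> simp_all [Prod.ext_iff]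

/-- Every element has a stable power. -/
def IsAperiodic (M : Type) [Monoid M] : Prop := ∀ m : M, ∃ n, 1 ≤ n ∧ m ^ n = m ^ (n + 1)

theorem pow_stable {M : Type} [Monoid M] {a : M} {n : ℕ} (h : a ^ n = a ^ (n + 1)) {k : ℕ}
    (hk : n ≤ k) : a ^ k = a ^ n := by
  induction k, hk using Nat.le_induction with
  | base => rfl
  | succ k _ ih => rw [pow_succ, ih, ← pow_succ, ← h]

theorem isAperiodic_prod {M N : Type} [Monoid M] [Monoid N] (hM : IsAperiodic M)
    (hN : IsAperiodic N) : IsAperiodic (M × N) := fun x => by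
  obtain ⟨n, hn, ha⟩ := hM x.1
  obtain ⟨n', -, hb⟩ := hN x.2
  refine ⟨n + n', by omega, Prod.ext ?_ ?_⟩
  · simp only [Prod.pow_fst]
    rw [pow_stable ha (by omega : n ≤ n + n'), pow_stable ha (by omega : n ≤ n + n' + 1)]
  · simp only [Prod.pow_snd]
    rw [pow_stable hb (by omega : n' ≤ n + n'), pow_stable hb (by omega : n' ≤ n + n' + 1)]

/-- The three-element monoid recognising one letter. -/
inductive Tri : Type
  | e
  | x
  | z
  deriving DecidableEq

namespace Tri

instance : Fintype Tri := ⟨{.e, .x, .z}, fun t => by cases t <;> simp⟩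

instance : Mul Tri := ⟨fun s t => match s, t with
  | .e, t => t
  | s, .e => s
  | _, _ => .z⟩

instance : One Tri := ⟨.e⟩

instance : Monoid Tri where
  mul_assoc a b c := by cases a <;> cases b <;> cases c <;> rfl
  one_mul a := by cases a <;> rfl
  mul_one a := by cases a <;> rfl

theorem isAperiodic : IsAperiodic Tri := fun m => by
  refine ⟨2, by omega, ?_⟩
  cases m <;> rfl

end Tri

/-- The triple monoid: two images and the set of images of the splittings of a word at a position
before one of its letters. -/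
@[ext] structure Triple (A B : Type) : Type where
  /-- image in the first monoid -/
  l : A
  /-- image in the second monoid -/
  r : B
  /-- images of the splittings -/
  S : Set (A × B)

namespace Triple

variable {A B : Type} [Monoid A] [Monoid B]

instance [Finite A] [Finite B] : Finite (Triple A B) :=
  Finite.of_injective (fun t => (t.l, t.r, t.S)) fun s t h => by
    simp only [Prod.mk.injEq] at h
    exact Triple.ext h.1 h.2.1 h.2.2

instance : Monoid (Triple A B) where
  mul s t := ⟨s.l * t.l, s.r * t.r,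
    (fun p => (p.1, p.2 * t.r)) '' s.S ∪ (fun p => (s.l * p.1, p.2)) '' t.S⟩
  one := ⟨1, 1, ∅⟩
  mul_assoc s t u := by
    apply Triple.ext
    · exact mul_assoc _ _ _
    · exact mul_assoc _ _ _
    · change (fun p : A × B => (p.1, p.2 * u.r)) ''
          ((fun p => (p.1, p.2 * t.r)) '' s.S ∪ (fun p => (s.l * p.1, p.2)) '' t.S) ∪
          (fun p => (s.l * t.l * p.1, p.2)) '' u.S =
        (fun p => (p.1, p.2 * (t.r * u.r))) '' s.S ∪ (fun p => (s.l * p.1, p.2)) ''
          ((fun p => (p.1, p.2 * u.r)) '' t.S ∪ (fun p => (t.l * p.1, p.2)) '' u.S)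
      simp only [Set.image_union, Set.image_image, Set.union_assoc, mul_assoc]
  one_mul s := by
    apply Triple.ext
    · exact one_mul _
    · exact one_mul _
    · change (fun p : A × B => (p.1, p.2 * s.r)) '' ∅ ∪ (fun p => (1 * p.1, p.2)) '' s.S = s.S
      simp
  mul_one s := by
    apply Triple.ext
    · exact mul_one _
    · exact mul_one _
    · change (fun p : A × B => (p.1, p.2 * 1)) '' s.S ∪ (fun p : A × B => (s.l * p.1, p.2)) '' ∅ = s.S
      simp

@[simp] theorem mul_l (s t : Triple A B) : (s * t).l = s.l * t.l := rfl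
@[simp] theorem mul_r (s t : Triple A B) : (s * t).r = s.r * t.r := rfl
@[simp] theorem one_l : (1 : Triple A B).l = 1 := rfl
@[simp] theorem one_r : (1 : Triple A B).r = 1 := rfl
@[simp] theorem one_S : (1 : Triple A B).S = ∅ := rfl
theorem mul_S (s t : Triple A B) : (s * t).S =
    (fun p => (p.1, p.2 * t.r)) '' s.S ∪ (fun p => (s.l * p.1, p.2)) '' t.S := rfl

/-- First projection. -/
def lHom : Triple A B →* A where
  toFun := Triple.l
  map_one' := rfl
  map_mul' _ _ := rfl

/-- Second projection. -/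
def rHom : Triple A B →* B where
  toFun := Triple.r
  map_one' := rfl
  map_mul' _ _ := rfl

theorem pow_l (s : Triple A B) (N : ℕ) : (s ^ N).l = s.l ^ N := map_pow (lHom (A := A) (B := B)) s N

theorem pow_r (s : Triple A B) (N : ℕ) : (s ^ N).r = s.r ^ N := map_pow (rHom (A := A) (B := B)) s N

theorem mem_pow_S (s : Triple A B) (N : ℕ) (p : A × B) : p ∈ (s ^ N).S ↔
    ∃ i < N, ∃ q ∈ s.S, p = (s.l ^ i * q.1, q.2 * s.r ^ (N - 1 - i)) := by
  induction N generalizing p with
  | zero => simp
  | succ N ih =>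
    rw [pow_succ', mul_S, Set.mem_union, Set.mem_image, Set.mem_image]
    constructor
    · rintro (⟨q, hq, rfl⟩ | ⟨q, hq, rfl⟩)
      · exact ⟨0, by omega, q, hq, by simp [pow_r]⟩
      · obtain ⟨i, hi, q', hq', rfl⟩ := (ih q).1 hq
        refine ⟨i + 1, by omega, q', hq', ?_⟩
        rw [pow_succ', mul_assoc, show N + 1 - 1 - (i + 1) = N - 1 - i by omega]
    · rintro ⟨i, hi, q, hq, rfl⟩
      rcases i with _ | i
      · exact Or.inl ⟨q, hq, by simp [pow_r]⟩
      · refine Or.inr ⟨_, (ih _).2 ⟨i, by omega, q, hq, rfl⟩, ?_⟩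
        rw [pow_succ', mul_assoc, show N + 1 - 1 - (i + 1) = N - 1 - i by omega]

theorem isAperiodic (hA : IsAperiodic A) (hB : IsAperiodic B) : IsAperiodic (Triple A B) := by
  intro s
  obtain ⟨n₁, -, h₁⟩ := hA s.l
  obtain ⟨n₂, -, h₂⟩ := hB s.r
  set N := 2 * (n₁ + n₂) + 1 with hN
  have hl : ∀ i, n₁ ≤ i → s.l ^ i = s.l ^ n₁ := fun i hi => pow_stable h₁ hi
  have hr : ∀ i, n₂ ≤ i → s.r ^ i = s.r ^ n₂ := fun i hi => pow_stable h₂ hi
  refine ⟨N, by omega, Triple.ext ?_ ?_ ?_⟩
  · rw [pow_l, pow_l, hl N (by omega), hl (N + 1) (by omega)]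
  · rw [pow_r, pow_r, hr N (by omega), hr (N + 1) (by omega)]
  · ext p
    simp only [mem_pow_S]
    constructor
    · rintro ⟨i, hi, q, hq, rfl⟩
      by_cases hi' : n₁ ≤ i
      · refine ⟨i + 1, by omega, q, hq, ?_⟩
        rw [hl i hi', hl (i + 1) (by omega), show N + 1 - 1 - (i + 1) = N - 1 - i by omega]
      · refine ⟨i, by omega, q, hq, ?_⟩
        rw [hr (N - 1 - i) (by omega), hr (N + 1 - 1 - i) (by omega)]
    · rintro ⟨i, hi, q, hq, rfl⟩
      by_cases hi' : n₁ + 1 ≤ i
      · refine ⟨i - 1, by omega, q, hq, ?_⟩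
        rw [hl i (by omega), hl (i - 1) (by omega),
          show N - 1 - (i - 1) = N + 1 - 1 - i by omega]
      · refine ⟨i, by omega, q, hq, ?_⟩
        rw [hr (N - 1 - i) (by omega), hr (N + 1 - 1 - i) (by omega)]

variable (f : α → A) (g : α → B)

/-- The letters of the triple monoid. -/
def gen (a : α) : Triple A B := ⟨f a, g a, {(1, g a)}⟩

theorem ev_gen_l (w : List α) : (ev (gen f g) w).l = ev f w := by
  induction w <;> simp_all [gen]

theorem ev_gen_r (w : List α) : (ev (gen f g) w).r = ev g w := by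
  induction w <;> simp_all [gen]

theorem mem_ev_gen_S (w : List α) (p : A × B) : p ∈ (ev (gen f g) w).S ↔
    ∃ u v, v ≠ [] ∧ u ++ v = w ∧ p = (ev f u, ev g v) := by
  induction w generalizing p with
  | nil => simp
  | cons a w ih =>
    rw [ev_cons, mul_S, Set.mem_union, Set.mem_image, Set.mem_image]
    constructor
    · rintro (⟨q, hq, rfl⟩ | ⟨q, hq, rfl⟩)
      · rw [show q = (1, g a) from hq]
        exact ⟨[], a :: w, by simp, rfl, by simp [ev_gen_r]⟩
      · obtain ⟨u, v, hv, rfl, rfl⟩ := (ih q).1 hq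
        exact ⟨a :: u, v, hv, rfl, by simp [gen]⟩
    · rintro ⟨u, v, hv, huv, rfl⟩
      rcases u with _ | ⟨b, u⟩
      · simp only [List.nil_append] at huv
        subst huv
        exact Or.inl ⟨(1, g a), rfl, by simp [ev_gen_r]⟩
      · simp only [List.cons_append, List.cons.injEq] at huv
        obtain ⟨rfl, rfl⟩ := huv
        exact Or.inr ⟨_, (ih _).2 ⟨u, v, hv, rfl, rfl⟩, by simp [gen]⟩

/-- Accepting triples for a concatenation. -/
def accMul (U : Set A) (V : Set B) : Set (Triple A B) :=
  {t | (∃ q ∈ t.S, q.1 ∈ U ∧ q.2 ∈ V) ∨ (t.l ∈ U ∧ 1 ∈ V)}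

theorem mem_mul_iff (K L : Language α) (U : Set A) (V : Set B)
    (hK : ∀ w, w ∈ K ↔ ev f w ∈ U) (hL : ∀ w, w ∈ L ↔ ev g w ∈ V) (w : List α) :
    w ∈ K * L ↔ ev (gen f g) w ∈ accMul U V := by
  rw [Language.mem_mul]
  constructor
  · rintro ⟨u, hu, v, hv, rfl⟩
    rcases eq_or_ne v [] with rfl | hne
    · refine Or.inr ⟨?_, by simpa using (hL _).1 hv⟩
      rw [List.append_nil, ev_gen_l]
      exact (hK u).1 hu
    · exact Or.inl ⟨_, (mem_ev_gen_S f g _ _).2 ⟨u, v, hne, rfl, rfl⟩, (hK u).1 hu, (hL v).1 hv⟩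
  · rintro (⟨q, hq, hu, hv⟩ | ⟨hu, hv⟩)
    · obtain ⟨u, v, -, rfl, rfl⟩ := (mem_ev_gen_S f g _ _).1 hq
      exact ⟨u, (hK u).2 hu, v, (hL v).2 hv, rfl⟩
    · rw [ev_gen_l] at hu
      exact ⟨w, (hK w).2 hu, [], (hL []).2 (by simpa using hv), List.append_nil w⟩

end Triple

/-- A language of star height zero is recognised by a finite aperiodic monoid. -/
theorem exists_aperiodic_recognizer : ∀ P : GRegex α, P.sh = 0 →
    ∃ (M : Type) (_ : Monoid M), Finite M ∧ IsAperiodic M ∧
      ∃ (f : α → M) (Acc : Set M), ∀ w, w ∈ P.lang ↔ ev f w ∈ Acc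
  | .zero, _ => ⟨Unit, inferInstance, inferInstance, fun _ => ⟨1, le_rfl, rfl⟩, fun _ => (), ∅,
      fun w => by simp [GRegex.lang, Language.notMem_zero]⟩
  | .one, _ => by
      refine ⟨ZMod 2, inferInstance, inferInstance, fun m => ⟨1, le_rfl, ?_⟩, fun _ => 0, {1},
        fun w => ?_⟩
      · revert m
        decide
      · rcases w with _ | ⟨a, w⟩ <;> simp [GRegex.lang, Language.mem_one]
  | .char a, _ => by
      classical
      refine ⟨Tri, inferInstance, inferInstance, Tri.isAperiodic,
        fun b => if b = a then .x else .z, {.x}, fun w => ?_⟩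
      have hz : ∀ t : Tri, Tri.z * t = .z := fun t => by cases t <;> rfl
      have hxx : ∀ t : Tri, Tri.x * (Tri.x * t) = .z := fun t => by cases t <;> rfl
      have hxz : Tri.x * Tri.z = .z := rfl
      change w = [a] ↔ ev _ w = Tri.x
      match w with
      | [] => simp [show (1 : Tri) = .e from rfl]
      | [b] => by_cases hb : b = a <;> simp [hb]
      | b :: c :: t =>
        by_cases hb : b = a <;> by_cases hc : c = a <;> simp [hb, hc, hz, hxx, hxz]
  | .plus P Q, h => by
      simp only [GRegex.sh, Nat.max_eq_zero_iff] at h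
      obtain ⟨A, iA, fA, aA, f, U, hf⟩ := exists_aperiodic_recognizer P h.1
      obtain ⟨B, iB, fB, aB, g, V, hg⟩ := exists_aperiodic_recognizer Q h.2
      refine ⟨A × B, inferInstance, inferInstance, isAperiodic_prod aA aB,
        fun a => (f a, g a), {p | p.1 ∈ U ∨ p.2 ∈ V}, fun w => ?_⟩
      simp only [GRegex.lang, Language.mem_add, ev_prod, Set.mem_ofPred_eq, hf w, hg w]
  | .mul P Q, h => by
      simp only [GRegex.sh, Nat.max_eq_zero_iff] at h
      obtain ⟨A, iA, fA, aA, f, U, hf⟩ := exists_aperiodic_recognizer P h.1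
      obtain ⟨B, iB, fB, aB, g, V, hg⟩ := exists_aperiodic_recognizer Q h.2
      exact ⟨Triple A B, inferInstance, inferInstance, Triple.isAperiodic aA aB,
        Triple.gen f g, Triple.accMul U V, Triple.mem_mul_iff f g _ _ U V hf hg⟩
  | .compl P, h => by
      obtain ⟨A, iA, fA, aA, f, U, hf⟩ := exists_aperiodic_recognizer P h
      exact ⟨A, iA, fA, aA, f, Uᶜ, fun w => not_congr (hf w)⟩
  | .star P, h => by simp [GRegex.sh] at h

/-! ### The relation monoid of one star -/

instance {Q : Type} [Finite Q] : Finite (RelM Q) :=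
  Finite.of_injective RelM.rel fun _ _ h => RelM.ext h

theorem mem_kstar_step {P : Language α} {w : List α} :
    w ∈ KStar.kstar P ↔
      w = [] ∨ ∃ u v, u ≠ [] ∧ u ++ v = w ∧ u ∈ P ∧ v ∈ KStar.kstar P := by
  constructor
  · intro h
    obtain ⟨S, rfl, hS⟩ := Language.mem_kstar_iff_exists_nonempty.1 h
    rcases S with _ | ⟨u, S⟩
    · exact Or.inl rfl
    · exact Or.inr ⟨u, S.flatten, (hS u (by simp)).2, rfl, (hS u (by simp)).1,
        Language.mem_kstar.2 ⟨S, rfl, fun y hy => (hS y (by simp [hy])).1⟩⟩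
  · rintro (rfl | ⟨u, v, -, rfl, hu, hv⟩)
    · exact Language.nil_mem_kstar P
    · obtain ⟨S, rfl, hS⟩ := Language.mem_kstar.1 hv
      refine Language.mem_kstar.2 ⟨u :: S, rfl, fun y hy => ?_⟩
      rcases List.mem_cons.1 hy with rfl | hy
      exacts [hu, hS y hy]

variable {M : Type} [Monoid M] (f : α → M) (Acc : Set M) (P : Language α)

theorem starRel_rel_cut (hP : ∀ w, w ∈ P ↔ ev f w ∈ Acc) (w : List α) (q : Option M) :
    (starRel f Acc w).rel q none ↔ (q = none ∧ w = []) ∨
      ∃ u v, u ≠ [] ∧ u ++ v = w ∧ stateVal q * ev f u ∈ Acc ∧ v ∈ KStar.kstar P := by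
  induction w generalizing q with
  | nil =>
    change q = none ↔ _
    simp
  | cons a w ih =>
    have hstar : (starRel f Acc w).rel none none ↔ w ∈ KStar.kstar P := by
      rw [ih, mem_kstar_step (w := w)]
      simp [stateVal, hP]
    change (∃ q', (stepRel f Acc a).rel q q' ∧ (starRel f Acc w).rel q' none) ↔ _
    constructor
    · rintro ⟨q', (rfl | ⟨rfl, hq⟩), hrel⟩
      · rcases (ih _).1 hrel with ⟨h, -⟩ | ⟨u, v, hu, rfl, huA, hv⟩
        · simp at h
        · exact Or.inr ⟨a :: u, v, by simp, rfl, by simpa [stateVal, mul_assoc] using huA, hv⟩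
      · exact Or.inr ⟨[a], w, by simp, rfl, by simpa using hq, hstar.1 hrel⟩
    · rintro (⟨-, h⟩ | ⟨u, v, hu, huv, huA, hv⟩)
      · simp at h
      rcases u with _ | ⟨b, u⟩
      · exact absurd rfl hu
      simp only [List.cons_append, List.cons.injEq] at huv
      obtain ⟨rfl, rfl⟩ := huv
      rcases eq_or_ne u [] with rfl | hu'
      · exact ⟨none, Or.inr ⟨rfl, by simpa using huA⟩, hstar.2 (by simpa using hv)⟩
      · exact ⟨_, Or.inl rfl, (ih _).2
          (Or.inr ⟨u, v, hu', rfl, by simpa [stateVal, mul_assoc] using huA, hv⟩)⟩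

/-- A word is in the star iff its relation links the cut state to itself. -/
theorem mem_kstar_iff_starRel (hP : ∀ w, w ∈ P ↔ ev f w ∈ Acc) (w : List α) :
    w ∈ KStar.kstar P ↔ (starRel f Acc w).rel none none := by
  rw [starRel_rel_cut f Acc P hP, mem_kstar_step (w := w)]
  simp [stateVal, hP]

end Vale.Agent.P329
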