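import Mathlib
import Vale.Agent.P329.StarFree
import Vale.Agent.P329.RootIncreasing

/-!
P329: Schutzenberger, the direction from a finite aperiodic recogniser to a star-free expression.

Induction on the size of the monoid and on the alphabet, cutting at a letter c with image not 1
and passing to the monoid on cM and Mc with product (xc)(cy) = xcy.
-/

namespace Vale.Agent.P329

namespace Schutz

open scoped Classical
open RootInc

variable {M : Type} [Monoid M]

/-- The local divisor at c. -/
@[ext] structure Divisor (c : M) : Type where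
  /-- the element -/
  val : M
  left : ∃ y, val = c * y
  right : ∃ y, val = y * c

variable {c : M}

noncomputable instance : Mul (Divisor c) :=
  ⟨fun x x' => ⟨x.right.choose * x'.val, by
    obtain ⟨z, hz⟩ := x'.left
    obtain ⟨w, hw⟩ := x.left
    refine ⟨w * z, ?_⟩
    rw [hz, ← mul_assoc, ← x.right.choose_spec, hw, mul_assoc], by
    obtain ⟨w, hw⟩ := x'.right
    exact ⟨x.right.choose * w, by rw [hw, mul_assoc]⟩⟩⟩

theorem Divisor.mul_val {x x' : Divisor c} {y : M} (h : x.val = y * c) :
    (x * x').val = y * x'.val := by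
  obtain ⟨z, hz⟩ := x'.left
  change x.right.choose * x'.val = y * x'.val
  rw [hz, ← mul_assoc, ← x.right.choose_spec, h, mul_assoc]

noncomputable instance : One (Divisor c) := ⟨⟨c, ⟨1, by simp⟩, ⟨1, by simp⟩⟩⟩

theorem Divisor.one_val : (1 : Divisor c).val = c := rfl

noncomputable instance : Monoid (Divisor c) where
  mul_assoc x y z := by
    obtain ⟨a, ha⟩ := x.right
    obtain ⟨b, hb⟩ := y.right
    have hxy : (x * y).val = (a * b) * c := by rw [Divisor.mul_val ha, hb, mul_assoc]
    ext
    rw [Divisor.mul_val hxy, Divisor.mul_val ha, Divisor.mul_val hb, mul_assoc]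
  one_mul x := by
    ext
    rw [Divisor.mul_val (y := 1) (by rw [one_mul]; rfl), one_mul]
  mul_one x := by
    obtain ⟨a, ha⟩ := x.right
    ext
    rw [Divisor.mul_val ha, Divisor.one_val, ← ha]

noncomputable instance [Finite M] : Fintype (Divisor c) :=
  have := Fintype.ofFinite M
  Fintype.ofInjective Divisor.val fun _ _ h => Divisor.ext h

theorem Divisor.pow_val {x : Divisor c} {y : M} (h : x.val = y * c) :
    ∀ n : ℕ, (x ^ n).val = y ^ n * c := by
  intro n
  induction n with
  | zero => simp [Divisor.one_val]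
  | succ n ih => rw [pow_succ', Divisor.mul_val h, ih, pow_succ', mul_assoc]

theorem Divisor.isAperiodic (hM : IsAperiodic M) : IsAperiodic (Divisor c) := fun x => by
  obtain ⟨y, hy⟩ := x.right
  obtain ⟨n, hn, he⟩ := hM y
  exact ⟨n, hn, Divisor.ext (by rw [Divisor.pow_val hy, Divisor.pow_val hy, he])⟩

/-- The letter map to the divisor. -/
def dgen (c : M) (t : M) : Divisor c :=
  ⟨c * t * c, ⟨t * c, by rw [mul_assoc]⟩, ⟨c * t, rfl⟩⟩

theorem card_divisor_lt [Fintype M] (hM : IsAperiodic M) (hc : c ≠ 1) :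
    Fintype.card (Divisor c) < Fintype.card M := by
  refine Fintype.card_lt_of_injective_of_notMem Divisor.val (fun _ _ h => Divisor.ext h)
    (b := 1) ?_
  rintro ⟨x, hx⟩
  obtain ⟨y, hy⟩ := x.left
  rw [hx] at hy
  obtain ⟨n, -, he⟩ := hM c
  refine hc ?_
  have key : ∀ k : ℕ, c ^ k * y ^ k = 1 := by
    intro k
    induction k with
    | zero => simp
    | succ k ih => rw [pow_succ, pow_succ' y, mul_assoc, ← mul_assoc c, ← hy, one_mul, ih]
  calc c = c * (c ^ n * y ^ n) := by rw [key, mul_one]
    _ = c ^ (n + 1) * y ^ n := by rw [pow_succ', mul_assoc]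
    _ = 1 := by rw [← he, key]

variable {α : Type}

/-- Values of the blocks ended by the letter a0; the accumulator carries the open block. -/
noncomputable def blocks (f : α → M) (a0 : α) : M → List α → List M
  | _, [] => []
  | m, a :: v => if a = a0 then m :: blocks f a0 1 v else blocks f a0 (m * f a) v

theorem blocks_cut (f : α → M) (a0 : α) : ∀ (u : List α) (m : M) (v : List α),
    (∀ a ∈ u, a ≠ a0) → blocks f a0 m (u ++ a0 :: v) = m * ev f u :: blocks f a0 1 v := by
  intro u
  induction u with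
  | nil => intro m v _; simp [blocks]
  | cons b u ih =>
    intro m v h
    rw [List.cons_append, blocks, if_neg (h b (by simp)), ih _ _ fun a ha => h a (by simp [ha]),
      ev_cons, mul_assoc]

/-- Words over S which are empty or end with a0. -/
def Closed (S : Finset α) (a0 : α) : Language α :=
  {v | (∀ a ∈ v, a ∈ S) ∧ (v = [] ∨ ∃ u, v = u ++ [a0])}

/-- Preimage under the block map. -/
def pre (f : α → M) (S : Finset α) (a0 : α) (K : Language M) : Language α :=
  {v | v ∈ Closed S a0 ∧ blocks f a0 1 v ∈ K}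

theorem exists_first : ∀ (v : List α) (a0 : α), a0 ∈ v →
    ∃ u w, v = u ++ a0 :: w ∧ ∀ a ∈ u, a ≠ a0 := by
  intro v a0
  induction v with
  | nil => intro h; simp at h
  | cons b v ih =>
    intro h
    by_cases hb : b = a0
    · exact ⟨[], v, by simp [hb], by simp⟩
    · obtain ⟨u, w, rfl, hu⟩ := ih ((List.mem_cons.1 h).resolve_left (Ne.symm hb))
      exact ⟨b :: u, w, rfl, by
        intro a ha
        rcases List.mem_cons.1 ha with rfl | ha
        · exact hb
        · exact hu a ha⟩

theorem closed_cons {S : Finset α} {a0 : α} {v : List α} (hv : v ∈ Closed S a0) (hne : v ≠ []) :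
    ∃ u w, v = u ++ a0 :: w ∧ (∀ a ∈ u, a ∈ S.erase a0) ∧ w ∈ Closed S a0 := by
  obtain ⟨hS, h⟩ := hv
  obtain ⟨p, rfl⟩ := h.resolve_left hne
  obtain ⟨u, w, he, hu⟩ := exists_first (p ++ [a0]) a0 (by simp)
  refine ⟨u, w, he, fun a ha => Finset.mem_erase.2 ⟨hu a ha, hS a (by rw [he]; simp [ha])⟩,
    fun a ha => hS a (by rw [he]; simp [ha]), ?_⟩
  rcases List.eq_nil_or_concat w with rfl | ⟨w', b, rfl⟩
  · exact Or.inl rfl
  · refine Or.inr ⟨w', ?_⟩
    have h1 : p ++ [a0] = (u ++ a0 :: w') ++ [b] := by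
      rw [he, List.concat_eq_append]; simp
    rw [List.concat_eq_append, List.singleton_inj.1 (List.append_inj' h1 rfl).2]

theorem closed_append {S : Finset α} {a0 : α} {v w : List α} (hv : v ∈ Closed S a0)
    (hw : w ∈ Closed S a0) : v ++ w ∈ Closed S a0 := by
  refine ⟨fun a ha => (List.mem_append.1 ha).elim (hv.1 a) (hw.1 a), ?_⟩
  rcases hw.2 with rfl | ⟨u, rfl⟩
  · simpa using hv.2
  · exact Or.inr ⟨v ++ u, by simp⟩

theorem blocks_append (f : α → M) {S : Finset α} {a0 : α} : ∀ (n : ℕ) (v w : List α),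
    v.length ≤ n → v ∈ Closed S a0 →
      blocks f a0 1 (v ++ w) = blocks f a0 1 v ++ blocks f a0 1 w := by
  intro n
  induction n with
  | zero => intro v w hn _; simp [List.eq_nil_of_length_eq_zero (Nat.le_zero.1 hn), blocks]
  | succ n ih =>
    intro v w hn hv
    rcases eq_or_ne v [] with rfl | hne
    · simp [blocks]
    · obtain ⟨u, v', rfl, hu, hv'⟩ := closed_cons hv hne
      have hu' : ∀ a ∈ u, a ≠ a0 := fun a ha => (Finset.mem_erase.1 (hu a ha)).1
      simp only [List.length_append, List.length_cons] at hn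
      rw [List.append_assoc, List.cons_append, blocks_cut f a0 u 1 _ hu',
        blocks_cut f a0 u 1 _ hu', ih v' w (by omega) hv', List.cons_append]

theorem blocks_split (f : α → M) {S : Finset α} {a0 : α} : ∀ (x : List M) (v : List α)
    (y : List M), v ∈ Closed S a0 → blocks f a0 1 v = x ++ y →
      ∃ v₁ v₂, v = v₁ ++ v₂ ∧ v₁ ∈ Closed S a0 ∧ v₂ ∈ Closed S a0 ∧
        blocks f a0 1 v₁ = x ∧ blocks f a0 1 v₂ = y := by
  intro x
  induction x with
  | nil =>
    intro v y hv h
    exact ⟨[], v, rfl, ⟨by simp, Or.inl rfl⟩, hv, rfl, h⟩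
  | cons t x ih =>
    intro v y hv h
    obtain ⟨u, v', rfl, hu, hv'⟩ := closed_cons hv (by rintro rfl; simp [blocks] at h)
    have hu' : ∀ a ∈ u, a ≠ a0 := fun a ha => (Finset.mem_erase.1 (hu a ha)).1
    rw [blocks_cut f a0 u 1 _ hu', List.cons_append, List.cons.injEq] at h
    obtain ⟨v₁, v₂, rfl, h1, h2, h3, h4⟩ := ih v' y hv' h.2
    have hua : u ++ [a0] ∈ Closed S a0 := by
      refine ⟨fun a ha => ?_, Or.inr ⟨u, rfl⟩⟩
      exact hv.1 a (by simp only [List.mem_append, List.mem_cons] at ha ⊢; tauto)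
    refine ⟨u ++ a0 :: v₁, v₂, by simp, ?_, h2, ?_, h4⟩
    · have := closed_append hua h1
      simpa using this
    · rw [blocks_cut f a0 u 1 _ hu', h.1, h3]

theorem hle_closed [Fintype α] (S : Finset α) {a0 : α} (ha0 : a0 ∈ S) :
    HeightLE (Closed S a0) 0 := by
  refine hle_congr (hle_add (hle_one 0)
    (hle_mul (hle_all (fun a => a ∈ S)) (hle_char a0 0))) fun v => ?_
  constructor
  · rintro (h | h)
    · obtain rfl : v = [] := h
      exact ⟨by simp, Or.inl rfl⟩
    · obtain ⟨u, hu, _, rfl, rfl⟩ := Language.mem_mul.1 h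
      refine ⟨fun a ha => ?_, Or.inr ⟨u, rfl⟩⟩
      rcases List.mem_append.1 ha with ha | ha
      · exact hu a ha
      · rw [List.mem_singleton.1 ha]; exact ha0
  · rintro ⟨hS, rfl | ⟨u, rfl⟩⟩
    · exact Or.inl rfl
    · exact Or.inr (Language.mem_mul.2 ⟨u, fun a ha => hS a (by simp [ha]), [a0], rfl, rfl⟩)

/-- The words over S with a given value. -/
def atVal (f : α → M) (S : Finset α) (m : M) : Language α :=
  {w | (∀ a ∈ w, a ∈ S) ∧ ev f w = m}

theorem hle_pre [Fintype α] [Fintype M] (f : α → M) (S : Finset α) {a0 : α} (ha0 : a0 ∈ S)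
    (hB : ∀ m, HeightLE (atVal f (S.erase a0) m) 0) :
    ∀ P : GRegex M, P.sh = 0 → HeightLE (pre f S a0 P.lang) 0
  | .zero, _ => hle_congr (hle_zero 0) fun w =>
      ⟨fun h => absurd h (Language.notMem_zero w), fun h => absurd h.2 (Language.notMem_zero _)⟩
  | .one, _ => hle_congr (hle_one 0) fun w => by
      constructor
      · rintro (rfl : w = [])
        exact ⟨⟨by simp, Or.inl rfl⟩, rfl⟩
      · rintro ⟨hw, he⟩
        have he' : blocks f a0 1 w = [] := he
        show w = []
        by_contra hne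
        obtain ⟨u, v, rfl, hu, -⟩ := closed_cons hw hne
        rw [blocks_cut f a0 u 1 _ fun a ha => (Finset.mem_erase.1 (hu a ha)).1] at he'
        simp at he'
  | .char t, _ => hle_congr (hle_mul (hB t) (hle_char a0 0)) fun w => by
      constructor
      · intro h
        obtain ⟨u, ⟨hu, hev⟩, _, rfl, rfl⟩ := Language.mem_mul.1 h
        refine ⟨⟨fun a ha => ?_, Or.inr ⟨u, rfl⟩⟩, ?_⟩
        · rcases List.mem_append.1 ha with ha | ha
          · exact (Finset.mem_erase.1 (hu a ha)).2
          · rw [List.mem_singleton.1 ha]; exact ha0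
        · show blocks f a0 1 (u ++ [a0]) = [t]
          rw [blocks_cut f a0 u 1 _ fun a ha => (Finset.mem_erase.1 (hu a ha)).1, one_mul, hev]
          rfl
      · rintro ⟨hw, he⟩
        have he' : blocks f a0 1 w = [t] := he
        obtain ⟨u, v, rfl, hu, hv⟩ := closed_cons hw (by rintro rfl; simp [blocks] at he')
        rw [blocks_cut f a0 u 1 _ fun a ha => (Finset.mem_erase.1 (hu a ha)).1, one_mul,
          List.cons.injEq] at he'
        rcases eq_or_ne v [] with rfl | hne
        · exact Language.mem_mul.2 ⟨u, ⟨hu, he'.1⟩, [a0], rfl, rfl⟩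
        · obtain ⟨u', v', rfl, hu', -⟩ := closed_cons hv hne
          rw [blocks_cut f a0 u' 1 _ fun a ha => (Finset.mem_erase.1 (hu' a ha)).1] at he'
          simp at he'
  | .plus P Q, h => by
      have h' : max P.sh Q.sh = 0 := h
      refine hle_congr (hle_add (hle_pre f S ha0 hB P (by omega))
        (hle_pre f S ha0 hB Q (by omega))) fun w => ?_
      exact ⟨fun h'' => h''.elim (fun h1 => ⟨h1.1, Or.inl h1.2⟩) (fun h1 => ⟨h1.1, Or.inr h1.2⟩),
        fun h'' => h''.2.elim (fun h1 => Or.inl ⟨h''.1, h1⟩) (fun h1 => Or.inr ⟨h''.1, h1⟩)⟩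
  | .mul P Q, h => by
      have h' : max P.sh Q.sh = 0 := h
      refine hle_congr (hle_mul (hle_pre f S ha0 hB P (by omega))
        (hle_pre f S ha0 hB Q (by omega))) fun w => ?_
      constructor
      · intro hw
        obtain ⟨u, ⟨hu, hu'⟩, v, ⟨hv, hv'⟩, rfl⟩ := Language.mem_mul.1 hw
        refine ⟨closed_append hu hv, ?_⟩
        rw [blocks_append f u.length u v le_rfl hu]
        exact Language.mem_mul.2 ⟨_, hu', _, hv', rfl⟩
      · rintro ⟨hw, he⟩
        obtain ⟨x, hx, y, hy, hxy⟩ := Language.mem_mul.1 he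
        obtain ⟨v₁, v₂, rfl, h1, h2, h3, h4⟩ := blocks_split f x w y hw hxy.symm
        exact Language.mem_mul.2 ⟨v₁, ⟨h1, h3.symm ▸ hx⟩, v₂, ⟨h2, h4.symm ▸ hy⟩, rfl⟩
  | .compl P, h => by
      refine hle_congr (hle_compl (hle_add (hle_compl (hle_closed S ha0))
        (hle_pre f S ha0 hB P h))) fun w => ?_
      show ¬(¬w ∈ Closed S a0 ∨ (w ∈ Closed S a0 ∧ blocks f a0 1 w ∈ P.lang)) ↔
        (w ∈ Closed S a0 ∧ ¬ blocks f a0 1 w ∈ P.lang)
      tauto
  | .star P, h => by
      have h' : P.sh + 1 = 0 := h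
      omega

theorem ev_eq_blocks (f : α → M) {S : Finset α} {a0 : α} (hc : f a0 = c) : ∀ (n : ℕ) (v : List α),
    v.length ≤ n → v ∈ Closed S a0 →
      (ev (dgen c) (blocks f a0 1 v)).val = c * ev f v := by
  intro n
  induction n with
  | zero =>
    intro v hn _
    simp [List.eq_nil_of_length_eq_zero (Nat.le_zero.1 hn), blocks, Divisor.one_val]
  | succ n ih =>
    intro v hn hv
    rcases eq_or_ne v [] with rfl | hne
    · simp [blocks, Divisor.one_val]
    · obtain ⟨u, w, rfl, hu, hw⟩ := closed_cons hv hne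
      simp only [List.length_append, List.length_cons] at hn
      rw [blocks_cut f a0 u 1 _ fun a ha => (Finset.mem_erase.1 (hu a ha)).1, one_mul, ev_cons,
        Divisor.mul_val (y := c * ev f u) rfl, ih w (by omega) hw, ev_append, ev_cons, hc]
      simp only [mul_assoc]

theorem atVal_iff (f : α → M) {S : Finset α} {a0 : α} (ha0 : a0 ∈ S) (m : M) (w : List α) :
    w ∈ atVal f S m ↔ w ∈ atVal f (S.erase a0) m ∨
      ∃ t₁ t₂ : M, ∃ z : Divisor (f a0), t₁ * z.val * t₂ = m ∧
        w ∈ atVal f (S.erase a0) t₁ * ({[a0]} : Language α) *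
          pre f S a0 {x | ev (dgen (f a0)) x = z} * atVal f (S.erase a0) t₂ := by
  constructor
  · rintro ⟨hS, hev⟩
    by_cases hmem : a0 ∈ w
    · obtain ⟨u₀, w', rfl, hu⟩ := exists_first w a0 hmem
      obtain ⟨v, r, rfl, hcl, hr⟩ : ∃ v r, w' = v ++ r ∧ v ∈ Closed S a0 ∧ ∀ a ∈ r, a ≠ a0 := by
        by_cases h : a0 ∈ w'.reverse
        · obtain ⟨t, v', ht', ht⟩ := exists_first w'.reverse a0 h
          have he : w' = (v'.reverse ++ [a0]) ++ t.reverse := by
            simpa using congrArg List.reverse ht'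
          refine ⟨v'.reverse ++ [a0], t.reverse, he, ⟨fun a ha => hS a ?_, Or.inr ⟨_, rfl⟩⟩,
            fun a ha => ht a (List.mem_reverse.1 ha)⟩
          rw [he]
          exact List.mem_append_right _ (List.mem_cons_of_mem _ (List.mem_append_left _ ha))
        · exact ⟨[], w', rfl, ⟨by simp, Or.inl rfl⟩,
            fun a ha e => h (List.mem_reverse.2 (e ▸ ha))⟩
      refine Or.inr ⟨ev f u₀, ev f r, ev (dgen (f a0)) (blocks f a0 1 v), ?_, ?_⟩
      · rw [ev_eq_blocks f rfl v.length v le_rfl hcl, ← hev]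
        simp only [ev_append, ev_cons, mul_assoc]
      · refine Language.mem_mul.2 ⟨u₀ ++ [a0] ++ v, Language.mem_mul.2 ⟨u₀ ++ [a0],
          Language.mem_mul.2 ⟨u₀, ⟨fun a ha => Finset.mem_erase.2 ⟨hu a ha, hS a (by simp [ha])⟩,
            rfl⟩, [a0], rfl, rfl⟩, v, ⟨hcl, rfl⟩, rfl⟩, r, ⟨fun a ha => ?_, rfl⟩, by simp⟩
        exact Finset.mem_erase.2 ⟨hr a ha, hS a (by simp [ha])⟩
    · exact Or.inl ⟨fun a ha => Finset.mem_erase.2 ⟨fun e => hmem (e ▸ ha), hS a ha⟩, hev⟩
  · rintro (⟨h1, h2⟩ | ⟨t₁, t₂, z, hz, h⟩)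
    · exact ⟨fun a ha => (Finset.mem_erase.1 (h1 a ha)).2, h2⟩
    · obtain ⟨_, h', r, ⟨hr, hr'⟩, rfl⟩ := Language.mem_mul.1 h
      obtain ⟨_, h'', v, ⟨hv, hv'⟩, rfl⟩ := Language.mem_mul.1 h'
      obtain ⟨u, ⟨hu, hu'⟩, _, rfl, rfl⟩ := Language.mem_mul.1 h''
      have hv'' : ev (dgen (f a0)) (blocks f a0 1 v) = z := hv'
      refine ⟨fun a ha => ?_, ?_⟩
      · simp only [List.mem_append, List.mem_singleton] at ha
        rcases ha with ((ha | rfl) | ha) | ha
        · exact (Finset.mem_erase.1 (hu a ha)).2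
        · exact ha0
        · exact hv.1 a ha
        · exact (Finset.mem_erase.1 (hr a ha)).2
      · rw [← hz, ← hv'', ev_eq_blocks f rfl v.length v le_rfl hv]
        simp only [ev_append, ev_cons, ev_nil, mul_one, hu', hr', mul_assoc]

theorem hle_atVal : ∀ (n : ℕ) (M : Type) [Monoid M] [Fintype M], IsAperiodic M →
    Fintype.card M ≤ n → ∀ (α : Type) [Fintype α] (f : α → M) (S : Finset α) (m : M),
      HeightLE (atVal f S m) 0 := by
  intro n
  induction n with
  | zero =>
    intro M _ _ _ h
    have := (Fintype.card_pos : 0 < Fintype.card M)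
    omega
  | succ n ih =>
    intro M _ _ hM hn α _ f S
    induction S using Finset.strongInductionOn with
    | _ S ihS =>
      intro m
      by_cases hex : ∃ a ∈ S, f a ≠ 1
      · obtain ⟨a0, ha0, hne⟩ := hex
        have hB := ihS (S.erase a0) (Finset.erase_ssubset ha0)
        have hlt := card_divisor_lt hM hne
        have hsub : ∀ z : Divisor (f a0),
            HeightLE (pre f S a0 {x | ev (dgen (f a0)) x = z}) 0 := by
          intro z
          obtain ⟨P, hP, hP0⟩ := ih (Divisor (f a0)) (Divisor.isAperiodic hM) (by omega) M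
            (dgen (f a0)) Finset.univ z
          have hlang : P.lang = {x | ev (dgen (f a0)) x = z} := by
            rw [hP]
            exact Set.ext fun x => ⟨fun h => h.2, fun h => ⟨fun a _ => Finset.mem_univ a, h⟩⟩
          exact hlang ▸ hle_pre f S ha0 hB P (Nat.le_zero.1 hP0)
        refine hle_congr (hle_add (hB m) (hle_iUnion (fun p : M × M × Divisor (f a0) =>
          if p.1 * p.2.2.val * p.2.1 = m then atVal f (S.erase a0) p.1 * ({[a0]} : Language α) *
            pre f S a0 {x | ev (dgen (f a0)) x = p.2.2} * atVal f (S.erase a0) p.2.1 else 0)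
          fun p => ?_)) fun w => ?_
        · split_ifs
          · exact hle_mul (hle_mul (hle_mul (hB _) (hle_char a0 0)) (hsub _)) (hB _)
          · exact hle_zero 0
        · rw [atVal_iff f ha0 m w]
          refine or_congr Iff.rfl ⟨?_, ?_⟩
          · rintro ⟨⟨t₁, t₂, z⟩, h⟩
            split_ifs at h with he
            · exact ⟨t₁, t₂, z, he, h⟩
            · exact absurd h (Language.notMem_zero w)
          · rintro ⟨t₁, t₂, z, he, h⟩
            exact ⟨(t₁, t₂, z), by rwa [if_pos he]⟩
      · push Not at hex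
        have hone : ∀ w : List α, (∀ a ∈ w, a ∈ S) → ev f w = 1 := by
          intro w
          induction w with
          | nil => intro _; simp
          | cons a w ih' =>
            intro h
            rw [ev_cons, hex a (h a (by simp)), one_mul, ih' fun b hb => h b (by simp [hb])]
        by_cases hm : m = 1
        · exact hle_congr (hle_all fun a => a ∈ S) fun w =>
            ⟨fun h => ⟨h, hm ▸ hone w h⟩, fun h => h.1⟩
        · exact hle_congr (hle_zero 0) fun w =>
            ⟨fun h => absurd h (Language.notMem_zero w),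
              fun h => absurd (h.2.symm.trans (hone w h.1)) hm⟩

end Schutz

/-- Schutzenberger: a language recognised by a finite aperiodic monoid is star-free. -/
theorem heightLE_zero_of_aperiodic {M α : Type} [Monoid M] [Fintype M] [Fintype α]
    (hM : IsAperiodic M) (f : α → M) (T : Set M) :
    HeightLE ({w | ev f w ∈ T} : Language α) 0 := by
  classical
  refine RootInc.hle_congr (RootInc.hle_iUnion (fun m : M =>
    if m ∈ T then Schutz.atVal f Finset.univ m else 0) fun m => ?_) fun w => ⟨?_, ?_⟩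
  · split_ifs
    · exact Schutz.hle_atVal (Fintype.card M) M hM le_rfl α f Finset.univ m
    · exact RootInc.hle_zero 0
  · rintro ⟨m, h⟩
    split_ifs at h with hm
    · have h2 : ev f w = m := h.2
      show ev f w ∈ T
      rwa [h2]
    · exact absurd h (Language.notMem_zero w)
  · intro h
    refine ⟨ev f w, ?_⟩
    rw [if_pos (show ev f w ∈ T from h)]
    exact ⟨fun a _ => Finset.mem_univ a, rfl⟩

end Vale.Agent.P329
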