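import Mathlib
import Vale.Agent.P329.StarFree

/-!
P329: in a finite group of nilpotency class at most c the value of a word is determined by the
numbers of its scattered subwords of length at most c modulo the order of the group.
-/

namespace Vale.Agent.P329

namespace Collect

open scoped Classical commutatorElement
open Subgroup

/-- The lower central series of the whole group. -/
abbrev lcs (G : Type) [Group G] (n : ℕ) : Subgroup G := (⊤ : Subgroup G).lowerCentralSeries n

theorem lcs_comm (G : Type) [Group G] : ∀ j i : ℕ, ⁅lcs G i, lcs G j⁆ ≤ lcs G (i + j + 1) := by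
  intro j
  induction j with
  | zero => intro i; exact le_of_eq (Subgroup.lowerCentralSeries_succ ⊤ i).symm
  | succ j ih =>
    intro i
    set N := lcs G (i + (j + 1) + 1) with hN
    let π := QuotientGroup.mk' N
    have hker : ∀ K : Subgroup G, K.map π = ⊥ ↔ K ≤ N := fun K => by
      rw [Subgroup.map_eq_bot_iff, QuotientGroup.ker_mk']
    have h1 : ⁅⁅(⊤ : Subgroup G).map π, (lcs G i).map π⁆, (lcs G j).map π⁆ = ⊥ := by
      rw [← map_commutator, ← map_commutator, hker]
      refine le_trans (commutator_mono (le_trans (le_of_eq (commutator_comm _ _))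
        (le_of_eq (Subgroup.lowerCentralSeries_succ ⊤ i).symm)) le_rfl) ((ih (i + 1)).trans (le_of_eq ?_))
      rw [hN]
      congr 1
      omega
    have h2 : ⁅⁅(lcs G i).map π, (lcs G j).map π⁆, (⊤ : Subgroup G).map π⁆ = ⊥ := by
      rw [← map_commutator, ← map_commutator, hker]
      refine (commutator_mono (ih i) le_rfl).trans (le_of_eq ?_)
      rw [hN, show i + (j + 1) + 1 = (i + j + 1) + 1 by omega]
      rfl
    have h3 := commutator_commutator_eq_bot_of_rotate h1 h2
    rw [← map_commutator, ← map_commutator, hker, commutator_comm] at h3
    exact h3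

theorem lcs_map {G H : Type} [Group G] [Group H] (φ : G →* H) {n : ℕ} {x : G}
    (hx : x ∈ lcs G n) : φ x ∈ lcs H n := by
  have h : φ x ∈ (lcs G n).map φ := mem_map_of_mem φ hx
  rw [map_lowerCentralSeries] at h
  have hmono : ∀ (m : ℕ) (S T : Subgroup H), S ≤ T →
      S.lowerCentralSeries m ≤ T.lowerCentralSeries m := by
    intro m
    induction m with
    | zero => intro S T h; exact h
    | succ m ih =>
      intro S T h
      simp only [Subgroup.lowerCentralSeries_succ]
      exact commutator_mono (ih S T h) h
  exact hmono n _ ⊤ le_top h

/-! ### Layers -/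

variable {α : Type} [Fintype α]

/-- The patterns of a given length, in a fixed order. -/
noncomputable def pats (α : Type) [Fintype α] (j : ℕ) : List (List α) :=
  (Finset.univ : Finset (Fin j → α)).toList.map List.ofFn

theorem mem_pats {j : ℕ} {u : List α} : u ∈ pats α j ↔ u.length = j := by
  constructor
  · intro h
    obtain ⟨g, -, rfl⟩ := List.mem_map.1 h
    simp
  · rintro rfl
    exact List.mem_map.2 ⟨u.get, by simp, List.ofFn_get u⟩

theorem nodup_pats (j : ℕ) : (pats α j).Nodup :=
  (Finset.nodup_toList _).map fun _ _ h => List.ofFn_injective h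

variable {G : Type} [Group G]

/-- The product of the values. -/
def val (l : List (α × G)) : G := (l.map Prod.snd).prod

/-- The collected product of the corrections of the sublists of length at most k. -/
noncomputable def coll : ℕ → List (α × G) → G
  | 0, _ => 1
  | k + 1, l => coll k l * ((pats α (k + 1)).map fun u => ((List.sublistsLen (k + 1) l).map
      fun s => if s.map Prod.fst = u then (coll k s)⁻¹ * val s else 1).prod).prod

/-- The error after collecting up to length c. -/
noncomputable def err (c : ℕ) (l : List (α × G)) : G := (coll c l)⁻¹ * val l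

theorem prod_one_of_forall {β : Type} (L : List β) (h : β → G) (hh : ∀ b ∈ L, h b = 1) :
    (L.map h).prod = 1 :=
  List.prod_eq_one fun x hx => by
    obtain ⟨b, hb, rfl⟩ := List.mem_map.1 hx
    exact hh b hb

theorem prod_single {β : Type} (L : List β) (hn : L.Nodup) (h : β → G) {u : β} (hu : u ∈ L)
    (hh : ∀ b ∈ L, b ≠ u → h b = 1) : (L.map h).prod = h u := by
  obtain ⟨p, q, rfl⟩ := List.append_of_mem hu
  rw [List.nodup_append, List.nodup_cons] at hn
  obtain ⟨-, ⟨huq, -⟩, hd⟩ := hn
  rw [List.map_append, List.prod_append, List.map_cons, List.prod_cons,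
    prod_one_of_forall p _ fun b hb => hh b (by simp [hb]) (hd b hb u (by simp)),
    prod_one_of_forall q _ fun b hb => hh b (by simp [hb]) fun e => huq (e ▸ hb), one_mul, mul_one]

theorem sublists_remove {β : Type} : ∀ (a : List β) (e : β) (b : List β) (j : ℕ)
    (h : List β → G), (∀ s, s.length = j → (∃ p q, s = p ++ e :: q) → h s = 1) →
      ((List.sublistsLen j (a ++ e :: b)).map h).prod =
        ((List.sublistsLen j (a ++ b)).map h).prod := by
  intro a
  induction a with
  | nil =>
    intro e b j h hh
    cases j with
    | zero => simp
    | succ j =>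
      rw [List.nil_append, List.nil_append, List.sublistsLen_succ_cons, List.map_append,
        List.prod_append, List.map_map,
        prod_one_of_forall (List.sublistsLen j b) _ fun s hs => ?_, mul_one]
      exact hh _ (by simp [List.length_of_sublistsLen hs]) ⟨[], s, rfl⟩
  | cons y a ih =>
    intro e b j h hh
    cases j with
    | zero => simp
    | succ j =>
      simp only [List.cons_append, List.sublistsLen_succ_cons, List.map_append, List.prod_append,
        List.map_map]
      rw [ih e b (j + 1) h hh, ih e b j (h ∘ List.cons y) fun s hs ⟨p, q, hpq⟩ =>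
        hh _ (by simp [hs]) ⟨y :: p, q, by simp [hpq]⟩]

theorem coll_of_length_le : ∀ (k : ℕ) (l : List (α × G)), l.length ≤ k → coll k l = val l := by
  intro k
  induction k with
  | zero => intro l h; simp [coll, val, List.eq_nil_of_length_eq_zero (Nat.le_zero.1 h)]
  | succ k ih =>
    intro l h
    rw [coll]
    rcases Nat.lt_or_ge l.length (k + 1) with hlt | hge
    · rw [prod_one_of_forall _ _ fun u _ => ?_, mul_one, ih l (by omega)]
      rw [List.sublistsLen_of_length_lt hlt]
      rfl
    · have hl : l.length = k + 1 := le_antisymm h hge
      have htop : List.sublistsLen (k + 1) l = [l] := by rw [← hl, List.sublistsLen_length]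
      simp only [htop, List.map_cons, List.map_nil, List.prod_cons, List.prod_nil, mul_one]
      rw [prod_single _ (nodup_pats _) _ (mem_pats.2 (by simp [hl] : (l.map Prod.fst).length = k + 1))
        fun u _ hu => if_neg (Ne.symm hu), if_pos rfl,
        mul_inv_cancel_left]

theorem coll_remove : ∀ (k : ℕ) (a b : List (α × G)) (x : α),
    coll k (a ++ (x, 1) :: b) = coll k (a ++ b) := by
  intro k
  induction k using Nat.strong_induction_on with
  | _ k ih =>
    intro a b x
    cases k with
    | zero => rfl
    | succ k =>
      rw [coll, coll, ih k (by omega) a b x]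
      congr 1
      refine congrArg List.prod (List.map_congr_left fun u _ => ?_)
      refine sublists_remove a (x, 1) b (k + 1) _ ?_
      rintro s hs ⟨p, q, rfl⟩
      split_ifs with hu
      · have hlen : (p ++ q).length ≤ k := by simp at hs ⊢; omega
        rw [ih k (by omega) p q x, coll_of_length_le k _ hlen]
        simp [val]
      · rfl

theorem err_remove (c : ℕ) (a b : List (α × G)) (x : α) :
    err c (a ++ (x, 1) :: b) = err c (a ++ b) := by
  simp [err, coll_remove, val]

theorem sublistsLen_map' {β γ : Type} (f : β → γ) : ∀ (l : List β) (j : ℕ),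
    List.sublistsLen j (l.map f) = (List.sublistsLen j l).map (List.map f) := by
  intro l
  induction l with
  | nil => intro j; cases j <;> simp
  | cons y l ih =>
    intro j
    cases j with
    | zero => simp
    | succ j =>
      simp only [List.map_cons, List.sublistsLen_succ_cons, List.map_append, List.map_map, ih]
      rfl

theorem map_coll {H : Type} [Group H] (φ : G →* H) : ∀ (k : ℕ) (l : List (α × G)),
    φ (coll k l) = coll k (l.map fun p => (p.1, φ p.2)) := by
  intro k
  induction k with
  | zero => intro l; simp [coll]
  | succ k ih =>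
    intro l
    rw [coll, coll, map_mul, ih, map_list_prod, List.map_map]
    congr 1
    refine congrArg List.prod (List.map_congr_left fun u _ => ?_)
    rw [Function.comp_apply, map_list_prod, sublistsLen_map', List.map_map, List.map_map]
    refine congrArg List.prod (List.map_congr_left fun s _ => ?_)
    simp only [Function.comp_apply, apply_ite φ, map_one, map_mul, map_inv, ih, val, map_list_prod,
      List.map_map]
    rfl

theorem map_err {H : Type} [Group H] (φ : G →* H) (c : ℕ) (l : List (α × G)) :
    φ (err c l) = err c (l.map fun p => (p.1, φ p.2)) := by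
  simp only [err, map_mul, map_inv, map_coll, val, map_list_prod, List.map_map]
  rfl

/-! ### The Brunnian lemma in a free group -/

section free

variable {n : ℕ}

/-- The retraction killing one generator. -/
def kill (i : Fin n) : FreeGroup (Fin n) →* FreeGroup (Fin n) :=
  FreeGroup.lift fun j => if j = i then 1 else FreeGroup.of j

/-- Products of conjugates of commutators using every generator of T. -/
inductive Brun : Finset (Fin n) → FreeGroup (Fin n) → Prop
  | of (j : Fin n) : Brun {j} (FreeGroup.of j)
  | one (T : Finset (Fin n)) : Brun T 1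
  | mul {T : Finset (Fin n)} {a b : FreeGroup (Fin n)} : Brun T a → Brun T b → Brun T (a * b)
  | inv {T : Finset (Fin n)} {a : FreeGroup (Fin n)} : Brun T a → Brun T a⁻¹
  | conj {T : Finset (Fin n)} {a : FreeGroup (Fin n)} (g : FreeGroup (Fin n)) :
      Brun T a → Brun T (g * a * g⁻¹)
  | comm {U V : Finset (Fin n)} {a b : FreeGroup (Fin n)} :
      Brun U a → Brun V b → Disjoint U V → Brun (U ∪ V) ⁅a, b⁆

theorem Brun.nonempty {T : Finset (Fin n)} {h : FreeGroup (Fin n)} (hh : Brun T h) :
    T.Nonempty ∨ h = 1 := by
  induction hh with
  | of j => exact Or.inl ⟨j, by simp⟩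
  | one T => exact Or.inr rfl
  | mul _ _ iha ihb => rcases iha with h | h <;> rcases ihb with h' | h' <;> simp_all
  | inv _ ih => rcases ih with h | h <;> simp_all
  | conj g _ ih => rcases ih with h | h <;> simp_all
  | @comm U V a b _ _ _ iha _ =>
    rcases iha with h | h
    · exact Or.inl (h.mono Finset.subset_union_left)
    · exact Or.inr (by simp [h])

theorem Brun.mem_lcs {T : Finset (Fin n)} {h : FreeGroup (Fin n)} (hh : Brun T h) :
    h ∈ lcs (FreeGroup (Fin n)) (T.card - 1) := by
  induction hh with
  | of j => simp [lcs]
  | one T => exact one_mem _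
  | mul _ _ iha ihb => exact mul_mem iha ihb
  | inv _ ih => exact inv_mem ih
  | @conj T a g _ ih => exact Normal.conj_mem inferInstance _ ih g
  | @comm U V a b ha hb hd iha ihb =>
    rcases ha.nonempty with hU | h
    · rcases hb.nonempty with hV | h
      · have h1 := lcs_comm (FreeGroup (Fin n)) (V.card - 1) (U.card - 1)
          (commutator_mem_commutator iha ihb)
        have : (U ∪ V).card - 1 = U.card - 1 + (V.card - 1) + 1 := by
          have := hU.card_pos
          have := hV.card_pos
          rw [Finset.card_union_of_disjoint hd]
          omega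
        rwa [this]
      · simp [h]
    · simp [h]

theorem brun_kill {T : Finset (Fin n)} {h : FreeGroup (Fin n)} (hh : Brun T h) {i : Fin n}
    (hi : i ∉ T) : Brun T (kill i h) := by
  induction hh with
  | of j =>
    have hji : j ≠ i := fun e => hi (by simp [e])
    simpa [kill, hji] using Brun.of j
  | one T => simpa using Brun.one T
  | mul _ _ iha ihb => simpa using (iha hi).mul (ihb hi)
  | inv _ ih => simpa using (ih hi).inv
  | conj g _ ih => simpa using (ih hi).conj (kill i g)
  | comm _ _ hd iha ihb =>
    rw [Finset.mem_union, not_or] at hi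
    simpa [map_commutatorElement] using (iha hi.1).comm (ihb hi.2) hd

theorem brun_diff_one (i : Fin n) (g : FreeGroup (Fin n)) : Brun {i} (g⁻¹ * kill i g) := by
  induction g using FreeGroup.induction_on with
  | C1 => simpa using Brun.one {i}
  | of j =>
    by_cases h : j = i
    · subst h
      simpa [kill] using (Brun.of j).inv
    · simpa [kill, h] using Brun.one {i}
  | inv_of j ih =>
    have := (ih.inv).conj (FreeGroup.of j)
    convert this using 1
    simp only [map_inv, inv_inv]
    group
  | mul a b iha ihb =>
    have := (iha.conj b⁻¹).mul ihb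
    convert this using 1
    rw [map_mul]
    group

theorem brun_diff {T : Finset (Fin n)} {h : FreeGroup (Fin n)} (hh : Brun T h) {i : Fin n}
    (hi : i ∉ T) : Brun (insert i T) (h⁻¹ * kill i h) := by
  induction hh with
  | of j =>
    have hji : j ≠ i := fun e => hi (by simp [e])
    simpa [kill, hji] using Brun.one (insert i {j})
  | one T => simpa using Brun.one (insert i T)
  | @mul T a b _ _ iha ihb =>
    convert ((iha hi).conj b⁻¹).mul (ihb hi) using 1
    rw [map_mul]
    group
  | @inv T a _ ih =>
    convert ((ih hi).inv).conj a using 1
    rw [map_inv]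
    group
  | @conj T a g ha ih =>
    have hg := brun_diff_one i g
    have hc : Brun (insert i T) ⁅a⁻¹, g⁻¹ * kill i g⁆ := by
      have := ha.inv.comm hg (Finset.disjoint_singleton_right.2 hi)
      rwa [Finset.union_comm, ← Finset.insert_eq] at this
    convert (hc.mul ((ih hi).conj (g⁻¹ * kill i g))).conj g using 1
    rw [map_mul, map_mul, map_inv, commutatorElement_def]
    group
  | @comm U V a b ha hb hd iha ihb =>
    rw [Finset.mem_union, not_or] at hi
    have hX : Brun (insert i (U ∪ V)) ⁅a⁻¹ * kill i a, kill i b⁆ := by
      have := (iha hi.1).comm (brun_kill hb hi.2)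
        (Finset.disjoint_insert_left.2 ⟨hi.2, hd⟩)
      rwa [Finset.insert_union] at this
    have hY : Brun (insert i (U ∪ V)) ⁅a, b⁻¹ * kill i b⁆ := by
      have := ha.comm (ihb hi.2) (Finset.disjoint_insert_right.2 ⟨hi.1, hd⟩)
      rwa [Finset.union_insert] at this
    convert ((hX.conj a).conj ⁅a, b⁆⁻¹).mul (hY.conj b) using 1
    rw [map_commutatorElement]
    simp only [commutatorElement_def]
    group

/-- An element killed by every retraction modulo a term of the series lies in that term. -/
theorem mem_lcs_of_kill {c : ℕ} (hn : c + 1 ≤ n) {h : FreeGroup (Fin n)}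
    (hh : ∀ i, kill i h ∈ lcs (FreeGroup (Fin n)) c) : h ∈ lcs (FreeGroup (Fin n)) c := by
  set Γ := lcs (FreeGroup (Fin n)) c with hΓ
  have key : ∀ T : Finset (Fin n), T.Nonempty → ∃ z m, z ∈ Γ ∧ Brun T m ∧ h = z * m := by
    intro T
    induction T using Finset.induction_on with
    | empty => intro h'; simp at h'
    | @insert i T hi ih =>
      intro _
      rcases T.eq_empty_or_nonempty with rfl | hT
      · refine ⟨kill i h, (h⁻¹ * kill i h)⁻¹, hh i, ?_, by group⟩
        simpa using (brun_diff_one i h).inv
      · obtain ⟨z, m, hz, hm, he⟩ := ih hT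
        refine ⟨z * (kill i z)⁻¹ * kill i h, (m⁻¹ * kill i m)⁻¹, ?_, (brun_diff hm hi).inv, ?_⟩
        · exact mul_mem (mul_mem hz (inv_mem (lcs_map (kill i) hz))) (hh i)
        · rw [he, map_mul]; group
  have : Nonempty (Fin n) := ⟨⟨0, by omega⟩⟩
  obtain ⟨z, m, hz, hm, rfl⟩ := key Finset.univ Finset.univ_nonempty
  refine mul_mem hz (Subgroup.lowerCentralSeries_antitone (⊤ : Subgroup (FreeGroup (Fin n))) ?_ hm.mem_lcs)
  simp only [Finset.card_univ, Fintype.card_fin]
  omega

end free

theorem err_mem : ∀ (n c : ℕ) (G : Type) [Group G] (l : List (α × G)), l.length = n →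
    err c l ∈ lcs G c := by
  intro n
  induction n using Nat.strong_induction_on with
  | _ n ih =>
    intro c G _ l hl
    by_cases hc : n ≤ c
    · rw [err, coll_of_length_le c l (hl ▸ hc), inv_mul_cancel]
      exact one_mem _
    · subst hl
      let L : List (α × FreeGroup (Fin l.length)) :=
        List.ofFn fun i => (l[i].1, FreeGroup.of i)
      have hφ : L.map (fun p => (p.1, FreeGroup.lift (fun i => l[i].2) p.2)) = l := by
        simp only [L, List.map_ofFn, Function.comp_def, FreeGroup.lift_apply_of, Prod.mk.eta]
        exact List.ofFn_getElem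
      have hmem : err c L ∈ lcs _ c := by
        refine mem_lcs_of_kill (by omega) fun i => ?_
        rw [map_err]
        set L' := L.map (fun p => (p.1, kill i p.2)) with hL'
        have hlen : (i : ℕ) < L'.length := by simp [L', L]
        have hi : L'[(i : ℕ)] = (l[(i : ℕ)].1, 1) := by simp [L', L, kill]
        have hsplit : L' = L'.take i ++ (l[(i : ℕ)].1, 1) :: L'.drop (i + 1) := by
          rw [← hi, List.cons_getElem_drop_succ, List.take_append_drop]
        rw [hsplit, err_remove]
        refine ih _ ?_ c _ _ rfl
        have := congrArg List.length hsplit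
        simp [L', L] at this ⊢
        omega
      have := lcs_map (FreeGroup.lift fun i => l[i].2) hmem
      rw [map_err, hφ] at this
      exact this

theorem coll_word [Finite G] (f : α → G) (w v : List α) : ∀ c : ℕ,
    (∀ u : List α, 1 ≤ u.length → u.length ≤ c →
      (w.sublistsLen u.length).count u % Nat.card G =
        (v.sublistsLen u.length).count u % Nat.card G) →
      coll c (w.map fun a => (a, f a)) = coll c (v.map fun a => (a, f a)) := by
  intro c
  induction c with
  | zero => intro _; rfl
  | succ k ih =>
    intro h
    rw [coll, coll, ih fun u h1 h2 => h u h1 (by omega)]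
    congr 1
    refine congrArg List.prod (List.map_congr_left fun u hu => ?_)
    have hcount : ∀ x : List α,
        ((List.sublistsLen (k + 1) (x.map fun a => (a, f a))).map fun s =>
          if s.map Prod.fst = u then (coll k s)⁻¹ * val s else 1).prod =
        ((coll k (u.map fun a => (a, f a)))⁻¹ * val (u.map fun a => (a, f a))) ^
          (x.sublistsLen (k + 1)).count u := by
      intro x
      rw [sublistsLen_map', List.map_map, List.prod_map_eq_pow_single u _ fun s hs _ => ?_]
      · simp [List.map_map, Function.comp_def]
        congr!
      · simp [List.map_map, Function.comp_def, hs]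
    rw [hcount, hcount, ← pow_mod_natCard, eq_comm, ← pow_mod_natCard, eq_comm]
    have hlen := mem_pats.1 hu
    rw [← hlen, h u (by omega) (by omega)]

end Collect

/-- The value of a word in a finite group with lcs c trivial depends only on the numbers of
scattered subwords of length at most c modulo the order. -/
theorem ev_eq_of_subword_counts {G : Type} [Group G] [Finite G] {α : Type} [Fintype α]
    [DecidableEq α] (f : α → G) (c : ℕ)
    (hc : Subgroup.lowerCentralSeries (⊤ : Subgroup G) c = ⊥) (w v : List α)
    (h : ∀ u : List α, 1 ≤ u.length → u.length ≤ c →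
      (w.sublistsLen u.length).count u % Nat.card G =
        (v.sublistsLen u.length).count u % Nat.card G) :
    ev f w = ev f v := by
  have key : ∀ x : List α, ev f x = Collect.coll c (x.map fun a => (a, f a)) := by
    intro x
    have h1 := Collect.err_mem _ c G (x.map fun a => (a, f a)) rfl
    rw [Collect.lcs, hc, Subgroup.mem_bot, Collect.err, inv_mul_eq_one] at h1
    rw [h1, Collect.val, List.map_map]
    rfl
  rw [key, key]
  exact Collect.coll_word f w v c fun u h1 h2 => by convert h u h1 h2

end Vale.Agent.P329
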