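import Mathlib
import Vale.Agent.P329.StarFree

/-!
P329: scattered subword counts.
-/

namespace Vale.Agent.P329

variable {α : Type} [DecidableEq α]

/-- The number of occurrences of `u` as a scattered subword of `w`. -/
def cnt (u w : List α) : ℕ := (w.sublistsLen u.length).count u

end Vale.Agent.P329
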