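import Mathlib

/-!
Tools for the rank theorem and its upgrade (P329): invariant matrices with congruent columns,
character sums of periodic functions, reduction of a family to its minimal period, and
2-transitivity from a two-dimensional commutant.
-/

namespace Vale.Agent.P329

namespace Upgrade

open Finset

variable {Ω : Type}

/-- For a primitive group: if two different columns of an invariant matrix are congruent then all
entries are congruent. -/
theorem spread {K : Type*} [AddCommGroup K] (H : Subgroup (Equiv.Perm Ω))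
    [MulAction.IsPreprimitive H Ω] (O : AddSubgroup K) (M : Ω → Ω → K)
    (hM : ∀ h ∈ H, ∀ y z, M (h y) (h z) = M y z) {u v : Ω} (huv : u ≠ v)
    (hcol : ∀ y, M y u - M y v ∈ O) (y z w : Ω) : M y z - M w w ∈ O := by
  set B : Set Ω := {z | ∀ y, M y u - M y z ∈ O} with hB
  have hshift : ∀ h ∈ H, ∀ a b, (∀ y, M y a - M y b ∈ O) → ∀ y, M y (h a) - M y (h b) ∈ O := by
    intro h hh a b hab y
    have := hab (h.symm y)
    rw [← hM h hh (h.symm y) a, ← hM h hh (h.symm y) b, Equiv.apply_symm_apply] at this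
    exact this
  have hblock : MulAction.IsBlock H B := by
    rw [MulAction.isBlock_iff_smul_eq_of_nonempty]
    rintro ⟨h, hh⟩ ⟨e, ⟨q, hq, rfl⟩, he⟩
    have hhu : ∀ y, M y u - M y (h u) ∈ O := by
      intro y
      have h1 := hshift h hh u q hq y
      have h2 : M y u - M y (h q) ∈ O := he y
      have := O.sub_mem h2 h1
      simpa using this
    refine Set.Subset.antisymm ?_ ?_
    · rintro _ ⟨b, hb, rfl⟩ y
      have := O.add_mem (hhu y) (hshift h hh u b hb y)
      simpa [Subgroup.smul_def] using this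
    · intro b hb
      refine ⟨h.symm b, fun y => ?_, by simp [Subgroup.smul_def]⟩
      have h3 := O.sub_mem (hb (h y)) (hhu (h y))
      rw [sub_sub_sub_cancel_left, hM h hh y u] at h3
      rwa [show M (h y) b = M y (h.symm b) by
        rw [← hM h hh y (h.symm b), Equiv.apply_symm_apply]] at h3
  have huniv : B = Set.univ :=
    (MulAction.IsPreprimitive.isTrivialBlock_of_isBlock (G := H) hblock).resolve_left fun hs =>
      huv (hs (show u ∈ B from fun y => by simp) (show v ∈ B from hcol))
  obtain ⟨⟨h, hh⟩, he⟩ := MulAction.exists_smul_eq H y w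
  have hyy : M w w = M y y := by
    change h y = w at he
    rw [← he, hM h hh]
  have hz : z ∈ B := huniv ▸ Set.mem_univ z
  have hy : y ∈ B := huniv ▸ Set.mem_univ y
  have := O.sub_mem (hy y) (hz y)
  rw [sub_sub_sub_cancel_left] at this
  rwa [hyy]

section chars

variable {d : ℕ} [NeZero d] {K : Type*} [Field K] {w : K}

theorem chi_add (hw : IsPrimitiveRoot w d) (a b : ZMod d) :
    w ^ (a + b).val = w ^ a.val * w ^ b.val := by
  rw [ZMod.val_add, ← pow_add, ← pow_eq_pow_mod _ hw.pow_eq_one]

theorem chi_eq_one_iff (hw : IsPrimitiveRoot w d) (a : ZMod d) : w ^ a.val = 1 ↔ a = 0 := by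
  rw [hw.pow_eq_one_iff_dvd]
  refine ⟨fun h => (ZMod.val_eq_zero a).1 (Nat.eq_zero_of_dvd_of_lt h (ZMod.val_lt a)), ?_⟩
  rintro rfl
  simp

theorem sum_periodic {R : ℕ} (t : ℕ) (f : ℕ → K) (hf : ∀ i, f (i + R) = f i) :
    ∑ i ∈ range (R * t), f i = t * ∑ i ∈ range R, f i := by
  have hshift : ∀ q i, f (R * q + i) = f i := by
    intro q
    induction q with
    | zero => simp
    | succ q ih =>
      intro i
      rw [show R * (q + 1) + i = (R * q + i) + R by ring, hf, ih]
  induction t with
  | zero => simp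
  | succ t ih =>
    rw [Nat.mul_succ, sum_range_add, ih, Nat.cast_succ, add_mul, one_mul,
      sum_congr rfl fun i _ => hshift t i]

/-- The character sum of a periodic function. -/
theorem periodic_sum (hw : IsPrimitiveRoot w d) {R t : ℕ} (hd : R * t = d) (g : ZMod d → K)
    (hg : ∀ a, g (a + R) = g a) (v : ZMod d) :
    ∑ a, g a * w ^ (a * v).val = if (R : ZMod d) * v = 0
      then (t : K) * ∑ r ∈ range R, g r * w ^ ((r : ZMod d) * v).val else 0 := by
  split_ifs with hv
  · have hper : ∀ i : ℕ, g ((i + R : ℕ) : ZMod d) * w ^ (((i + R : ℕ) : ZMod d) * v).val =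
        g i * w ^ ((i : ZMod d) * v).val := fun i => by
      rw [Nat.cast_add, hg, add_mul, hv, add_zero]
    rw [← sum_periodic t (fun i => g (i : ZMod d) * w ^ ((i : ZMod d) * v).val) hper, hd]
    refine sum_bij' (fun a _ => a.val) (fun i _ => (i : ZMod d)) (fun a _ => ?_) (fun _ _ => ?_)
      (fun a _ => ?_) (fun i hi => ?_) fun a _ => ?_
    · exact mem_range.2 (ZMod.val_lt a)
    · exact mem_univ _
    · exact ZMod.natCast_zmod_val a
    · exact ZMod.val_cast_of_lt (mem_range.1 hi)
    · rw [ZMod.natCast_zmod_val]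
  · set S := ∑ a, g a * w ^ (a * v).val with hS
    have h1 : S = S * w ^ ((R : ZMod d) * v).val := by
      rw [hS, sum_mul]
      refine (Fintype.sum_equiv (Equiv.addRight (R : ZMod d)) _ _ fun a => ?_).symm
      rw [Equiv.coe_addRight, hg, add_mul, chi_add hw, mul_assoc]
    by_contra hne
    exact hv ((chi_eq_one_iff hw _).1 (mul_left_cancel₀ hne (h1.symm.trans (mul_one S).symm)))

end chars

/-- A family can be reduced to its minimal period. -/
theorem exists_min_period (H : Subgroup (Equiv.Perm Ω)) : ∀ (d : ℕ) [NeZero d]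
    (c : ZMod d → Ω) (x : Ω → Option (ZMod d)) (s : ZMod d → Equiv.Perm Ω)
    (hmem : ∀ n, s n ∈ H) (hsome : ∀ n y l, x y = some l → s n y = c (n + l))
    (hnone : ∀ n y, x y = none → s n y = s 0 y) (hex : ∃ y l, x y = some l)
    (_ : ∃ n n', c n ≠ c n'),
    ∃ (e : ℕ) (_ : NeZero e) (c : ZMod e → Ω) (x : Ω → Option (ZMod e))
      (s : ZMod e → Equiv.Perm Ω), (∀ n, s n ∈ H) ∧
      (∀ n y l, x y = some l → s n y = c (n + l)) ∧
      (∀ n y, x y = none → s n y = s 0 y) ∧ (∃ y l, x y = some l) ∧ (∃ n n', c n ≠ c n') ∧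
      ∀ l : ℕ, l.Prime → l ∣ e → ∃ n, c (n + ((e / l : ℕ) : ZMod e)) ≠ c n := by
  intro d
  induction d using Nat.strong_induction_on with
  | _ d ih =>
    intro hd0 c x s hmem hsome hnone hex hc
    by_cases hper : ∀ l : ℕ, l.Prime → l ∣ d → ∃ n, c (n + ((d / l : ℕ) : ZMod d)) ≠ c n
    · exact ⟨d, hd0, c, x, s, hmem, hsome, hnone, hex, hc, hper⟩
    push Not at hper
    obtain ⟨l, hl, hld, hq⟩ := hper
    set e := d / l with he
    have hd : 0 < d := NeZero.pos d
    have hed : e ∣ d := Nat.div_dvd_of_dvd hld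
    have hlt : e < d := Nat.div_lt_self hd hl.one_lt
    have : NeZero e := ⟨(Nat.div_pos (Nat.le_of_dvd hd hld) hl.pos).ne'⟩
    have hshift : ∀ (q : ℕ) n, c (n + (q * e : ℕ)) = c n := by
      intro q
      induction q with
      | zero => simp
      | succ q ih => intro n; rw [add_one_mul, Nat.cast_add, ← add_assoc, hq, ih]
    let f := ZMod.castHom hed (ZMod e)
    have hfac : ∀ n : ZMod d, c (((f n).val : ℕ) : ZMod d) = c n := by
      intro n
      have : (f n).val = n.val % e := by
        conv_lhs => rw [← ZMod.natCast_zmod_val n, map_natCast, ZMod.val_natCast]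
      rw [this]
      conv_rhs => rw [← ZMod.natCast_zmod_val n, ← Nat.mod_add_div' n.val e, Nat.cast_add,
        hshift]
    refine ih e hlt (fun k => c (k.val : ZMod d)) (fun y => (x y).map f)
      (fun k => s (k.val : ZMod d)) (fun k => hmem _) ?_ ?_ ?_ ?_
    · intro k y m hy
      obtain ⟨m', hm', rfl⟩ := Option.map_eq_some_iff.1 hy
      change s (k.val : ZMod d) y = _
      rw [hsome _ _ _ hm']
      refine ((hfac _).symm.trans ?_)
      rw [map_add, map_natCast, ZMod.natCast_zmod_val]
    · intro k y hy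
      rw [Option.map_eq_none_iff] at hy
      change s (k.val : ZMod d) y = s ((0 : ZMod e).val : ZMod d) y
      rw [hnone _ _ hy, ZMod.val_zero, Nat.cast_zero]
    · obtain ⟨y, m, hm⟩ := hex
      exact ⟨y, f m, by simp [hm]⟩
    · obtain ⟨n, n', hn⟩ := hc
      exact ⟨f n, f n', fun he => hn ((hfac n).symm.trans (he.trans (hfac n')))⟩

/-- If every invariant matrix is constant off the diagonal, the group is 2-transitive. -/
theorem two_transitive_of_commutant (K : Type*) [Field K] (H : Subgroup (Equiv.Perm Ω))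
    (hspan : ∀ M : Ω → Ω → K, (∀ h ∈ H, ∀ y z, M (h y) (h z) = M y z) →
      ∃ β, ∀ y z, y ≠ z → M y z = β) :
    ∀ a b a' b' : Ω, a ≠ b → a' ≠ b' → ∃ h ∈ H, h a = a' ∧ h b = b' := by
  classical
  intro a b a' b' hab hab'
  let M : Ω → Ω → K := fun y z => if ∃ h ∈ H, h a = y ∧ h b = z then 1 else 0
  obtain ⟨β, hβ⟩ := hspan M fun g hg y z => by
    refine if_congr ⟨?_, ?_⟩ rfl rfl
    · rintro ⟨h, hh, h1, h2⟩
      exact ⟨g⁻¹ * h, H.mul_mem (H.inv_mem hg) hh, by simp [h1], by simp [h2]⟩
    · rintro ⟨h, hh, h1, h2⟩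
      exact ⟨g * h, H.mul_mem hg hh, by simp [h1], by simp [h2]⟩
  have h1 : M a b = 1 := if_pos ⟨1, H.one_mem, rfl, rfl⟩
  have h2 : M a' b' = 1 := by rw [hβ a' b' hab', ← hβ a b hab, h1]
  by_contra hno
  exact one_ne_zero (h2.symm.trans (if_neg hno))

end Upgrade

end Vale.Agent.P329
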