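import Mathlib
import Vale.Agent.P329.UpgradeTools

/-!
Families of permutations with one moving colour map (P329): commutant, Fourier eigenvectors,
classes of frequencies, their idempotents and the Galois action.
-/

namespace Vale.Agent.P329

set_option linter.unusedSectionVars false

namespace Rank

open Finset Matrix
open scoped BigOperators

/-- A family: a primitive group, a colour map on ZMod d without period, phases, permutations. -/
structure Fam (Ω : Type) [Fintype Ω] [DecidableEq Ω] (d : ℕ) where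
  /-- the group -/
  H : Subgroup (Equiv.Perm Ω)
  prim : MulAction.IsPreprimitive H Ω
  /-- the colours -/
  c : ZMod d → Ω
  /-- the phases -/
  x : Ω → Option (ZMod d)
  /-- the permutations -/
  s : ZMod d → Equiv.Perm Ω
  mem : ∀ n, s n ∈ H
  hsome : ∀ n y l, x y = some l → s n y = c (n + l)
  hnone : ∀ n y, x y = none → s n y = s 0 y
  hex : ∃ y l, x y = some l
  nonconst : ∃ n n', c n ≠ c n'
  hper : ∀ l : ℕ, l.Prime → l ∣ d → ∃ n, c (n + ((d / l : ℕ) : ZMod d)) ≠ c n

/-- The field of d-th roots of unity. -/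
abbrev K (d : ℕ) : Type := CyclotomicField d ℚ

/-- The cyclotomic property, for the algebra structure found by instance search. -/
instance cyclotomicExtension (d : ℕ) [NeZero d] : IsCyclotomicExtension {d} ℚ (K d) := by
  have e : (DivisionRing.toRatAlgebra : Algebra ℚ (K d)) = CyclotomicField.algebra d ℚ :=
    Subsingleton.elim _ _
  rw [e]
  infer_instance

variable {Ω : Type} [Fintype Ω] [DecidableEq Ω] {d : ℕ} [NeZero d]

/-- The chosen primitive root. -/
noncomputable def root (d : ℕ) [NeZero d] : K d := IsCyclotomicExtension.zeta d ℚ (K d)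

theorem root_spec : IsPrimitiveRoot (root d) d := IsCyclotomicExtension.zeta_spec d ℚ (K d)

/-- The character with frequency a at n. -/
noncomputable def chi (a n : ZMod d) : K d := root d ^ (a * n).val

theorem chi_add_right (a n m : ZMod d) : chi a (n + m) = chi a n * chi a m := by
  rw [chi, mul_add, Upgrade.chi_add root_spec]; rfl

theorem chi_add_left (a b n : ZMod d) : chi (a + b) n = chi a n * chi b n := by
  rw [chi, add_mul, Upgrade.chi_add root_spec]; rfl

theorem chi_zero_left (n : ZMod d) : chi 0 n = 1 := by simp [chi]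

theorem chi_zero_right (a : ZMod d) : chi a 0 = 1 := by simp [chi]

theorem chi_eq_one_iff (a n : ZMod d) : chi a n = 1 ↔ a * n = 0 :=
  Upgrade.chi_eq_one_iff root_spec _

theorem chi_isIntegral (a n : ZMod d) : IsIntegral ℤ (chi a n) :=
  (root_spec.isIntegral (NeZero.pos d)).pow _

theorem sum_chi_left (n : ZMod d) : ∑ a, chi a n = if n = 0 then (d : K d) else 0 := by
  have h := Upgrade.periodic_sum (root_spec (d := d)) (R := 1) (t := d) (one_mul d)
    (fun _ => (1 : K d)) (fun _ => rfl) n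
  simpa [chi] using h

theorem sum_chi_right (a : ZMod d) : ∑ n, chi a n = if a = 0 then (d : K d) else 0 := by
  rw [← sum_chi_left a]
  exact sum_congr rfl fun n _ => by rw [chi, chi, mul_comm]

theorem irreducible_cyclotomic : Irreducible (Polynomial.cyclotomic d ℚ) :=
  Polynomial.cyclotomic.irreducible_rat (NeZero.pos d)

/-- The automorphism raising the roots to the power u. -/
noncomputable def gal (u : (ZMod d)ˣ) : K d ≃ₐ[ℚ] K d :=
  (IsCyclotomicExtension.autEquivPow (K d) irreducible_cyclotomic).symm u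

theorem gal_root (u : (ZMod d)ˣ) : gal u (root d) = root d ^ (u : ZMod d).val := by
  set e := IsCyclotomicExtension.autEquivPow (K d) (irreducible_cyclotomic (d := d))
  have h1 : (root_spec (d := d)).autToPow ℚ (gal u) = u := e.apply_symm_apply u
  have h2 := (root_spec (d := d)).autToPow_spec ℚ (gal u)
  rw [h1] at h2
  exact h2.symm

theorem gal_chi (u : (ZMod d)ˣ) (a n : ZMod d) :
    gal u (chi a n) = chi ((u : ZMod d) * a) n := by
  rw [chi, map_pow, gal_root, ← pow_mul, chi, mul_assoc, ZMod.val_mul (u : ZMod d),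
    ← pow_eq_pow_mod _ (root_spec (d := d)).pow_eq_one]

theorem gal_mul (u v : (ZMod d)ˣ) (z : K d) : gal (u * v) z = gal u (gal v z) := by
  simp only [gal, map_mul, AlgEquiv.mul_apply]

theorem gal_one (z : K d) : gal (1 : (ZMod d)ˣ) z = z := by
  simp only [gal, map_one, AlgEquiv.one_apply]

theorem exists_rat_of_fixed {z : K d} (h : ∀ u : (ZMod d)ˣ, gal u z = z) :
    ∃ q : ℚ, z = algebraMap ℚ (K d) q := by
  have : IsGalois ℚ (K d) := IsCyclotomicExtension.isGalois {d} ℚ (K d)
  have : z ∈ Set.range (algebraMap ℚ (K d)) := by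
    rw [IsGalois.mem_range_algebraMap_iff_fixed]
    intro f
    obtain ⟨u, rfl⟩ :=
      (IsCyclotomicExtension.autEquivPow (K d) (irreducible_cyclotomic (d := d))).symm.surjective f
    exact h u
  obtain ⟨q, rfl⟩ := this
  exact ⟨q, rfl⟩

namespace Fam

variable (F : Fam Ω d)

theorem pretransitive : MulAction.IsPretransitive F.H Ω := F.prim.toIsPretransitive

theorem card_pos' (F : Fam Ω d) : (0 : ℕ) < Fintype.card Ω :=
  Fintype.card_pos_iff.2 ⟨F.c 0⟩

theorem card_ne_zero (F : Fam Ω d) : (Fintype.card Ω : K d) ≠ 0 := Nat.cast_ne_zero.2 F.card_pos'.ne'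

/-- Invariant matrices. -/
def Inv (M : Matrix Ω Ω (K d)) : Prop := ∀ h ∈ F.H, ∀ y z, M (h y) (h z) = M y z

/-- The Fourier vector of a frequency. -/
noncomputable def chat (a : ZMod d) : Ω → K d := fun v => ∑ n, if F.c n = v then chi a n else 0

/-- The spectrum. -/
def Spec (a : ZMod d) : Prop := a ≠ 0 ∧ F.chat a ≠ 0

theorem chat_isIntegral (a : ZMod d) (v : Ω) : IsIntegral ℤ (F.chat a v) :=
  IsIntegral.sum _ fun n _ => by
    split_ifs
    · exact chi_isIntegral a n
    · exact isIntegral_zero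

theorem mulVec_chat (M : Matrix Ω Ω (K d)) (a : ZMod d) (v : Ω) :
    (M *ᵥ F.chat a) v = ∑ n, M v (F.c n) * chi a n := by
  simp only [Matrix.mulVec, dotProduct, chat, mul_sum, mul_ite, mul_zero]
  rw [sum_comm]
  simp

theorem sum_chat {a : ZMod d} (ha : a ≠ 0) : ∑ v, F.chat a v = 0 := by
  simp only [chat]
  rw [sum_comm]
  simp [sum_chi_right, ha]

/-- Fourier inversion. -/
theorem inversion (M : Matrix Ω Ω (K d)) (y : Ω) (n : ZMod d) :
    (d : K d) * M y (F.c n) = ∑ a, chi a (-n) * (M *ᵥ F.chat a) y := by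
  simp only [mulVec_chat, mul_sum]
  rw [sum_comm]
  have : ∀ m, (∑ a, chi a (-n) * (M y (F.c m) * chi a m)) =
      if m = n then (d : K d) * M y (F.c n) else 0 := by
    intro m
    have h : ∀ a, chi a (-n) * (M y (F.c m) * chi a m) = M y (F.c m) * chi a (m + -n) := by
      intro a; rw [chi_add_right]; ring
    rw [sum_congr rfl fun a _ => h a, ← mul_sum, sum_chi_left]
    simp only [← sub_eq_add_neg, sub_eq_zero]
    split_ifs with hm
    · rw [hm, mul_comm]
    · rw [mul_zero]
  rw [sum_congr rfl fun m _ => this m]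
  simp

/-- A phased point. -/
noncomputable def y0 : Ω := F.hex.choose

/-- Its phase. -/
noncomputable def l0 : ZMod d := F.hex.choose_spec.choose

theorem x_y0 : F.x F.y0 = some F.l0 := F.hex.choose_spec.choose_spec

/-- The shift coefficient of a point. -/
noncomputable def coef (a : ZMod d) (z : Ω) : K d :=
  (F.x z).elim 0 fun l => chi a (F.l0 - l)

/-- The eigenvalue of an invariant matrix at a frequency. -/
noncomputable def theta (M : Matrix Ω Ω (K d)) (a : ZMod d) : K d :=
  ∑ z, M z F.y0 * F.coef a z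

theorem eigen {M : Matrix Ω Ω (K d)} (hM : F.Inv M) {a : ZMod d} (ha : a ≠ 0) :
    M *ᵥ F.chat a = F.theta M a • F.chat a := by
  funext v
  have hcol : ∀ n, M v (F.c n) = ∑ z, if F.s (n - F.l0) z = v then M z F.y0 else 0 := by
    intro n
    set h := F.s (n - F.l0)
    have e1 : F.c n = h F.y0 := by rw [F.hsome _ _ _ F.x_y0, sub_add_cancel]
    rw [sum_eq_single (h.symm v) (fun z _ hz => if_neg fun hh => hz (by rw [← hh]; simp))
      (fun hh => absurd (mem_univ _) hh), if_pos (by simp), e1]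
    have := hM h (F.mem _) (h.symm v) F.y0
    rwa [Equiv.apply_symm_apply] at this
  rw [mulVec_chat, Pi.smul_apply, smul_eq_mul, theta, sum_mul]
  simp only [hcol, sum_mul, ite_mul, zero_mul]
  rw [sum_comm]
  refine sum_congr rfl fun z _ => ?_
  cases hz : F.x z with
  | none =>
    simp only [coef, hz, Option.elim_none, mul_zero, zero_mul]
    have : ∀ n, F.s (n - F.l0) z = F.s 0 z := fun n => F.hnone _ _ hz
    simp only [this]
    split_ifs with h
    · rw [← mul_sum, sum_chi_right, if_neg ha, mul_zero]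
    · simp
  | some l =>
    simp only [coef, hz, Option.elim_some, chat, mul_sum, mul_ite, mul_zero]
    refine Fintype.sum_equiv (Equiv.addRight (l - F.l0)) _ _ fun n => ?_
    rw [F.hsome _ _ _ hz, Equiv.coe_addRight]
    rw [show n - F.l0 + l = n + (l - F.l0) by ring]
    refine if_congr Iff.rfl ?_ rfl
    rw [mul_assoc, ← chi_add_right, show F.l0 - l + (n + (l - F.l0)) = n by ring]

theorem theta_unique {M : Matrix Ω Ω (K d)} (hM : F.Inv M) {a : ZMod d} (ha : F.Spec a)
    {t : K d} (h : M *ᵥ F.chat a = t • F.chat a) : F.theta M a = t := by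
  rw [F.eigen hM ha.1] at h
  exact smul_left_injective (K d) ha.2 h

/-- An invariant matrix killing all nontrivial Fourier vectors is constant. -/
theorem const_of_kill {X : Matrix Ω Ω (K d)} (hX : F.Inv X)
    (hk : ∀ a, a ≠ 0 → X *ᵥ F.chat a = 0) (y z w : Ω) : X y z = X w w := by
  have hd : (d : K d) ≠ 0 := Nat.cast_ne_zero.2 (NeZero.ne d)
  obtain ⟨n, n', hne⟩ := F.nonconst
  have hcol : ∀ y, X y (F.c n) - X y (F.c n') ∈ (⊥ : AddSubgroup (K d)) := by
    intro y
    rw [AddSubgroup.mem_bot, sub_eq_zero]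
    refine mul_left_cancel₀ hd ?_
    rw [F.inversion, F.inversion]
    refine sum_congr rfl fun a _ => ?_
    rcases eq_or_ne a 0 with rfl | ha
    · simp [chi_zero_left]
    · simp [hk a ha]
  have := F.prim
  have h := Upgrade.spread F.H ⊥ X hX hne hcol y z w
  rwa [AddSubgroup.mem_bot, sub_eq_zero] at h

/-! ### Operations on invariant matrices -/

theorem inv_one : F.Inv 1 := fun h _ y z => by simp [Matrix.one_apply]

theorem inv_const (t : K d) : F.Inv (Matrix.of fun _ _ => t) := fun _ _ _ _ => rfl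

variable {F}

theorem Inv.add {M N : Matrix Ω Ω (K d)} (hM : F.Inv M) (hN : F.Inv N) : F.Inv (M + N) :=
  fun h hh y z => by simp [hM h hh y z, hN h hh y z]

theorem Inv.sub {M N : Matrix Ω Ω (K d)} (hM : F.Inv M) (hN : F.Inv N) : F.Inv (M - N) :=
  fun h hh y z => by simp [hM h hh y z, hN h hh y z]

theorem Inv.smul {M : Matrix Ω Ω (K d)} (t : K d) (hM : F.Inv M) : F.Inv (t • M) :=
  fun h hh y z => by simp [hM h hh y z]

theorem Inv.mul {M N : Matrix Ω Ω (K d)} (hM : F.Inv M) (hN : F.Inv N) : F.Inv (M * N) :=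
  fun h hh y z => by
    simp only [Matrix.mul_apply]
    refine (Fintype.sum_equiv h _ _ fun w => ?_).symm
    rw [hM h hh, hN h hh]

theorem Inv.transpose {M : Matrix Ω Ω (K d)} (hM : F.Inv M) : F.Inv Mᵀ :=
  fun h hh y z => hM h hh z y

theorem Inv.map {M : Matrix Ω Ω (K d)} (f : K d → K d) (hM : F.Inv M) : F.Inv (M.map f) :=
  fun h hh y z => by simp [hM h hh y z]

theorem Inv.finsetSum {ι : Type} (S : Finset ι) {M : ι → Matrix Ω Ω (K d)}
    (hM : ∀ i ∈ S, F.Inv (M i)) : F.Inv (∑ i ∈ S, M i) := fun h hh y z => by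
  simp only [Matrix.sum_apply]
  exact sum_congr rfl fun i hi => hM i hi h hh y z

theorem Inv.diag_eq {M : Matrix Ω Ω (K d)} (hM : F.Inv M) (y z : Ω) : M y y = M z z := by
  have := F.pretransitive
  obtain ⟨⟨h, hh⟩, he⟩ := MulAction.exists_smul_eq F.H y z
  change h y = z at he
  rw [← he, hM h hh]

theorem Inv.rowSum_eq {M : Matrix Ω Ω (K d)} (hM : F.Inv M) (y z : Ω) :
    ∑ w, M y w = ∑ w, M z w := by
  have := F.pretransitive
  obtain ⟨⟨h, hh⟩, he⟩ := MulAction.exists_smul_eq F.H y z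
  change h y = z at he
  exact Fintype.sum_equiv h _ _ fun w => by rw [← he, hM h hh]

variable (F)

theorem mulVec_ones {M : Matrix Ω Ω (K d)} (hM : F.Inv M) (y0 : Ω) :
    M *ᵥ (1 : Ω → K d) = (∑ w, M y0 w) • (1 : Ω → K d) := by
  funext y
  simp [Matrix.mulVec, dotProduct, hM.rowSum_eq y y0]

/-- Invariant matrices are determined by their action on the Fourier vectors and the constants. -/
theorem inv_ext {M N : Matrix Ω Ω (K d)} (hM : F.Inv M) (hN : F.Inv N)
    (h1 : M *ᵥ 1 = N *ᵥ 1) (h : ∀ a, a ≠ 0 → M *ᵥ F.chat a = N *ᵥ F.chat a) : M = N := by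
  have hk := F.const_of_kill (hM.sub hN) fun a ha => by rw [Matrix.sub_mulVec, h a ha, sub_self]
  ext y z
  have h2 : ∑ w, (M - N) y w = 0 := by
    have h' := congrFun h1 y
    simp only [Matrix.mulVec, dotProduct, Pi.one_apply, mul_one] at h'
    simp [sum_sub_distrib, h']
  rw [sum_congr rfl fun w _ => (hk y w y), sum_const, card_univ, nsmul_eq_mul,
    mul_eq_zero] at h2
  have h3 : (M - N) y z = 0 := (hk y z y).trans (h2.resolve_left F.card_ne_zero)
  exact sub_eq_zero.1 h3

theorem mul_comm_of_inv {M N : Matrix Ω Ω (K d)} (hM : F.Inv M) (hN : F.Inv N) :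
    M * N = N * M := by
  refine F.inv_ext (hM.mul hN) (hN.mul hM) ?_ fun a ha => ?_
  · simp [← Matrix.mulVec_mulVec, F.mulVec_ones hM (F.c 0), F.mulVec_ones hN (F.c 0),
      Matrix.mulVec_smul, smul_smul, mul_comm]
  · simp [← Matrix.mulVec_mulVec, F.eigen hM ha, F.eigen hN ha, Matrix.mulVec_smul, smul_smul,
      mul_comm]

theorem mulVec_const {a : ZMod d} (ha : a ≠ 0) (t : K d) :
    (Matrix.of fun _ _ => t : Matrix Ω Ω (K d)) *ᵥ F.chat a = 0 := by
  funext y
  simp [Matrix.mulVec, dotProduct, ← mul_sum, F.sum_chat ha]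

theorem mulVec_gal (u : (ZMod d)ˣ) (M : Matrix Ω Ω (K d)) (a : ZMod d) (v : Ω) :
    (M.map (gal u) *ᵥ F.chat (u * a)) v = gal u ((M *ᵥ F.chat a) v) := by
  simp [mulVec_chat, gal_chi]

theorem chat_gal (u : (ZMod d)ˣ) (a : ZMod d) (v : Ω) :
    F.chat (u * a) v = gal u (F.chat a v) := by
  simp only [chat, map_sum]
  exact sum_congr rfl fun n _ => by split_ifs <;> simp [gal_chi]

theorem spec_unit_mul (u : (ZMod d)ˣ) {a : ZMod d} (ha : F.Spec a) : F.Spec (u * a) := by
  refine ⟨fun h => ha.1 ((Units.mul_right_eq_zero u).1 h), fun h => ha.2 ?_⟩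
  funext v
  have := congrFun h v
  rw [F.chat_gal, Pi.zero_apply, map_eq_zero_iff _ (gal u).injective] at this
  exact this

theorem theta_gal (u : (ZMod d)ˣ) {M : Matrix Ω Ω (K d)} (hM : F.Inv M) {a : ZMod d}
    (ha : F.Spec a) : F.theta (M.map (gal u)) (u * a) = gal u (F.theta M a) := by
  refine F.theta_unique (hM.map _) (F.spec_unit_mul u ha) (funext fun v => ?_)
  rw [mulVec_gal, F.eigen hM ha.1]
  simp [← F.chat_gal u a v]

/-! ### Classes of frequencies -/

/-- The frequencies of the spectrum. -/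
def Sp : Type := {a : ZMod d // F.Spec a}

/-- Same eigenvalues for all invariant matrices. -/
def clsSetoid : Setoid F.Sp where
  r a b := ∀ M, F.Inv M → F.theta M a.1 = F.theta M b.1
  iseqv := ⟨fun _ _ _ => rfl, fun h M hM => (h M hM).symm,
    fun h h' M hM => (h M hM).trans (h' M hM)⟩

/-- The classes of frequencies. -/
def Cls : Type := Quotient F.clsSetoid

/-- The class of a frequency. -/
def cls (a : ZMod d) (ha : F.Spec a) : F.Cls := Quotient.mk F.clsSetoid ⟨a, ha⟩

theorem cls_surjective (q : F.Cls) : ∃ a ha, F.cls a ha = q :=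
  Quotient.inductionOn q fun a => ⟨a.1, a.2, rfl⟩

noncomputable instance : Fintype F.Cls := by
  classical
  have : Fintype F.Sp := inferInstanceAs (Fintype {a : ZMod d // F.Spec a})
  exact Fintype.ofSurjective (Quotient.mk F.clsSetoid) Quotient.mk_surjective

theorem theta_eq_of_cls {a b : ZMod d} {ha : F.Spec a} {hb : F.Spec b}
    (h : F.cls a ha = F.cls b hb) {M : Matrix Ω Ω (K d)} (hM : F.Inv M) :
    F.theta M a = F.theta M b :=
  Quotient.exact (s := F.clsSetoid) h M hM

/-- Multiplication of frequencies by units on classes. -/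
def smulCls (u : (ZMod d)ˣ) : F.Cls → F.Cls :=
  Quotient.map (sa := F.clsSetoid) (sb := F.clsSetoid)
    (fun a => ⟨u * a.1, F.spec_unit_mul u a.2⟩) fun a b h M hM => by
      have e : M = (M.map (gal u⁻¹)).map (gal u) := by
        ext y z; simp [← gal_mul, gal_one]
      change F.theta M (u * a.1) = F.theta M (u * b.1)
      rw [e, F.theta_gal u (hM.map _) a.2, F.theta_gal u (hM.map _) b.2, h _ (hM.map _)]

theorem smulCls_cls (u : (ZMod d)ˣ) (a : ZMod d) (ha : F.Spec a) :
    F.smulCls u (F.cls a ha) = F.cls (u * a) (F.spec_unit_mul u ha) := rfl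

theorem cls_congr {a b : ZMod d} (h : a = b) (ha : F.Spec a) :
    F.cls a ha = F.cls b (h ▸ ha) := by
  subst h; rfl

instance : MulAction (ZMod d)ˣ F.Cls where
  smul u q := F.smulCls u q
  one_smul q := by
    obtain ⟨a, ha, rfl⟩ := F.cls_surjective q
    exact (F.smulCls_cls 1 a ha).trans (F.cls_congr (by simp) _)
  mul_smul u v q := by
    obtain ⟨a, ha, rfl⟩ := F.cls_surjective q
    exact (F.smulCls_cls (u * v) a ha).trans (F.cls_congr (by simp [mul_assoc]) _)

theorem smul_cls (u : (ZMod d)ˣ) (a : ZMod d) (ha : F.Spec a) :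
    u • F.cls a ha = F.cls (u * a) (F.spec_unit_mul u ha) := rfl

/-- The frequencies in a set of classes. -/
def Mem (S : Finset F.Cls) (a : ZMod d) : Prop := ∃ ha, F.cls a ha ∈ S

open Classical in
/-- The projection onto a set of frequencies. -/
structure IsProj (Q : ZMod d → Prop) (E : Matrix Ω Ω (K d)) : Prop where
  inv : F.Inv E
  ones : E *ᵥ 1 = 0
  eig : ∀ a, a ≠ 0 → E *ᵥ F.chat a = if Q a then F.chat a else 0

theorem isProj_congr {Q Q' : ZMod d → Prop} {E : Matrix Ω Ω (K d)} (h : F.IsProj Q E)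
    (hQ : ∀ a, F.Spec a → (Q a ↔ Q' a)) : F.IsProj Q' E := by
  classical
  refine ⟨h.inv, h.ones, fun a ha => ?_⟩
  rw [h.eig a ha]
  by_cases hc : F.chat a = 0
  · simp [hc]
  · exact if_congr (hQ a ⟨ha, hc⟩) rfl rfl

theorem IsProj.unique {Q : ZMod d → Prop} {E E' : Matrix Ω Ω (K d)} (h : F.IsProj Q E)
    (h' : F.IsProj Q E') : E = E' :=
  F.inv_ext h.inv h'.inv (by rw [h.ones, h'.ones]) fun a ha => by rw [h.eig a ha, h'.eig a ha]

theorem IsProj.mul {Q Q' : ZMod d → Prop} {E E' : Matrix Ω Ω (K d)} (h : F.IsProj Q E)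
    (h' : F.IsProj Q' E') : F.IsProj (fun a => Q a ∧ Q' a) (E * E') := by
  classical
  refine ⟨h.inv.mul h'.inv, by simp [← Matrix.mulVec_mulVec, h'.ones], fun a ha => ?_⟩
  rw [← Matrix.mulVec_mulVec, h'.eig a ha]
  by_cases hq : Q' a
  · simp [hq, h.eig a ha]
  · simp [hq]

theorem isProj_false : F.IsProj (fun _ => False) 0 :=
  ⟨fun _ _ _ _ => rfl, by simp, fun a _ => by simp⟩

theorem IsProj.mul_self {Q : ZMod d → Prop} {E : Matrix Ω Ω (K d)} (h : F.IsProj Q E) :
    E * E = E :=
  ((F.isProj_congr (h.mul F h) fun _ _ => and_self_iff).unique F h)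

theorem IsProj.mul_eq_zero {Q Q' : ZMod d → Prop} {E E' : Matrix Ω Ω (K d)} (h : F.IsProj Q E)
    (h' : F.IsProj Q' E') (hd : ∀ a, F.Spec a → ¬(Q a ∧ Q' a)) : E * E' = 0 :=
  (F.isProj_congr (h.mul F h') fun a ha => iff_false_intro (hd a ha)).unique F F.isProj_false

theorem IsProj.add {Q Q' : ZMod d → Prop} {E E' : Matrix Ω Ω (K d)} (h : F.IsProj Q E)
    (h' : F.IsProj Q' E') (hd : ∀ a, ¬(Q a ∧ Q' a)) :
    F.IsProj (fun a => Q a ∨ Q' a) (E + E') := by
  classical
  refine ⟨h.inv.add h'.inv, by simp [Matrix.add_mulVec, h.ones, h'.ones], fun a ha => ?_⟩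
  rw [Matrix.add_mulVec, h.eig a ha, h'.eig a ha]
  by_cases hq : Q a
  · have : ¬Q' a := fun hh => hd a ⟨hq, hh⟩
    simp [hq, this]
  · by_cases hq' : Q' a <;> simp [hq, hq']

/-- The projection onto the whole spectrum. -/
theorem isProj_true : F.IsProj (fun _ => True)
    (1 - Matrix.of fun _ _ => (Fintype.card Ω : K d)⁻¹) := by
  refine ⟨F.inv_one.sub (F.inv_const _), ?_, fun a ha => ?_⟩
  · funext y
    simp [Matrix.mulVec, dotProduct, Matrix.one_apply, F.card_ne_zero]
  · simp [Matrix.sub_mulVec, F.mulVec_const ha]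

theorem IsProj.rowSum {Q : ZMod d → Prop} {E : Matrix Ω Ω (K d)} (h : F.IsProj Q E) (y : Ω) :
    ∑ z, E y z = 0 := by
  have := congrFun h.ones y
  simpa [Matrix.mulVec, dotProduct] using this

theorem IsProj.colSum {Q : ZMod d → Prop} {E : Matrix Ω Ω (K d)} (h : F.IsProj Q E) (z : Ω) :
    ∑ y, E y z = 0 := by
  have htot : ∑ w, ∑ y, E y w = 0 := by
    rw [sum_comm]; simp [h.rowSum F]
  have hcol : ∀ w, ∑ y, E y w = ∑ y, E y z := fun w => h.inv.transpose.rowSum_eq w z
  rw [sum_congr rfl fun w _ => hcol w, sum_const, card_univ, nsmul_eq_mul] at htot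
  exact (_root_.mul_eq_zero.1 htot).resolve_left F.card_ne_zero

open Classical in
/-- The difference of two coloured columns of a projection. -/
theorem IsProj.diff {Q : ZMod d → Prop} {E : Matrix Ω Ω (K d)} (h : F.IsProj Q E) (y : Ω)
    (n n' : ZMod d) : (d : K d) * (E y (F.c n) - E y (F.c n')) =
      ∑ a, if a ≠ 0 ∧ Q a then (chi a (-n) - chi a (-n')) * F.chat a y else 0 := by
  rw [mul_sub, F.inversion, F.inversion, ← sum_sub_distrib]
  refine sum_congr rfl fun a _ => ?_
  rcases eq_or_ne a 0 with rfl | ha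
  · simp [chi_zero_left]
  · rw [h.eig a ha]
    by_cases hq : Q a <;> simp [hq, ha, sub_mul]

theorem IsProj.map_gal {Q : ZMod d → Prop} {E : Matrix Ω Ω (K d)} (h : F.IsProj Q E)
    (u : (ZMod d)ˣ) : F.IsProj (fun a => Q ((↑u⁻¹ : ZMod d) * a)) (E.map (gal u)) := by
  classical
  refine ⟨h.inv.map _, funext fun y => ?_, fun a ha => funext fun v => ?_⟩
  · simp [Matrix.mulVec, dotProduct, ← map_sum, h.rowSum F]
  · obtain ⟨b, rfl⟩ : ∃ b, a = u * b := ⟨(↑u⁻¹ : ZMod d) * a, by simp⟩
    have hb : b ≠ 0 := fun hb => ha (by simp [hb])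
    rw [mulVec_gal, h.eig b hb, Units.inv_mul_cancel_left]
    by_cases hq : Q b <;> simp [hq, F.chat_gal]

/-! ### The primitive idempotents -/

theorem exists_separating (q : F.Cls) (S : Finset F.Cls) (hq : q ∉ S) :
    ∃ P, F.Inv P ∧ ∀ a ha, (F.cls a ha = q → F.theta P a = 1) ∧
      (F.cls a ha ∈ S → F.theta P a = 0) := by
  classical
  induction S using Finset.induction_on with
  | empty =>
    refine ⟨1, F.inv_one, fun a ha => ⟨fun _ => F.theta_unique F.inv_one ha (by simp), ?_⟩⟩
    simp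
  | insert r S _ ih =>
    rw [Finset.mem_insert, not_or] at hq
    obtain ⟨P, hP, hPv⟩ := ih hq.2
    obtain ⟨a, ha, rfl⟩ := F.cls_surjective q
    obtain ⟨b, hb, rfl⟩ := F.cls_surjective r
    obtain ⟨M, hM, hne⟩ : ∃ M, F.Inv M ∧ F.theta M a ≠ F.theta M b := by
      by_contra hall
      push Not at hall
      exact hq.1 (Quotient.sound (s := F.clsSetoid) hall)
    set L := (F.theta M a - F.theta M b)⁻¹ • (M - F.theta M b • (1 : Matrix Ω Ω (K d))) with hL
    have hLi : F.Inv L := (hM.sub (F.inv_one.smul _)).smul _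
    refine ⟨L * P, hLi.mul hP, fun e he => ?_⟩
    have hth : F.theta (L * P) e =
        (F.theta M a - F.theta M b)⁻¹ * (F.theta M e - F.theta M b) * F.theta P e := by
      refine F.theta_unique (hLi.mul hP) he ?_
      rw [← Matrix.mulVec_mulVec, F.eigen hP he.1, Matrix.mulVec_smul, hL, Matrix.smul_mulVec,
        Matrix.sub_mulVec, F.eigen hM he.1, Matrix.smul_mulVec, Matrix.one_mulVec, ← sub_smul,
        smul_smul, smul_smul]
      ring_nf
    refine ⟨fun h => ?_, fun h => ?_⟩
    · rw [hth, (hPv e he).1 h, F.theta_eq_of_cls h hM, inv_mul_cancel₀ (sub_ne_zero.2 hne),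
        one_mul]
    · rw [hth]
      rcases Finset.mem_insert.1 h with h | h
      · rw [F.theta_eq_of_cls h hM, sub_self, mul_zero, zero_mul]
      · rw [(hPv e he).2 h, mul_zero]

theorem exists_proj (q : F.Cls) :
    ∃ E, F.IsProj (fun a => ∃ ha, F.cls a ha = q) E := by
  classical
  obtain ⟨P, hP, hPv⟩ := F.exists_separating q (univ.erase q) (by simp)
  set r := ∑ w, P (F.c 0) w
  refine ⟨P - Matrix.of fun _ _ => r * (Fintype.card Ω : K d)⁻¹,
    hP.sub (F.inv_const _), ?_, fun a ha => ?_⟩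
  · funext y
    have h := F.card_ne_zero
    simp only [Matrix.mulVec, dotProduct, Pi.one_apply, mul_one, Matrix.sub_apply,
      Matrix.of_apply, sum_sub_distrib, sum_const, card_univ, nsmul_eq_mul, Pi.zero_apply]
    rw [hP.rowSum_eq y (F.c 0), mul_comm r, ← mul_assoc, mul_inv_cancel₀ h, one_mul, sub_self]
  · rw [Matrix.sub_mulVec, F.mulVec_const ha, sub_zero, F.eigen hP ha]
    by_cases hc : F.chat a = 0
    · simp [hc]
    by_cases hq : F.cls a ⟨ha, hc⟩ = q
    · rw [if_pos ⟨_, hq⟩, (hPv a _).1 hq, one_smul]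
    · rw [if_neg (fun ⟨_, h⟩ => hq h), (hPv a ⟨ha, hc⟩).2 (by simp [hq]), zero_smul]

/-- The idempotent of a class. -/
noncomputable def E (q : F.Cls) : Matrix Ω Ω (K d) := (F.exists_proj q).choose

theorem isProj_E (q : F.Cls) : F.IsProj (fun a => ∃ ha, F.cls a ha = q) (F.E q) :=
  (F.exists_proj q).choose_spec

theorem isProj_sum (S : Finset F.Cls) : F.IsProj (F.Mem S) (∑ q ∈ S, F.E q) := by
  classical
  induction S using Finset.induction_on with
  | empty => simpa using F.isProj_congr F.isProj_false (Q' := F.Mem ∅) fun a _ => by simp [Mem]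
  | insert r S hr ih =>
    rw [sum_insert hr]
    refine F.isProj_congr ((F.isProj_E r).add F ih ?_) fun a _ => ?_
    · rintro a ⟨⟨ha, h1⟩, ⟨_, h2⟩⟩
      exact hr (h1 ▸ h2)
    · simp [Mem, exists_or]

theorem sum_E : ∑ q, F.E q = 1 - Matrix.of fun _ _ => (Fintype.card Ω : K d)⁻¹ :=
  (F.isProj_sum univ).unique F
    (F.isProj_congr F.isProj_true fun a ha => by simp [Mem, ha])

theorem E_smul (u : (ZMod d)ˣ) (q : F.Cls) : F.E (u • q) = (F.E q).map (gal u) := by
  refine (F.isProj_E (u • q)).unique F (F.isProj_congr ((F.isProj_E q).map_gal F u) fun a ha => ?_)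
  have key : F.cls ((↑u⁻¹ : ZMod d) * a) (F.spec_unit_mul u⁻¹ ha) = u⁻¹ • F.cls a ha := rfl
  refine ⟨fun ⟨h', e⟩ => ⟨ha, ?_⟩, fun ⟨h', e⟩ => ⟨F.spec_unit_mul u⁻¹ ha, ?_⟩⟩
  · rw [← e, key, smul_inv_smul]
  · rw [key, e, inv_smul_smul]

/-- The trace of a projection onto some part of the spectrum is a positive integer. -/
theorem IsProj.trace_nat {Q : ZMod d → Prop} {E : Matrix Ω Ω (K d)} (h : F.IsProj Q E) :
    ∃ μ : ℕ, E.trace = μ ∧ (μ = 0 → E = 0) := by
  have hidem : IsIdempotentElem (Matrix.toLin' E) := by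
    rw [IsIdempotentElem, Module.End.mul_eq_comp, ← Matrix.toLin'_mul, h.mul_self F]
  refine ⟨Module.finrank (K d) (LinearMap.range (Matrix.toLin' E)), ?_, fun h0 => ?_⟩
  · rw [← Matrix.trace_toLin'_eq, (LinearMap.IsIdempotentElem.isProj_range _ hidem).trace]
  · rw [Submodule.finrank_eq_zero, LinearMap.range_eq_bot] at h0
    exact (map_eq_zero_iff _ Matrix.toLin'.injective).1 h0

theorem E_ne_zero (q : F.Cls) : F.E q ≠ 0 := by
  obtain ⟨a, ha, rfl⟩ := F.cls_surjective q
  intro h
  have := (F.isProj_E (F.cls a ha)).eig a ha.1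
  rw [if_pos ⟨ha, rfl⟩, h, Matrix.zero_mulVec] at this
  exact ha.2 this.symm

/-- The dimension of a class. -/
noncomputable def dim (q : F.Cls) : ℕ := ((F.isProj_E q).trace_nat F).choose

theorem trace_E (q : F.Cls) : (F.E q).trace = (F.dim q : K d) :=
  ((F.isProj_E q).trace_nat F).choose_spec.1

theorem dim_pos (q : F.Cls) : 0 < F.dim q :=
  Nat.pos_of_ne_zero fun h => F.E_ne_zero q (((F.isProj_E q).trace_nat F).choose_spec.2 h)

theorem dim_smul (u : (ZMod d)ˣ) (q : F.Cls) : F.dim (u • q) = F.dim q := by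
  refine Nat.cast_injective (R := K d) ?_
  rw [← F.trace_E, F.E_smul, ← map_natCast (gal u), ← F.trace_E q]
  simp [Matrix.trace, Matrix.diag, map_sum]

theorem sum_dim : (∑ q, F.dim q) + 1 = Fintype.card Ω := by
  refine Nat.cast_injective (R := K d) ?_
  push_cast
  simp_rw [← F.trace_E]
  rw [← Matrix.trace_sum, F.sum_E]
  simp [Matrix.trace, Matrix.diag, Matrix.one_apply_eq, Finset.sum_sub_distrib, F.card_ne_zero]

/-- If there is only one class, the group is 2-transitive. -/
theorem two_transitive_of_subsingleton [Subsingleton F.Cls] :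
    ∀ a b a' b' : Ω, a ≠ b → a' ≠ b' → ∃ h ∈ F.H, h a = a' ∧ h b = b' := by
  classical
  refine Upgrade.two_transitive_of_commutant (K d) F.H fun M hM => ?_
  let M' : Matrix Ω Ω (K d) := Matrix.of M
  have hM' : F.Inv M' := hM
  obtain ⟨t, ht⟩ : ∃ t, ∀ a, a ≠ 0 → M' *ᵥ F.chat a = t • F.chat a := by
    by_cases hS : ∃ a, F.Spec a
    · obtain ⟨a, ha⟩ := hS
      refine ⟨F.theta M' a, fun b hb => ?_⟩
      rw [F.eigen hM' hb]
      by_cases hc : F.chat b = 0
      · simp [hc]
      · rw [F.theta_eq_of_cls (Subsingleton.elim (F.cls b ⟨hb, hc⟩) (F.cls a ha)) hM']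
    · refine ⟨0, fun b hb => ?_⟩
      have hc : F.chat b = 0 := by
        by_contra hc
        exact hS ⟨b, hb, hc⟩
      simp [hc]
  refine ⟨(M' - t • 1) (F.c 0) (F.c 0), fun y z hyz => ?_⟩
  have := F.const_of_kill (hM'.sub (F.inv_one.smul t)) (fun a ha => by
    rw [Matrix.sub_mulVec, Matrix.smul_mulVec, Matrix.one_mulVec, ht a ha, sub_self]) y z (F.c 0)
  rw [← this]
  simp [M', Matrix.one_apply_ne hyz]

end Fam

end Rank

end Vale.Agent.P329
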