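import Vale.Agent.P329.Defs

/-!
P329 (blueprint A3): the local group at an idempotent relation and its action on loop classes.

Relations compose from left to right.  `act h i` is the class reached from `i` along `h`, so
`act (h * k) = act k * act h`; the homomorphism is `sigmaHom h = act h⁻¹`.
-/

namespace Vale.Agent.P329

variable {Q : Type}

theorem RelM.mul_rel {r s : RelM Q} {a c : Q} :
    (r * s).rel a c ↔ ∃ b, r.rel a b ∧ s.rel b c := Iff.rfl

theorem RelM.mul_rel_mk {r s : RelM Q} {a b c : Q} (h : r.rel a b) (h' : s.rel b c) :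
    (r * s).rel a c := ⟨b, h, h'⟩

instance RelM.instFinite [Finite Q] : Finite (RelM Q) :=
  Finite.of_injective (fun r => r.rel) fun _ _ h => RelM.ext h

variable {E : RelM Q}

theorem idem_trans (hE : E * E = E) {a b c : Q} (h : E.rel a b) (h' : E.rel b c) : E.rel a c := by
  have : (E * E).rel a c := ⟨b, h, h'⟩
  rwa [hE] at this

theorem idem_split (hE : E * E = E) {a c : Q} (h : E.rel a c) :
    ∃ b, E.rel a b ∧ E.rel b c := by
  rw [← hE] at h
  exact h

/-- Every step of an idempotent relation on a finite set passes through a loop. -/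
theorem exists_loop_between [Finite Q] (hE : E * E = E) {a b : Q} (h : E.rel a b) :
    ∃ q, E.rel q q ∧ E.rel a q ∧ E.rel q b := by
  by_contra hcon
  let r : Q → Q → Prop := fun x y => E.rel a x ∧ E.rel x y ∧ E.rel y b
  have : IsTrans Q r := ⟨fun x y z hxy hyz => ⟨hxy.1, idem_trans hE hxy.2.1 hyz.2.1, hyz.2.2⟩⟩
  have : Std.Irrefl r := ⟨fun x hx => hcon ⟨x, hx.2.1, hx.1, hx.2.2⟩⟩
  obtain ⟨c₀, hc₀⟩ := idem_split hE h
  obtain ⟨c, hc, hmin⟩ := (Finite.wellFounded_of_trans_of_irrefl r).has_min
    {x | E.rel a x ∧ E.rel x b} ⟨c₀, hc₀⟩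
  obtain ⟨d, had, hdc⟩ := idem_split hE hc.1
  exact hmin d ⟨had, idem_trans hE hdc hc.2⟩ ⟨had, hdc, hc.2⟩

/-! ### Loop classes -/

/-- The loops of `E` up to mutual reachability. -/
def loopSetoid (hE : E * E = E) : Setoid {q : Q // E.rel q q} where
  r i j := E.rel i.1 j.1 ∧ E.rel j.1 i.1
  iseqv :=
    ⟨fun i => ⟨i.2, i.2⟩, fun h => ⟨h.2, h.1⟩,
      fun h h' => ⟨idem_trans hE h.1 h'.1, idem_trans hE h'.2 h.2⟩⟩

/-- The points: loop classes of `E`. -/
def Pt (hE : E * E = E) : Type := Quotient (loopSetoid hE)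

namespace Pt

variable {hE : E * E = E}

/-- The class of a loop. -/
def cls (q : Q) (hq : E.rel q q) : Pt hE := Quotient.mk (loopSetoid hE) ⟨q, hq⟩

/-- A chosen loop in a class. -/
noncomputable def rep (i : Pt hE) : Q := (Quotient.out i).1

theorem rep_loop (i : Pt hE) : E.rel i.rep i.rep := (Quotient.out i).2

theorem cls_rep (i : Pt hE) : cls i.rep i.rep_loop = i := Quotient.out_eq i

theorem rep_cls (q : Q) (hq : E.rel q q) :
    E.rel (cls (hE := hE) q hq).rep q ∧ E.rel q (cls (hE := hE) q hq).rep :=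
  Quotient.mk_out (s := loopSetoid hE) ⟨q, hq⟩

theorem ext_rel {i j : Pt hE} (h : E.rel i.rep j.rep) (h' : E.rel j.rep i.rep) : i = j := by
  rw [← cls_rep i, ← cls_rep j]
  exact Quotient.sound ⟨h, h'⟩

instance [Finite Q] : Finite (Pt hE) := Quotient.finite _

instance : PartialOrder (Pt hE) where
  le i j := E.rel i.rep j.rep
  le_refl i := i.rep_loop
  le_trans _ _ _ h h' := idem_trans hE h h'
  le_antisymm _ _ h h' := ext_rel h h'

theorem le_iff {i j : Pt hE} : i ≤ j ↔ E.rel i.rep j.rep := Iff.rfl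

end Pt

/-- Every step of `E` passes through a class. -/
theorem exists_pt_between [Finite Q] (hE : E * E = E) {a b : Q} (h : E.rel a b) :
    ∃ i : Pt hE, E.rel a i.rep ∧ E.rel i.rep b := by
  obtain ⟨q, hq, h1, h2⟩ := exists_loop_between hE h
  exact ⟨Pt.cls q hq, idem_trans hE h1 (Pt.rep_cls q hq).2, idem_trans hE (Pt.rep_cls q hq).1 h2⟩

/-! ### The local monoid and its units -/

/-- Relations fixed by `E` on both sides. -/
@[ext] structure Corner (hE : E * E = E) where
  /-- the relation -/
  val : RelM Q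
  left : E * val = val
  right : val * E = val

namespace Corner

variable {hE : E * E = E}

instance : Monoid (Corner hE) where
  mul x y := ⟨x.val * y.val, by rw [← mul_assoc, x.left], by rw [mul_assoc, y.right]⟩
  one := ⟨E, hE, hE⟩
  mul_assoc x y z := Corner.ext (mul_assoc _ _ _)
  one_mul x := Corner.ext x.left
  mul_one x := Corner.ext x.right

@[simp] theorem val_mul (x y : Corner hE) : (x * y).val = x.val * y.val := rfl

@[simp] theorem val_one : (1 : Corner hE).val = E := rfl

instance [Finite Q] : Finite (Corner hE) :=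
  Finite.of_injective Corner.val fun _ _ h => Corner.ext h

end Corner

/-- The group of units at `E`. -/
abbrev LocalGroup (hE : E * E = E) : Type := (Corner hE)ˣ

namespace LocalGroup

variable {hE : E * E = E}

/-- The relation of a unit. -/
def toRel (h : LocalGroup hE) : RelM Q := (h : Corner hE).val

theorem toRel_mul (h k : LocalGroup hE) : (h * k).toRel = h.toRel * k.toRel := rfl

theorem toRel_one : (1 : LocalGroup hE).toRel = E := rfl

theorem idem_mul_toRel (h : LocalGroup hE) : E * h.toRel = h.toRel := (h : Corner hE).left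

theorem toRel_mul_idem (h : LocalGroup hE) : h.toRel * E = h.toRel := (h : Corner hE).right

theorem toRel_mul_inv (h : LocalGroup hE) : h.toRel * h⁻¹.toRel = E := by
  rw [← toRel_mul, mul_inv_cancel, toRel_one]

theorem inv_mul_toRel (h : LocalGroup hE) : h⁻¹.toRel * h.toRel = E := by
  rw [← toRel_mul, inv_mul_cancel, toRel_one]

theorem toRel_injective : Function.Injective (toRel (hE := hE)) := fun _ _ h =>
  Units.ext (Corner.ext h)

theorem exists_of_rel {r : RelM Q} (hl : E * r = r) (hr : r * E = r) {r' : RelM Q}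
    (hl' : E * r' = r') (hr' : r' * E = r') (h₁ : r * r' = E) (h₂ : r' * r = E) :
    ∃ h : LocalGroup hE, h.toRel = r :=
  ⟨⟨⟨r, hl, hr⟩, ⟨r', hl', hr'⟩, Corner.ext h₁, Corner.ext h₂⟩, rfl⟩

theorem rel_left {h : LocalGroup hE} {a b c : Q} (h₁ : E.rel a b) (h₂ : h.toRel.rel b c) :
    h.toRel.rel a c := by
  rw [← idem_mul_toRel h]
  exact ⟨b, h₁, h₂⟩

theorem rel_right {h : LocalGroup hE} {a b c : Q} (h₁ : h.toRel.rel a b) (h₂ : E.rel b c) :
    h.toRel.rel a c := by
  rw [← toRel_mul_idem h]
  exact ⟨b, h₁, h₂⟩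

theorem rel_inv_rel {h : LocalGroup hE} {a b c : Q} (h₁ : h⁻¹.toRel.rel a b)
    (h₂ : h.toRel.rel b c) : E.rel a c :=
  inv_mul_toRel h ▸ RelM.mul_rel_mk h₁ h₂

theorem rel_rel_inv {h : LocalGroup hE} {a b c : Q} (h₁ : h.toRel.rel a b)
    (h₂ : h⁻¹.toRel.rel b c) : E.rel a c :=
  toRel_mul_inv h ▸ RelM.mul_rel_mk h₁ h₂

variable [Finite Q]

theorem exists_image (h : LocalGroup hE) (i : Pt hE) :
    ∃ j : Pt hE, h.toRel.rel i.rep j.rep ∧ h⁻¹.toRel.rel j.rep i.rep := by
  have hi : (h.toRel * h⁻¹.toRel).rel i.rep i.rep := by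
    rw [toRel_mul_inv]; exact i.rep_loop
  obtain ⟨x, hx, hx'⟩ := hi
  rw [← toRel_mul_idem h] at hx
  obtain ⟨y, hy, hyx⟩ := hx
  obtain ⟨j, hyj, hjx⟩ := exists_pt_between hE hyx
  exact ⟨j, rel_right hy hyj, rel_left hjx hx'⟩

/-- The class reached from a class along a unit. -/
noncomputable def actFun (h : LocalGroup hE) (i : Pt hE) : Pt hE := (exists_image h i).choose

theorem rel_actFun (h : LocalGroup hE) (i : Pt hE) : h.toRel.rel i.rep (actFun h i).rep :=
  (exists_image h i).choose_spec.1

theorem inv_rel_actFun (h : LocalGroup hE) (i : Pt hE) : h⁻¹.toRel.rel (actFun h i).rep i.rep :=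
  (exists_image h i).choose_spec.2

theorem actFun_eq {h : LocalGroup hE} {i j : Pt hE} (h₁ : h.toRel.rel i.rep j.rep)
    (h₂ : h⁻¹.toRel.rel j.rep i.rep) : actFun h i = j :=
  Pt.ext_rel (rel_inv_rel (inv_rel_actFun h i) h₁) (rel_inv_rel h₂ (rel_actFun h i))

theorem actFun_one (i : Pt hE) : actFun (1 : LocalGroup hE) i = i :=
  actFun_eq i.rep_loop (by rw [inv_one]; exact i.rep_loop)

theorem actFun_mul (h k : LocalGroup hE) (i : Pt hE) :
    actFun (h * k) i = actFun k (actFun h i) := by
  refine actFun_eq ?_ ?_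
  · exact RelM.mul_rel_mk (rel_actFun h i) (rel_actFun k _)
  · rw [mul_inv_rev]
    exact RelM.mul_rel_mk (inv_rel_actFun k _) (inv_rel_actFun h i)

/-- The permutation of classes made by following a unit. -/
noncomputable def act (h : LocalGroup hE) : Equiv.Perm (Pt hE) where
  toFun := actFun h
  invFun := actFun h⁻¹
  left_inv i := by rw [← actFun_mul, mul_inv_cancel, actFun_one]
  right_inv i := by rw [← actFun_mul, inv_mul_cancel, actFun_one]

theorem rel_act (h : LocalGroup hE) (i : Pt hE) : h.toRel.rel i.rep (act h i).rep := rel_actFun h i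

theorem inv_rel_act (h : LocalGroup hE) (i : Pt hE) : h⁻¹.toRel.rel (act h i).rep i.rep :=
  inv_rel_actFun h i

theorem act_eq_iff {h : LocalGroup hE} {i j : Pt hE} :
    act h i = j ↔ h.toRel.rel i.rep j.rep ∧ h⁻¹.toRel.rel j.rep i.rep :=
  ⟨fun e => e ▸ ⟨rel_act h i, inv_rel_act h i⟩, fun e => actFun_eq e.1 e.2⟩

theorem act_mul (h k : LocalGroup hE) : act (h * k) = act k * act h :=
  Equiv.ext (actFun_mul h k)

theorem act_one : act (1 : LocalGroup hE) = 1 := Equiv.ext actFun_one

theorem act_inv (h : LocalGroup hE) : act h⁻¹ = (act h)⁻¹ := rfl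

/-- The action as a homomorphism; note the inverse. -/
noncomputable def sigmaHom : LocalGroup hE →* Equiv.Perm (Pt hE) where
  toFun h := act h⁻¹
  map_one' := by rw [inv_one, act_one]
  map_mul' h k := by rw [mul_inv_rev, act_mul]

theorem sigmaHom_apply (h : LocalGroup hE) : sigmaHom h = act h⁻¹ := rfl

/-- A unit leaves a loop exactly as `E` leaves its image. -/
theorem rel_iff_from_pt (h : LocalGroup hE) (i : Pt hE) (b : Q) :
    h.toRel.rel i.rep b ↔ E.rel (act h i).rep b :=
  ⟨rel_inv_rel (inv_rel_act h i), rel_right (rel_act h i)⟩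

/-- A unit is determined by its permutation. -/
theorem rel_iff (h : LocalGroup hE) (a b : Q) :
    h.toRel.rel a b ↔ ∃ i : Pt hE, E.rel a i.rep ∧ E.rel (act h i).rep b := by
  constructor
  · intro hab
    rw [← idem_mul_toRel h] at hab
    obtain ⟨x, hax, hxb⟩ := hab
    obtain ⟨i, hai, hix⟩ := exists_pt_between hE hax
    exact ⟨i, hai, (rel_iff_from_pt h i b).1 (rel_left hix hxb)⟩
  · rintro ⟨i, hai, hib⟩
    exact rel_left hai ((rel_iff_from_pt h i b).2 hib)

theorem act_injective : Function.Injective (act (hE := hE)) := fun h k e => by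
  refine toRel_injective (RelM.ext (funext fun a => funext fun b => propext ?_))
  rw [rel_iff, rel_iff, e]

theorem sigmaHom_injective : Function.Injective (sigmaHom (hE := hE)) := fun _ _ e =>
  inv_injective (act_injective e)

/-- Units act by monotone maps. -/
theorem act_mono (h : LocalGroup hE) : Monotone (act h) := fun i j hij =>
  (rel_iff_from_pt h i _).1 (rel_left hij (rel_act h j))

theorem act_le_iff (h : LocalGroup hE) {i j : Pt hE} : act h i ≤ act h j ↔ i ≤ j :=
  ⟨fun hle => by simpa [act_inv] using act_mono h⁻¹ hle, fun hle => act_mono h hle⟩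

/-- Orbits are antichains. -/
theorem eq_act_of_le (g : LocalGroup hE) {i : Pt hE} (hle : i ≤ act g i) : act g i = i := by
  refine le_antisymm ?_ hle
  have hm : Monotone fun n => (act g)^[n] i := (act_mono g).monotone_iterate_of_le_map hle
  have h1 := hm (show 1 ≤ orderOf (act g) from orderOf_pos _)
  simpa [← Equiv.Perm.coe_pow, pow_orderOf_eq_one] using h1

theorem eq_act_of_ge (g : LocalGroup hE) {i : Pt hE} (hle : act g i ≤ i) : act g i = i := by
  have h2 : act g⁻¹ (act g i) = i := by rw [act_inv]; exact (act g).symm_apply_apply i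
  have h3 : act g⁻¹ (act g i) = act g i := eq_act_of_le g⁻¹ (h2.symm ▸ hle)
  exact h3.symm.trans h2

/-- The orbit of a class. -/
def orb (i : Pt hE) : Set (Pt hE) := Set.range fun g : LocalGroup hE => act g i

theorem mem_orb_self (i : Pt hE) : i ∈ orb i := ⟨1, by simp [act_one]⟩

theorem act_mem_orb (h : LocalGroup hE) {i j : Pt hE} (hj : j ∈ orb i) : act h j ∈ orb i := by
  obtain ⟨g, rfl⟩ := hj
  exact ⟨g * h, by simp [act_mul]⟩

theorem orb_eq_of_mem {i j : Pt hE} (hj : j ∈ orb i) : orb j = orb i := by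
  refine Set.ext fun k => ⟨?_, ?_⟩
  · rintro ⟨g, rfl⟩
    exact act_mem_orb g hj
  · rintro ⟨g, rfl⟩
    obtain ⟨f, rfl⟩ := hj
    exact ⟨f⁻¹ * g, by simp [act_mul, act_inv]⟩

theorem orb_antichain {i₀ i j : Pt hE} (hi : i ∈ orb i₀) (hj : j ∈ orb i₀) (hle : i ≤ j) :
    i = j := by
  rw [← orb_eq_of_mem hi] at hj
  obtain ⟨g, rfl⟩ := hj
  exact (eq_act_of_le g hle).symm

/-- Inside an orbit a unit is a function. -/
theorem rel_orb_iff (h : LocalGroup hE) {i₀ i j : Pt hE} (hi : i ∈ orb i₀) (hj : j ∈ orb i₀) :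
    h.toRel.rel i.rep j.rep ↔ j = act h i :=
  ⟨fun e => (orb_antichain (act_mem_orb h hi) hj ((rel_iff_from_pt h i _).1 e)).symm,
    fun e => e ▸ rel_act h i⟩

/-- A middle state lies on at most one path from an orbit to its image. -/
theorem middle_unique (h : LocalGroup hE) {h₁ h₂ : RelM Q} (hmul : h₁ * h₂ = h.toRel)
    {i₀ i i' : Pt hE} (hi : i ∈ orb i₀) (hi' : i' ∈ orb i₀) {x : Q}
    (hix : h₁.rel i.rep x) (hxi' : h₂.rel x (act h i').rep) : i = i' := by
  have hp : h.toRel.rel i.rep (act h i').rep := hmul ▸ RelM.mul_rel_mk hix hxi'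
  exact (act h).injective (((rel_orb_iff h hi (act_mem_orb h hi')).1 hp).symm)

end LocalGroup

/-! ### One orbit controls a simple quotient -/

/-- If finitely many normal subgroups meet trivially, one of them lies in the kernel of any
homomorphism onto a nonabelian simple group. -/
theorem exists_le_ker_of_simple {H G ι : Type*} [Group H] [Group G] [Finite ι]
    (hG : IsSimpleGroup G) (hna : ∃ a b : G, a * b ≠ b * a) (ψ : H →* G)
    (hψ : Function.Surjective ψ) (K : ι → Subgroup H) (hK : ∀ i, (K i).Normal)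
    (htriv : ∀ h, (∀ i, h ∈ K i) → ψ h = 1) :
    ∃ i, K i ≤ ψ.ker := by
  classical
  have := Fintype.ofFinite ι
  by_contra hcon
  simp only [not_exists] at hcon
  have hfull : ∀ i, (K i).map ψ = ⊤ := fun i => by
    refine (hG.eq_bot_or_eq_top_of_normal _ ((hK i).map ψ hψ)).resolve_left fun hb => hcon i ?_
    exact (Subgroup.map_eq_bot_iff _).1 hb
  have hcomm : commutator G = ⊤ := by
    refine (hG.eq_bot_or_eq_top_of_normal _ inferInstance).resolve_left fun hb => ?_
    obtain ⟨a, b, hab⟩ := hna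
    rw [commutator_def, Subgroup.commutator_eq_bot_iff_le_centralizer] at hb
    exact hab ((Subgroup.mem_centralizer_iff.1 (hb (Subgroup.mem_top a))) b (Subgroup.mem_top b)).symm
  have hall : ∀ s : Finset ι, (s.inf K).map ψ = ⊤ := by
    intro s
    induction s using Finset.induction_on with
    | empty => rw [Finset.inf_empty]; exact Subgroup.map_top_of_surjective ψ hψ
    | insert a s has ih =>
      rw [eq_top_iff, ← hcomm, commutator_def]
      refine le_trans (le_of_eq ?_) (Subgroup.map_mono
        (show ⁅K a, s.inf K⁆ ≤ (insert a s).inf K from ?_))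
      · rw [Subgroup.map_commutator, hfull a, ih]
      · rw [Finset.inf_insert]
        have : (K a).Normal := hK a
        have : (s.inf K).Normal := by
          refine Finset.inf_induction (p := fun N : Subgroup H => N.Normal) ?_ ?_ fun i _ => hK i
          · infer_instance
          · intro A hA B hB; exact Subgroup.normal_inf_normal A B
        exact Subgroup.commutator_le_inf _ _
  obtain ⟨a, b, hab⟩ := hna
  have htriv' : ∀ g : G, g = 1 := fun g => by
    have hg : g ∈ ((Finset.univ.inf K).map ψ) := by rw [hall]; exact Subgroup.mem_top g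
    obtain ⟨h, hh, rfl⟩ := Subgroup.mem_map.1 hg
    exact htriv h fun i => (Finset.inf_le (f := K) (Finset.mem_univ i)) hh
  exact hab (by rw [htriv' a, htriv' b])

namespace LocalGroup

variable {hE : E * E = E} [Finite Q]

/-- The units fixing an orbit pointwise. -/
def orbKer (i : Pt hE) : Subgroup (LocalGroup hE) where
  carrier := {h | ∀ j ∈ orb i, act h j = j}
  mul_mem' {h k} hh hk j hj := by rw [act_mul, Equiv.Perm.mul_apply, hh j hj, hk j hj]
  one_mem' j _ := by rw [act_one]; rfl
  inv_mem' {h} hh j hj := by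
    rw [act_inv, Equiv.Perm.inv_eq_iff_eq]
    exact (hh j hj).symm

theorem orbKer_normal (i : Pt hE) : (orbKer i).Normal := ⟨fun h hh g j hj => by
  rw [act_mul, act_mul, Equiv.Perm.mul_apply, Equiv.Perm.mul_apply, hh _ (act_mem_orb g hj), act_inv]
  exact (act g).symm_apply_apply j⟩

/-- Some orbit is faithful for a given nonabelian simple quotient. -/
theorem exists_controlling_orbit {G : Type*} [Group G] (hG : IsSimpleGroup G)
    (hna : ∃ a b : G, a * b ≠ b * a) (ψ : LocalGroup hE →* G) (hψ : Function.Surjective ψ) :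
    ∃ i : Pt hE, ∀ h : LocalGroup hE, (∀ j ∈ orb i, act h j = j) → ψ h = 1 := by
  obtain ⟨i, hi⟩ := exists_le_ker_of_simple hG hna ψ hψ orbKer orbKer_normal fun h hh => by
    have : h = 1 := act_injective (by
      rw [act_one]; exact Equiv.ext fun j => hh j j (mem_orb_self j))
    rw [this, map_one]
  exact ⟨i, fun h hh => hi (show h ∈ orbKer i from hh)⟩

end LocalGroup

end Vale.Agent.P329
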