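import Mathlib
import Vale.Agent.P329.RootIncreasing

/-!
P329: height-one functions on words and prefix sums along the occurrences of one letter.
-/

namespace Vale.Agent.P329.Nil

open scoped Classical
open RootInc

set_option linter.unusedSectionVars false

variable {α : Type} {β γ : Type}

/-- All fibres (and unions of fibres) of `f` have height at most one. -/
def Comp (f : List α → β) : Prop := ∀ S : Set β, HeightLE ({w | f w ∈ S} : Language α) 1

theorem Comp.map {f : List α → β} (h : Comp f) (g : β → γ) : Comp fun w => g (f w) :=
  fun S => h (g ⁻¹' S)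

theorem Comp.of_eq {f g : List α → β} (h : Comp f) (he : ∀ w, f w = g w) : Comp g :=
  (funext he : f = g) ▸ h

theorem Comp.pair [Finite β] [Finite γ] {f : List α → β} {g : List α → γ} (hf : Comp f)
    (hg : Comp g) : Comp fun w => (f w, g w) := by
  intro S
  have := Fintype.ofFinite β
  have := Fintype.ofFinite γ
  refine hle_congr (hle_iUnion (fun p : {p : β × γ // p ∈ S} =>
    ({w | ∀ b : Bool, w ∈ cond b ({w | f w ∈ ({p.1.1} : Set β)} : Language α)
      ({w | g w ∈ ({p.1.2} : Set γ)} : Language α)} : Language α)) (n := 1)
    fun p => hle_iInter _ fun b => by cases b <;> [exact hg _; exact hf _]) fun w => ?_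
  constructor
  · rintro ⟨⟨⟨x, y⟩, hp⟩, h⟩
    have h1 : f w = x := h true
    have h2 : g w = y := h false
    change (f w, g w) ∈ S
    rw [h1, h2]
    exact hp
  · intro h
    exact ⟨⟨_, h⟩, fun b => by cases b <;> rfl⟩

theorem Comp.map₂ [Finite β] [Finite γ] {ε : Type} {f : List α → β} {g : List α → γ}
    (hf : Comp f) (hg : Comp g) (m : β → γ → ε) : Comp fun w => m (f w) (g w) :=
  (hf.pair hg).map fun p => m p.1 p.2

theorem Comp.const (c : β) : Comp fun _ : List α => c := by
  intro S
  by_cases h : c ∈ S
  · exact hle_congr (hle_compl (hle_zero 1)) fun w =>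
      ⟨fun _ => h, fun _ => Language.notMem_zero w⟩
  · exact hle_congr (hle_zero 1) fun w =>
      ⟨fun h' => absurd h' (Language.notMem_zero w), fun h' => absurd h' h⟩

/-- Auxiliary recursion on the reversed word. -/
noncomputable def psumR [AddCommMonoid β] (f : List α → β) (a : α) : List α → β
  | [] => 0
  | x :: r => psumR f a r + if x = a then f r.reverse else 0

/-- The sum of `f` over the prefixes that are followed by the letter `a`. -/
noncomputable def psum [AddCommMonoid β] (f : List α → β) (a : α) (w : List α) : β :=
  psumR f a w.reverse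

section psum

variable [AddCommMonoid β] (f : List α → β) (a : α)

@[simp] theorem psum_nil : psum f a [] = 0 := rfl

@[simp] theorem psum_snoc (w : List α) (x : α) :
    psum f a (w ++ [x]) = psum f a w + if x = a then f w else 0 := by
  simp [psum, psumR]

theorem psum_add (g : List α → β) (w : List α) :
    psum (fun q => f q + g q) a w = psum f a w + psum g a w := by
  induction w using List.reverseRecOn with
  | nil => simp
  | append_singleton w x ih =>
    simp only [psum_snoc, ih]
    split_ifs <;> abel

theorem psum_map [AddCommMonoid γ] (φ : β →+ γ) (w : List α) :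
    psum (fun q => φ (f q)) a w = φ (psum f a w) := by
  induction w using List.reverseRecOn with
  | nil => simp
  | append_singleton w x ih =>
    simp only [psum_snoc, ih, map_add]
    split_ifs <;> simp

theorem psum_congr (g : List α → β) (h : ∀ q, f q = g q) (w : List α) :
    psum f a w = psum g a w := by rw [funext h]

theorem psum_sum {ι : Type} (s : Finset ι) (F : ι → List α → β) (w : List α) :
    psum (fun q => ∑ i ∈ s, F i q) a w = ∑ i ∈ s, psum (F i) a w := by
  induction s using Finset.induction_on with
  | empty =>
    simp only [Finset.sum_empty]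
    induction w using List.reverseRecOn with
    | nil => simp
    | append_singleton w x ih => simp [ih]
  | insert i s hi ih => simp [Finset.sum_insert hi, psum_add, ih]

end psum

section automaton

variable [Fintype α] (X : α → Prop)

/-- The number of letters in the class `X`. -/
noncomputable def cnt (w : List α) : ℕ := w.countP fun b => decide (X b)

@[simp] theorem cnt_nil : cnt X [] = 0 := rfl

@[simp] theorem cnt_snoc (w : List α) (x : α) :
    cnt X (w ++ [x]) = cnt X w + if X x then 1 else 0 := by
  simp [cnt, List.countP_append, List.countP_singleton]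

variable (M N : ℕ) [NeZero M] [NeZero N] (c : α)

/-- The two-level counter: rounds of `X` are carried into the level, `c` is counted at phase zero. -/
noncomputable def step (s : Lex (Fin N × Fin M)) (x : α) : Lex (Fin N × Fin M) :=
  if X x then
    toLex (if (ofLex s).2.val + 1 = M then (ofLex s).1 + 1 else (ofLex s).1, (ofLex s).2 + 1)
  else if x = c ∧ (ofLex s).2 = 0 then toLex ((ofLex s).1 + 1, 0) else s

theorem fin_succ_cases {n : ℕ} [NeZero n] (i : Fin n) : i + 1 = 0 ∨ i < i + 1 := by
  obtain ⟨k, rfl⟩ := Nat.exists_eq_succ_of_ne_zero (NeZero.ne n)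
  by_cases h : i = Fin.last k
  · exact Or.inl (by simp [h])
  · exact Or.inr (Fin.lt_add_one_iff.2 (lt_of_le_of_ne (Fin.le_last i) h))

theorem step_inc (s : Lex (Fin N × Fin M)) (x : α) :
    step X M N c s x = toLex (0, 0) ∨ s ≤ step X M N c s x := by
  unfold step
  by_cases h1 : X x
  · rw [if_pos h1]
    by_cases h2 : (ofLex s).2.val + 1 = M
    · rw [if_pos h2]
      have hi : ((ofLex s).2 + 1 : Fin M) = 0 := by
        apply Fin.ext
        simp [Fin.val_add, h2]
      rcases fin_succ_cases (ofLex s).1 with hk | hk
      · exact Or.inl (by rw [hk, hi])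
      · exact Or.inr (Prod.Lex.le_iff.2 (Or.inl hk))
    · rw [if_neg h2]
      refine Or.inr (Prod.Lex.le_iff.2 (Or.inr ⟨rfl, ?_⟩))
      rcases fin_succ_cases (ofLex s).2 with hi | hi
      · exfalso
        have := congrArg Fin.val hi
        simp only [Fin.val_add, Fin.val_zero, Fin.val_one', Nat.add_mod_mod] at this
        rw [Nat.mod_eq_of_lt (by have := (ofLex s).2.isLt; omega)] at this
        omega
      · exact hi.le
  · rw [if_neg h1]
    by_cases h3 : x = c ∧ (ofLex s).2 = 0
    · rw [if_pos h3]
      rcases fin_succ_cases (ofLex s).1 with hk | hk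
      · exact Or.inl (by rw [hk])
      · exact Or.inr (Prod.Lex.le_iff.2 (Or.inl hk))
    · rw [if_neg h3]
      exact Or.inr le_rfl

theorem comp_step (s : Lex (Fin N × Fin M)) : Comp fun w => w.foldl (step X M N c) s :=
  fun S => hle_congr (hle_transition (step X M N c) (toLex (0, 0))
    (fun x a _ => step_inc X M N c x a) {f | f s ∈ S}) fun _ => Iff.rfl

/-- The count modulo `M`. -/
theorem comp_cnt : Comp fun w => (cnt X w : ZMod M) := by
  by_cases hc : ∃ c : α, True
  · obtain ⟨c, -⟩ := hc
    refine ((comp_step X M 1 c (toLex (0, 0))).map fun s => (((ofLex s).2 : ℕ) : ZMod M)).of_eq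
      fun w => ?_
    induction w using List.reverseRecOn with
    | nil => simp
    | append_singleton w x ih =>
      simp only [List.foldl_append, List.foldl_cons, List.foldl_nil, cnt_snoc, step]
      split_ifs with h1 h2 h3
      · simp [Fin.val_add, ← ih]
      · simp [Fin.val_add, ← ih]
      · simp only [ofLex_toLex, Nat.cast_add, Nat.cast_zero, add_zero, ← ih]
        rw [h3.2]
      · simp [← ih]
  · refine (Comp.const (α := α) (0 : ZMod M)).of_eq fun w => ?_
    cases w with
    | nil => simp
    | cons x _ => exact absurd ⟨x, trivial⟩ hc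

/-- A periodic function of the count. -/
theorem comp_periodic (g : ℕ → β) (hg : ∀ n, g (n % M) = g n) : Comp fun w => g (cnt X w) :=
  ((comp_cnt X M).map fun r => g r.val).of_eq fun w => by rw [ZMod.val_natCast, hg]

/-- Occurrences of `c` at one phase of the count of `X`, modulo `N`. -/
theorem comp_phase (hc : ¬ X c) (r : Fin M) :
    Comp fun w => psum (fun q => if cnt X q % M = r.val then (1 : ZMod N) else 0) c w := by
  let i0 : Fin M := -r
  let land : ℕ → ZMod N := fun n => ((i0.val + n) / M : ℕ)
  have hrun : ∀ w, (((ofLex (w.foldl (step X M N c) (toLex ((0 : Fin N), i0)))).1 : ℕ) : ZMod N) =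
      land (cnt X w) + psum (fun q => if cnt X q % M = r.val then (1 : ZMod N) else 0) c w ∧
      ((ofLex (w.foldl (step X M N c) (toLex ((0 : Fin N), i0)))).2 : ℕ) =
        (i0.val + cnt X w) % M := by
    intro w
    induction w using List.reverseRecOn with
    | nil =>
      simp [land, Nat.div_eq_of_lt i0.isLt, Nat.mod_eq_of_lt i0.isLt]
    | append_singleton w x ih =>
      simp only [List.foldl_append, List.foldl_cons, List.foldl_nil]
      set st := w.foldl (step X M N c) (toLex ((0 : Fin N), i0))
      obtain ⟨hk, hi⟩ := ih
      unfold step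
      by_cases hx : X x
      · have hxc : x ≠ c := fun h => hc (h ▸ hx)
        simp only [if_pos hx, ofLex_toLex, cnt_snoc, psum_snoc, if_neg hxc, add_zero]
        refine ⟨?_, ?_⟩
        · simp only [land] at hk ⊢
          rw [← add_assoc, Nat.succ_div]
          have hd : (M ∣ i0.val + cnt X w + 1) ↔ (ofLex st).2.val + 1 = M := by
            rw [hi, Nat.dvd_iff_mod_eq_zero, Nat.add_mod]
            have := Nat.mod_lt (i0.val + cnt X w) (NeZero.pos M)
            rcases (Nat.lt_or_ge 1 M) with h | h
            · rw [Nat.mod_eq_of_lt h]
              rcases Nat.lt_or_ge ((i0.val + cnt X w) % M + 1) M with h' | h'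
              · rw [Nat.mod_eq_of_lt h']; omega
              · have : (i0.val + cnt X w) % M + 1 = M := by omega
                simp [this]
            · have : M = 1 := by have := NeZero.pos M; omega
              subst this; simp [Nat.mod_one]
          by_cases h' : (ofLex st).2.val + 1 = M
          · rw [if_pos h', if_pos (hd.2 h')]
            simp only [Fin.val_add, Fin.val_one', ZMod.natCast_mod, Nat.cast_add, hk,
              Nat.cast_one]
            abel
          · rw [if_neg h', if_neg (fun h => h' (hd.1 h)), hk]
            simp
        · simp [Fin.val_add, hi, Nat.add_assoc]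
      · simp only [if_neg hx, cnt_snoc, psum_snoc, add_zero]
        by_cases hxc : x = c
        · have hroot : (ofLex st).2 = 0 ↔ cnt X w % M = r.val := by
            have hp : Fin.ofNat M (cnt X w) = ⟨cnt X w % M, Nat.mod_lt _ (NeZero.pos M)⟩ := rfl
            have h2 : (ofLex st).2 = i0 + Fin.ofNat M (cnt X w) := by
              apply Fin.ext
              rw [hi, hp, Fin.val_add]
              simp
            rw [h2]
            simp only [i0, neg_add_eq_zero]
            rw [hp, Fin.ext_iff]
            exact eq_comm
          subst hxc
          by_cases h : cnt X w % M = r.val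
          · rw [if_pos ⟨rfl, hroot.2 h⟩]
            simp only [ofLex_toLex, if_true, if_pos h]
            refine ⟨?_, ?_⟩
            · simp only [Fin.val_add, Fin.val_one', ZMod.natCast_mod, Nat.cast_add, hk,
                Nat.cast_one, add_assoc]
            · rw [← hi, hroot.2 h]
          · rw [if_neg (fun h' => h (hroot.1 h'.2))]
            simp only [if_true, if_neg h, add_zero]
            exact ⟨hk, hi⟩
        · rw [if_neg (fun h => hxc h.1)]
          simp only [if_neg hxc, add_zero]
          exact ⟨hk, hi⟩
  have hper : ∀ n, land (n % (M * N)) = land n := by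
    intro n
    simp only [land]
    conv_rhs => rw [← Nat.mod_add_div n (M * N)]
    rw [show i0.val + (n % (M * N) + M * N * (n / (M * N))) =
      i0.val + n % (M * N) + M * (N * (n / (M * N))) by ring,
      Nat.add_mul_div_left _ _ (NeZero.pos M)]
    simp
  refine ((comp_step X M N c (toLex ((0 : Fin N), i0))).map
    fun s => (((ofLex s).1 : ℕ) : ZMod N)).map₂ (comp_periodic X (M * N) land hper)
    (fun a b => a - b) |>.of_eq fun w => ?_
  rw [(hrun w).1]
  abel

/-- Periodic weights on the phase at which `c` occurs. -/
theorem comp_psum_periodic (hc : ¬ X c) (g : ℕ → ZMod N) (hg : ∀ n, g (n % M) = g n) :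
    Comp fun w => psum (fun q => g (cnt X q)) c w := by
  have hs : ∀ (s : Finset (Fin M)), Comp fun w => ∑ r ∈ s,
      g r.val * psum (fun q => if cnt X q % M = r.val then (1 : ZMod N) else 0) c w := by
    intro s
    induction s using Finset.induction_on with
    | empty => simpa using Comp.const (α := α) (0 : ZMod N)
    | insert r s hr ih =>
      simp only [Finset.sum_insert hr]
      exact (comp_phase X M N c hc r).map₂ ih fun a b => g r.val * a + b
  refine (hs Finset.univ).of_eq fun w => ?_
  rw [Finset.sum_congr rfl (fun r _ => (psum_map _ c (AddMonoidHom.mulLeft (g r.val)) w).symm),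
    ← psum_sum]
  refine psum_congr _ _ _ (fun q => ?_) w
  rw [Finset.sum_eq_single (⟨cnt X q % M, Nat.mod_lt _ (NeZero.pos M)⟩ : Fin M)]
  · simp [hg]
  · intro r _ hr
    have : ¬ cnt X q % M = r.val := fun h => hr (Fin.ext h.symm)
    simp [this]
  · simp

end automaton

end Vale.Agent.P329.Nil
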