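import Mathlib
import Vale.Agent.P329.PrefixCount

/-!
P329: words read in a finite nilpotent group of class at most three.
-/

namespace Vale.Agent.P329.Nil

open scoped Classical commutatorElement
open RootInc

set_option linter.unusedSectionVars false

variable {α : Type} [Fintype α]

/-- The number of occurrences of one letter. -/
noncomputable def num (b : α) (w : List α) : ℕ := cnt (fun x => x = b) w

@[simp] theorem num_nil (b : α) : num b [] = 0 := rfl

@[simp] theorem num_snoc (b : α) (w : List α) (x : α) :
    num b (w ++ [x]) = num b w + if x = b then 1 else 0 := by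
  simp [num]

/-- Computable modulo every positive number. -/
def NComp (f : List α → ℕ) : Prop := ∀ (N : ℕ) [NeZero N], Comp fun w => (f w : ZMod N)

theorem NComp.of_eq {f g : List α → ℕ} (h : NComp f) (he : ∀ w, f w = g w) : NComp g :=
  (funext he : f = g) ▸ h

theorem ncomp_num (b : α) : NComp (num b) := fun N _ => comp_cnt (fun x => x = b) N

theorem cast_psum (f : List α → ℕ) (a : α) (w : List α) (N : ℕ) :
    ((psum f a w : ℕ) : ZMod N) = psum (fun q => (f q : ZMod N)) a w :=
  (psum_map f a (Nat.castAddMonoidHom (ZMod N)) w).symm

/-- Periodicity modulo `N` of a natural number valued function. -/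
def Per (g : ℕ → ℕ) : Prop :=
  ∀ (N : ℕ) [NeZero N], ∃ M, M ≠ 0 ∧ ∀ n, (g (n % M) : ZMod N) = (g n : ZMod N)

theorem Per.ncomp {g : ℕ → ℕ} (hg : Per g) (b : α) : NComp fun w => g (num b w) := by
  intro N _
  obtain ⟨M, hM, h⟩ := hg N
  have : NeZero M := ⟨hM⟩
  exact comp_periodic (fun x => x = b) M (fun n => (g n : ZMod N)) h

theorem per_of_mul {g : ℕ → ℕ} {N M : ℕ}
    (h : ∀ n, (g (n + M) : ZMod N) = (g n : ZMod N)) :
    ∀ n, (g (n % M) : ZMod N) = (g n : ZMod N) := by
  have h' : ∀ t r, (g (r + M * t) : ZMod N) = (g r : ZMod N) := by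
    intro t
    induction t with
    | zero => simp
    | succ t ih => intro r; rw [Nat.mul_succ, ← add_assoc, h, ih]
  intro n
  conv_rhs => rw [← Nat.mod_add_div n M]
  rw [h']

theorem per_sum {g : ℕ → ℕ} (hg : Per g) : Per fun n => ∑ i ∈ Finset.range n, g i := by
  intro N _
  obtain ⟨M, hM, h⟩ := hg N
  refine ⟨M * N, mul_ne_zero hM (NeZero.ne N),
    per_of_mul (g := fun n => ∑ i ∈ Finset.range n, g i) (N := N) (M := M * N) fun n => ?_⟩
  have hs : ∀ t r, (g (r + M * t) : ZMod N) = (g r : ZMod N) := by
    intro t r
    rw [← h (r + M * t), Nat.add_mul_mod_self_left, h]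
  have hblock : ∀ t, ((∑ i ∈ Finset.range (M * t), g i : ℕ) : ZMod N) =
      (t : ZMod N) * ((∑ i ∈ Finset.range M, g i : ℕ) : ZMod N) := by
    intro t
    induction t with
    | zero => simp
    | succ t ih =>
      rw [Nat.mul_succ, Finset.sum_range_add, Nat.cast_add, ih, Nat.cast_sum,
        Nat.cast_succ, add_mul, one_mul, Nat.cast_sum]
      congr 1
      exact Finset.sum_congr rfl fun i _ => by rw [add_comm, hs]
  rw [add_comm n, Finset.sum_range_add, Nat.cast_add, hblock, ZMod.natCast_self, zero_mul,
    zero_add, Nat.cast_sum, Nat.cast_sum]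
  exact Finset.sum_congr rfl fun i _ => by rw [add_comm, hs]

theorem per_mul_self : Per fun n => n * n := fun N _ =>
  ⟨N, NeZero.ne N, fun n => by simp [ZMod.natCast_mod]⟩

theorem per_id : Per fun n => n := fun N _ =>
  ⟨N, NeZero.ne N, fun n => by simp [ZMod.natCast_mod]⟩

theorem per_choose_two : Per fun n => n.choose 2 := by
  intro N hN
  obtain ⟨M, hM, h⟩ := per_sum per_id N
  refine ⟨M, hM, fun n => ?_⟩
  have := h n
  simpa only [Finset.sum_range_id, Nat.choose_two_right] using this

theorem psum_num_self (g : ℕ → ℕ) (a : α) (w : List α) :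
    psum (fun q => g (num a q)) a w = ∑ i ∈ Finset.range (num a w), g i := by
  induction w using List.reverseRecOn with
  | nil => simp
  | append_singleton w x ih =>
    rw [psum_snoc, num_snoc, ih]
    split_ifs with h
    · rw [Finset.sum_range_succ]
    · simp

theorem ncomp_psum_of_not_mem {g : ℕ → ℕ} (hg : Per g) (X : α → Prop) {a : α} (ha : ¬ X a) :
    NComp fun w => psum (fun q => g (cnt X q)) a w := by
  intro N _
  obtain ⟨M, hM, h⟩ := hg N
  have : NeZero M := ⟨hM⟩
  exact (comp_psum_periodic X M N a ha (fun n => (g n : ZMod N)) h).of_eq fun w =>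
    (cast_psum _ a w N).symm

theorem ncomp_psum_per {g : ℕ → ℕ} (hg : Per g) (b a : α) :
    NComp fun w => psum (fun q => g (num b q)) a w := by
  by_cases hab : a = b
  · subst hab
    exact ((per_sum hg).ncomp a).of_eq fun w => (psum_num_self g a w).symm
  · exact ncomp_psum_of_not_mem hg (fun x => x = b) hab

theorem add_choose_two (m n : ℕ) :
    (m + n).choose 2 = m.choose 2 + n.choose 2 + m * n := by
  induction n with
  | zero => simp
  | succ n ih =>
    rw [← add_assoc, Nat.choose_succ_succ, Nat.choose_succ_succ n, ih, Nat.choose_one_right,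
      Nat.choose_one_right, Nat.mul_succ]
    ring

theorem ncomp_bil_self {a b : α} (hab : a ≠ b) :
    NComp fun w => psum (fun q => num a q * num b q) a w := by
  have key : ∀ w : List α, psum (fun q => num a q * num b q) a w +
      psum (fun q => (num a q).choose 2) b w = (num a w).choose 2 * num b w := by
    intro w
    induction w using List.reverseRecOn with
    | nil => simp
    | append_singleton w x ih =>
      rw [psum_snoc, psum_snoc, num_snoc, num_snoc, add_choose_two]
      by_cases hxa : x = a
      · subst hxa
        simp [hab, add_mul, ← ih]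
        ring
      · by_cases hxb : x = b
        · subst hxb
          simp [hxa, mul_add, ← ih]
          ring
        · simp [hxa, hxb, ← ih]
  intro N _
  refine ((((per_choose_two.ncomp a) N).map₂ ((ncomp_num b) N) fun x y => x * y).map₂
    ((ncomp_psum_per per_choose_two a b) N) fun x y => x - y).of_eq fun w => ?_
  have := congrArg (fun n : ℕ => (n : ZMod N)) (key w)
  simp only [Nat.cast_add, Nat.cast_mul] at this
  dsimp only
  rw [← this, add_sub_cancel_right]

theorem ncomp_bil (b b' a : α) : NComp fun w => psum (fun q => num b q * num b' q) a w := by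
  by_cases hbb : b = b'
  · subst hbb
    exact ncomp_psum_per per_mul_self b a
  by_cases hab : a = b
  · subst hab
    exact ncomp_bil_self hbb
  by_cases hab' : a = b'
  · subst hab'
    exact (ncomp_bil_self hab).of_eq fun w => psum_congr _ _ _ (fun q => mul_comm _ _) w
  let X : α → Prop := fun x => x = b ∨ x = b'
  have hX : ∀ q : List α, cnt X q = num b q + num b' q := by
    intro q
    induction q using List.reverseRecOn with
    | nil => simp
    | append_singleton q x ih =>
      rw [cnt_snoc, num_snoc, num_snoc, ih]
      by_cases h1 : x = b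
      · subst h1; simp [X, hbb]; ring
      · by_cases h2 : x = b'
        · subst h2; simp [X, Ne.symm hbb]; ring
        · simp [X, h1, h2]
  intro N _
  refine (((ncomp_psum_of_not_mem per_choose_two X (a := a) (by simp [X, hab, hab'])) N).map₂
    (((ncomp_psum_per per_choose_two b a) N).map₂ ((ncomp_psum_per per_choose_two b' a) N)
      fun x y => x + y) fun x y => x - y).of_eq fun w => ?_
  rw [← Nat.cast_add, ← psum_add]
  have : psum (fun q => (cnt X q).choose 2) a w =
      psum (fun q => (num b q).choose 2 + (num b' q).choose 2) a w +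
        psum (fun q => num b q * num b' q) a w := by
    rw [← psum_add]
    exact psum_congr _ _ _ (fun q => by rw [hX, add_choose_two]) w
  dsimp only
  rw [this, Nat.cast_add, add_sub_cancel_left]

theorem ncomp_triple (b a' a : α) :
    NComp fun w => psum (fun q => psum (num b) a' q) a w := by
  intro N _
  have hQ : Comp fun w => ((psum (num b) a' w : ℕ) : ZMod N) := (ncomp_psum_per per_id b a') N
  have hQA : Comp fun w => ((psum (num b) a' w : ℕ) : ZMod N) * (num a w : ZMod N) :=
    hQ.map₂ ((ncomp_num a) N) fun x y => x * y
  have hBA := (ncomp_bil b a a') N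
  by_cases h : a = a'
  · subst h
    have key : ∀ w : List α, psum (fun q => psum (num b) a q) a w +
        psum (fun q => num b q * num a q) a w + psum (num b) a w =
          psum (num b) a w * num a w := by
      intro w
      induction w using List.reverseRecOn with
      | nil => simp
      | append_singleton w x ih =>
        rw [psum_snoc, psum_snoc, psum_snoc, num_snoc]
        by_cases hx : x = a
        · simp [hx, add_mul, mul_add, ← ih]
          ring
        · simp [hx, ← ih]
    refine ((hQA.map₂ hBA fun x y => x - y).map₂ hQ fun x y => x - y).of_eq fun w => ?_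
    have := congrArg (fun n : ℕ => (n : ZMod N)) (key w)
    simp only [Nat.cast_add, Nat.cast_mul] at this
    dsimp only
    rw [← this]
    abel
  · have key : ∀ w : List α, psum (fun q => psum (num b) a' q) a w +
        psum (fun q => num b q * num a q) a' w = psum (num b) a' w * num a w := by
      intro w
      induction w using List.reverseRecOn with
      | nil => simp
      | append_singleton w x ih =>
        rw [psum_snoc, psum_snoc, psum_snoc, num_snoc]
        by_cases hx : x = a
        · subst hx
          simp [h, mul_add, ← ih]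
          ring
        · by_cases hx' : x = a'
          · subst hx'
            simp [hx, add_mul, ← ih]
            ring
          · simp [hx, hx', ← ih]
    refine (hQA.map₂ hBA fun x y => x - y).of_eq fun w => ?_
    have := congrArg (fun n : ℕ => (n : ZMod N)) (key w)
    simp only [Nat.cast_add, Nat.cast_mul] at this
    dsimp only
    rw [← this, add_sub_cancel_right]

section valued

variable {A : Type} [AddCommGroup A] [Finite A]

theorem comp_nsmul {f : List α → ℕ} (hf : NComp f) (e : A) : Comp fun w => f w • e := by
  have : NeZero (addOrderOf e) := ⟨(addOrderOf_pos e).ne'⟩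
  exact ((hf (addOrderOf e)).map fun r => r.val • e).of_eq fun w => by
    rw [ZMod.val_natCast, mod_addOrderOf_nsmul]

theorem Comp.add {f g : List α → A} (hf : Comp f) (hg : Comp g) : Comp fun w => f w + g w :=
  hf.map₂ hg fun x y => x + y

theorem Comp.sum {ι : Type} (s : Finset ι) {F : ι → List α → A} (h : ∀ i ∈ s, Comp (F i)) :
    Comp fun w => ∑ i ∈ s, F i w := by
  induction s using Finset.induction_on with
  | empty => simpa using Comp.const (α := α) (0 : A)
  | insert i s hi ih =>
    simp only [Finset.sum_insert hi]
    exact (h i (Finset.mem_insert_self i s)).add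
      (ih fun j hj => h j (Finset.mem_insert_of_mem hj))

/-- Linear functions of the letter counts. -/
inductive LinF : (List α → A) → Prop
  | zero : LinF fun _ => 0
  | term (b : α) (e : A) : LinF fun w => num b w • e
  | add {f g} : LinF f → LinF g → LinF fun w => f w + g w

/-- Functions of degree at most two in several counts. -/
inductive QuadF : (List α → A) → Prop
  | zero : QuadF fun _ => 0
  | per (b : α) (h : ℕ → A) (M : ℕ) (hM : M ≠ 0) (hh : ∀ n, h (n % M) = h n) :
      QuadF fun w => h (num b w)
  | bil (b b' : α) (e : A) : QuadF fun w => (num b w * num b' w) • e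
  | add {f g} : QuadF f → QuadF g → QuadF fun w => f w + g w

theorem linF_quadF {f : List α → A} (h : LinF f) : QuadF f := by
  induction h with
  | zero => exact .zero
  | term b e =>
    exact .per b (fun n => n • e) (addOrderOf e) (addOrderOf_pos e).ne'
      fun n => mod_addOrderOf_nsmul e n
  | add _ _ hf hg => exact hf.add hg

theorem linF_smul (b : α) {f : List α → A} (h : LinF f) : QuadF fun w => num b w • f w := by
  induction h with
  | zero => simpa using QuadF.zero
  | term b' e => simpa [mul_smul] using QuadF.bil b b' e
  | add _ _ hf hg => simpa [smul_add] using hf.add hg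

theorem QuadF.comp_psum {f : List α → A} (h : QuadF f) (a : α) : Comp fun w => psum f a w := by
  induction h with
  | zero =>
    refine (Comp.const (α := α) (0 : A)).of_eq fun w => ?_
    exact ((psum_map (fun _ => (0 : A)) a (0 : A →+ A) w).trans rfl).symm
  | per b h M hM hh =>
    have hper : ∀ r, Per fun n => if n % M = r then 1 else 0 := fun r N _ =>
      ⟨M, hM, fun n => by simp⟩
    refine (Comp.sum (Finset.range M)
      fun r _ => comp_nsmul (ncomp_psum_per (hper r) b a) (h r)).of_eq fun w => ?_
    rw [Finset.sum_congr rfl fun r _ =>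
      show psum (fun q => if num b q % M = r then 1 else 0) a w • h r =
          psum (fun q => (if num b q % M = r then 1 else 0 : ℕ) • h r) a w from
        (psum_map (fun q => if num b q % M = r then 1 else 0) a (multiplesHom A (h r)) w).symm,
      ← psum_sum]
    refine psum_congr _ _ _ (fun q => ?_) w
    rw [Finset.sum_eq_single (num b q % M)]
    · simp [hh]
    · intro r _ hr
      simp [Ne.symm hr]
    · intro hr
      exact absurd (Finset.mem_range.2 (Nat.mod_lt _ (Nat.pos_of_ne_zero hM))) hr
  | bil b b' e =>
    exact (comp_nsmul (ncomp_bil b b' a) e).of_eq fun w =>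
      (psum_map _ a (multiplesHom A e) w).symm
  | add _ _ hf hg => exact (hf.add hg).of_eq fun w => (psum_add _ a _ w).symm

theorem LinF.comp_psum_psum {f : List α → A} (h : LinF f) (a' a : α) :
    Comp fun w => psum (fun q => psum f a' q) a w := by
  induction h with
  | zero =>
    refine (Comp.const (α := α) (0 : A)).of_eq fun w => ?_
    have hz : ∀ (c : α) (q : List α), psum (fun _ => (0 : A)) c q = 0 := fun c q =>
      (psum_map (fun _ => (0 : A)) c (0 : A →+ A) q).trans rfl
    rw [psum_congr _ a (fun _ => (0 : A)) (hz a') w, hz a w]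
  | term b e =>
    refine (comp_nsmul (ncomp_triple b a' a) e).of_eq fun w => ?_
    have h1 := psum_map (fun q => psum (num b) a' q) a (multiplesHom A e) w
    refine h1.symm.trans (psum_congr _ _ _ (fun q => ?_) w)
    exact (psum_map (num b) a' (multiplesHom A e) q).symm
  | add _ _ hf hg =>
    refine (hf.add hg).of_eq fun w => ?_
    rw [← psum_add]
    exact psum_congr _ _ _ (fun q => (psum_add _ a' _ q).symm) w

end valued

/-- The data of a group of class at most three with commutators in the abelian group `A`. -/
structure Data (G A : Type) [Group G] [AddCommGroup A] where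
  incl : A → G
  incl_zero : incl 0 = 1
  incl_add : ∀ a b, incl (a + b) = incl a * incl b
  com : G → G → A
  incl_com : ∀ g x, incl (com g x) = ⁅x, g⁆
  act : G → A →+ A
  act_mul : ∀ x y a, act (x * y) a = act x a + act y a
  incl_act : ∀ x a, incl (act x a) = ⁅x, incl a⁆
  act_act : ∀ x y a, act x (act y a) = 0
  com_mul : ∀ g x y, com g (x * y) = act x (com g y) + com g y + com g x

namespace Data

variable {G A : Type} [Group G] [AddCommGroup A] [Finite G] [Finite A] (d : Data G A)

theorem com_one (g : G) : d.com g 1 = 0 := by
  have h1 : d.act 1 (d.com g 1) = 0 := by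
    have := d.act_mul 1 1 (d.com g 1)
    simpa using this
  have := d.com_mul g 1 1
  simpa [h1] using this

theorem act_pow (x : G) (a : A) (n : ℕ) : d.act (x ^ n) a = n • d.act x a := by
  induction n with
  | zero =>
    have := d.act_mul 1 1 a
    simpa using this
  | succ n ih => rw [pow_succ, d.act_mul, ih, succ_nsmul]

theorem act_com_mul (y g x x' : G) :
    d.act y (d.com g (x * x')) = d.act y (d.com g x) + d.act y (d.com g x') := by
  rw [d.com_mul, map_add, map_add, d.act_act, zero_add, add_comm]

theorem act_com_pow (y g x : G) (n : ℕ) :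
    d.act y (d.com g (x ^ n)) = n • d.act y (d.com g x) := by
  induction n with
  | zero => simp [d.com_one]
  | succ n ih => rw [pow_succ, d.act_com_mul, ih, succ_nsmul]

/-- An ordered product of powers given by letter counts. -/
noncomputable def ord : List (G × α) → List α → G
  | [], _ => 1
  | (x, b) :: l, w => x ^ num b w * ord l w

theorem ord_append (l m : List (G × α)) (w : List α) :
    ord (l ++ m) w = ord l w * ord m w := by
  induction l with
  | nil => simp [ord]
  | cons p l ih => simp [ord, ih, mul_assoc]

theorem ord_inv (l : List (G × α)) (w : List α) :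
    (ord l w)⁻¹ = ord ((l.map fun p => (p.1⁻¹, p.2)).reverse) w := by
  induction l with
  | nil => simp [ord]
  | cons p l ih => simp [ord, ih, ord_append, inv_pow]

theorem comp_ord (l : List (G × α)) : Comp fun w => ord l w := by
  induction l with
  | nil => exact Comp.const 1
  | cons p l ih =>
    obtain ⟨x, b⟩ := p
    have : NeZero (orderOf x) := ⟨(orderOf_pos x).ne'⟩
    refine (((ncomp_num b) (orderOf x)).map fun r => x ^ r.val).of_eq (fun w => ?_) |>.map₂ ih
      fun u v => u * v
    rw [ZMod.val_natCast, pow_mod_orderOf]

theorem lin_act_com (g : G) (l : List (G × α)) : ∀ y, LinF fun w => d.act y (d.com g (ord l w)) := by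
  induction l with
  | nil => intro y; simpa [ord, d.com_one] using LinF.zero (α := α) (A := A)
  | cons p l ih =>
    intro y
    simp only [ord, d.act_com_mul, d.act_com_pow]
    exact (LinF.term p.2 _).add (ih y)

theorem quad_com (g : G) (l : List (G × α)) : QuadF fun w => d.com g (ord l w) := by
  induction l with
  | nil => simpa [ord, d.com_one] using QuadF.zero (α := α) (A := A)
  | cons p l ih =>
    simp only [ord, d.com_mul, d.act_pow]
    refine ((linF_smul p.2 (d.lin_act_com g l p.1)).add ih).add
      (.per p.2 (fun n => d.com g (p.1 ^ n)) (orderOf p.1) (orderOf_pos p.1).ne' fun n => ?_)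
    rw [pow_mod_orderOf]

variable (g : α → G)

/-- The recursion for the commutator part, on the reversed word. -/
noncomputable def corrR (D : α → List α → A) : List α → A
  | [] => 0
  | x :: r => D x r.reverse + d.act (g x)⁻¹ (corrR D r) + corrR D r

/-- The commutator part. -/
noncomputable def corr (D : α → List α → A) (w : List α) : A := corrR d g D w.reverse

theorem corr_snoc (D : α → List α → A) (w : List α) (x : α) :
    d.corr g D (w ++ [x]) =
      D x w + d.act (g x)⁻¹ (d.corr g D w) + d.corr g D w := by
  simp [corr, corrR]

theorem act_corr (D : α → List α → A) (y : G) (w : List α) :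
    d.act y (d.corr g D w) = ∑ a, psum (fun q => d.act y (D a q)) a w := by
  induction w using List.reverseRecOn with
  | nil => simp [corr, corrR]
  | append_singleton w x ih =>
    simp only [corr_snoc, map_add, d.act_act, add_zero, psum_snoc, Finset.sum_add_distrib,
      Finset.sum_ite_eq, Finset.mem_univ, if_true, ← ih]
    abel

theorem corr_eq (D : α → List α → A) (w : List α) :
    d.corr g D w = ∑ a, psum (D a) a w +
      ∑ a, psum (fun q => d.act (g a)⁻¹ (d.corr g D q)) a w := by
  induction w using List.reverseRecOn with
  | nil => simp [corr, corrR]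
  | append_singleton w x ih =>
    simp only [corr_snoc, psum_snoc, Finset.sum_add_distrib, Finset.sum_ite_eq, Finset.mem_univ,
      if_true]
    conv_lhs => arg 2; rw [ih]
    abel

theorem comp_corr (D : α → List α → A) (hD : ∀ a, QuadF (D a))
    (hD' : ∀ a y, LinF fun q => d.act y (D a q)) : Comp fun w => d.corr g D w := by
  refine ((Comp.sum Finset.univ fun a _ => (hD a).comp_psum a).add
    (Comp.sum Finset.univ fun a _ =>
      Comp.sum Finset.univ fun a' _ => (hD' a' (g a)⁻¹).comp_psum_psum a' a)).of_eq fun w => ?_
  rw [d.corr_eq g D w]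
  refine congrArg₂ _ rfl (Finset.sum_congr rfl fun a _ => ?_)
  rw [← psum_sum]
  exact psum_congr _ _ _ (fun q => (d.act_corr g D _ q).symm) w

theorem incl_neg_conj (x : G) (z : A) :
    x⁻¹ * d.incl z * x = d.incl (d.act x⁻¹ z + z) := by
  rw [d.incl_add, d.incl_act, commutatorElement_def]
  group

include d in
theorem comp_prod : Comp fun w : List α => (w.map g).prod := by
  let l : List α := (Finset.univ : Finset α).toList
  let X : List α → G := fun w => ord (l.map fun b => (g b, b)) w
  have hsplit : ∀ a, ∃ l1 l2, l = l1 ++ a :: l2 ∧ a ∉ l1 ∧ a ∉ l2 := by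
    intro a
    obtain ⟨l1, l2, h⟩ := List.append_of_mem (show a ∈ l by simp [l])
    refine ⟨l1, l2, h, ?_⟩
    have hn : l.Nodup := Finset.nodup_toList _
    rw [h, List.nodup_append, List.nodup_cons] at hn
    exact ⟨fun ha => hn.2.2 a ha a (List.mem_cons_self ..) rfl, hn.2.1.1⟩
  choose l1 l2 hl h1 h2 using hsplit
  let D : α → List α → A := fun a w =>
    d.com (g a)⁻¹ (ord (((l2 a).map fun b => (g b, b)).map fun p => (p.1⁻¹, p.2)).reverse w)
  have hstep : ∀ w a, X w * g a = X (w ++ [a]) * d.incl (D a w) := by
    intro w a
    have hsame : ∀ m : List α, a ∉ m →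
        ord (m.map fun b => (g b, b)) (w ++ [a]) = ord (m.map fun b => (g b, b)) w := by
      intro m
      induction m with
      | nil => intro _; simp [ord]
      | cons b m ih =>
        intro hm
        rw [List.mem_cons, not_or] at hm
        simp [ord, hm.1, ih hm.2]
    simp only [X, D, d.incl_com, hl a, List.map_append, List.map_cons, ord_append, ord,
      num_snoc, if_true, hsame _ (h1 a), hsame _ (h2 a), ← ord_inv, commutatorElement_def,
      pow_succ]
    group
  have hmain : ∀ w, (w.map g).prod = X w * d.incl (d.corr g D w) := by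
    intro w
    induction w using List.reverseRecOn with
    | nil =>
      have : ∀ m : List (G × α), ord m ([] : List α) = 1 := by
        intro m
        induction m with
        | nil => rfl
        | cons p m ih => simp [ord, ih]
      simp [X, this, corr, corrR, d.incl_zero]
    | append_singleton w x ih =>
      rw [List.map_append, List.prod_append, List.map_singleton, List.prod_singleton, ih,
        corr_snoc, add_assoc, d.incl_add, ← mul_assoc (X (w ++ [x])), ← hstep, mul_assoc,
        mul_assoc, ← d.incl_neg_conj (g x)]
      group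
  refine ((comp_ord _).map₂ (d.comp_corr g D (fun a => d.quad_com _ _)
    (fun a y => d.lin_act_com _ _ y)) fun u z => u * d.incl z).of_eq fun w => (hmain w).symm

end Data

section nilpotent

variable {G : Type} [Group G] [Group.IsNilpotent G]

theorem hle_of_class_le_three [Finite G] (h : Group.nilpotencyClass G ≤ 3) (g : α → G)
    (T : Set G) : HeightLE ({w | (w.map g).prod ∈ T} : Language α) 1 := by
  have hcl : ∀ x y z u : G, ⁅⁅⁅x, y⁆, z⁆, u⁆ = 1 := by
    intro x y z u
    have hb := Subgroup.lowerCentralSeries_eq_bot_iff_nilpotencyClass_le.2 h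
    rw [← Subgroup.mem_bot, ← hb]
    refine Subgroup.commutator_mem_commutator ?_ (Subgroup.mem_top u)
    refine Subgroup.commutator_mem_commutator ?_ (Subgroup.mem_top z)
    exact Subgroup.commutator_mem_commutator (Subgroup.mem_top x) (Subgroup.mem_top y)
  have hgen : ∀ x y : G, ⁅x, y⁆ ∈ commutator G := fun x y =>
    Subgroup.commutator_mem_commutator (Subgroup.mem_top x) (Subgroup.mem_top y)
  have hcen : ∀ a ∈ commutator G, ∀ x, ⁅a, x⁆ ∈ Subgroup.center G := by
    intro a ha
    rw [commutator_eq_closure] at ha
    induction ha using Subgroup.closure_induction with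
    | mem a ha =>
      obtain ⟨p, q, rfl⟩ := ha
      intro x
      refine Subgroup.mem_center_iff.2 fun u => ?_
      exact (commutatorElement_eq_one_iff_mul_comm.1 (hcl p q x u)).symm
    | one => intro x; simp
    | mul a b _ _ iha ihb =>
      intro x
      have : ⁅a * b, x⁆ = a * ⁅b, x⁆ * a⁻¹ * ⁅a, x⁆ := by
        simp only [commutatorElement_def]; group
      rw [this]
      exact (Subgroup.center G).mul_mem (Subgroup.Normal.conj_mem inferInstance _ (ihb x) a) (iha x)
    | inv a _ iha =>
      intro x
      have : ⁅a⁻¹, x⁆ = a⁻¹ * ⁅a, x⁆⁻¹ * a⁻¹⁻¹ := by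
        simp only [commutatorElement_def]; group
      rw [this]
      exact Subgroup.Normal.conj_mem inferInstance _ ((Subgroup.center G).inv_mem (iha x)) _
  have hcen' : ∀ a ∈ commutator G, ∀ x, ⁅x, a⁆ ∈ Subgroup.center G := fun a ha x => by
    rw [← commutatorElement_inv]
    exact (Subgroup.center G).inv_mem (hcen a ha x)
  have hcomm : ∀ a ∈ commutator G, ∀ b ∈ commutator G, a * b = b * a := by
    intro a ha b hb
    let φ : G →* Subgroup.center G :=
      { toFun := fun x => ⟨⁅a, x⁆, hcen a ha x⟩
        map_one' := Subtype.ext (by simp)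
        map_mul' := fun x y => Subtype.ext (by
          change ⁅a, x * y⁆ = ⁅a, x⁆ * ⁅a, y⁆
          have h' := Subgroup.mem_center_iff.1 (hcen a ha y) x
          calc ⁅a, x * y⁆ = ⁅a, x⁆ * (x * ⁅a, y⁆ * x⁻¹) := by
                simp only [commutatorElement_def]; group
            _ = ⁅a, x⁆ * ⁅a, y⁆ := by rw [h']; group) }
    rw [commutator_eq_closure] at hb
    induction hb using Subgroup.closure_induction with
    | mem b hb =>
      obtain ⟨p, q, rfl⟩ := hb
      have h1 : φ ⁅p, q⁆ = 1 := by
        rw [map_commutatorElement, commutatorElement_eq_one_iff_mul_comm]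
        exact Subtype.ext (Subgroup.mem_center_iff.1 (φ q).2 _)
      exact commutatorElement_eq_one_iff_mul_comm.1 (congrArg Subtype.val h1)
    | one => simp
    | mul x y _ _ hx hy => exact Commute.mul_right hx hy
    | inv x _ hx => exact Commute.inv_right hx
  let _ : CommGroup (commutator G) :=
    { (inferInstance : Group (commutator G)) with
      mul_comm := fun a b => Subtype.ext (hcomm a a.2 b b.2) }
  have hcent : ∀ (x : G) (a : commutator G) (y : G), ⁅y, ⁅x, (a : G)⁆⁆ = 1 := fun x a y =>
    commutatorElement_eq_one_iff_mul_comm.2 (Subgroup.mem_center_iff.1 (hcen' a a.2 x) y)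
  let act : G → Additive (commutator G) →+ Additive (commutator G) := fun x =>
    MonoidHom.toAdditive
      { toFun := fun a => ⟨⁅x, (a : G)⁆, hgen _ _⟩
        map_one' := Subtype.ext (by simp)
        map_mul' := fun a b => Subtype.ext (by
          change ⁅x, (a : G) * b⁆ = ⁅x, (a : G)⁆ * ⁅x, (b : G)⁆
          have h' := Subgroup.mem_center_iff.1 (hcen' b b.2 x) (a : G)
          calc ⁅x, (a : G) * b⁆ = ⁅x, (a : G)⁆ * ((a : G) * ⁅x, (b : G)⁆ * (a : G)⁻¹) := by
                simp only [commutatorElement_def]; group
            _ = _ := by rw [h']; group) }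
  let d : Data G (Additive (commutator G)) :=
    { incl := fun a => ((Additive.toMul a : commutator G) : G)
      incl_zero := rfl
      incl_add := fun _ _ => rfl
      com := fun g x => Additive.ofMul ⟨⁅x, g⁆, hgen _ _⟩
      incl_com := fun _ _ => rfl
      act := act
      act_mul := fun x y a => by
        apply Additive.toMul.injective
        apply Subtype.ext
        change ⁅x * y, (a.toMul : G)⁆ = ⁅x, (a.toMul : G)⁆ * ⁅y, (a.toMul : G)⁆
        have h' := Subgroup.mem_center_iff.1 (hcen' _ a.toMul.2 y) x
        have h'' := Subgroup.mem_center_iff.1 (hcen' _ a.toMul.2 y) ⁅x, (a.toMul : G)⁆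
        calc ⁅x * y, (a.toMul : G)⁆ = x * ⁅y, (a.toMul : G)⁆ * x⁻¹ * ⁅x, (a.toMul : G)⁆ := by
              simp only [commutatorElement_def]; group
          _ = ⁅y, (a.toMul : G)⁆ * ⁅x, (a.toMul : G)⁆ := by rw [h']; group
          _ = _ := h''.symm
      incl_act := fun _ _ => rfl
      act_act := fun x y a => Additive.toMul.injective (Subtype.ext (hcent y a.toMul x))
      com_mul := fun g x y => by
        apply Additive.toMul.injective
        apply Subtype.ext
        change ⁅x * y, g⁆ = ⁅x, ⁅y, g⁆⁆ * ⁅y, g⁆ * ⁅x, g⁆
        simp only [commutatorElement_def]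
        group }
  exact d.comp_prod g T

end nilpotent

end Vale.Agent.P329.Nil
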