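import Vale.Agent.P329.UpgradeBase
import Vale.Agent.P329.UpgradeTools

/-!
The two core facts of the rank theorem (P329).

`diff_integral`: if F multiplies the Fourier vectors of a colour map by an indicator which is
invariant under the units that are one on the prime-to-l part, then two columns of F with
different colours agree up to l-integral numbers.  (Only frequencies prime to l see a shift by d/l; on those the indicator is
periodic modulo the prime-to-l part of d.)

`not_two_idempotents`: a primitive group has no two orthogonal nonzero rational invariant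
idempotents killing constants with columns congruent in this sense.  (All entries of such an
idempotent are congruent to f/k modulo ℤ, f its trace; so |entries| ≥ gcd(f,k)/k and the diagonal
gives gcd(f,k)^2 < k, while orthogonality gives k ∣ f f'.)
-/

namespace Vale.Agent.P329

namespace Upgrade

open Finset

variable {Ω : Type} [Fintype Ω] [DecidableEq Ω] {d : ℕ} [NeZero d] {K : Type*} [Field K]
  [CharZero K] {w : K}

omit [CharZero K] in
theorem sum_chi_mul (hw : IsPrimitiveRoot w d) (v : ZMod d) :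
    ∑ a : ZMod d, w ^ (a * v).val = if v = 0 then (d : K) else 0 := by
  have h := periodic_sum hw (R := 1) (t := d) (one_mul d) (fun _ => (1 : K)) (fun _ => rfl) v
  simpa using h

omit [CharZero K] in
/-- A periodic function with values 0, 1 has character sums divisible by d/R. -/
theorem periodic_sum_integral (hw : IsPrimitiveRoot w d) {R t : ℕ} (hd : R * t = d)
    (g : ZMod d → K) (hg : ∀ a, g (a + R) = g a) (hg01 : ∀ a, g a = 0 ∨ g a = 1) (v : ZMod d) :
    ∃ z : K, IsIntegral ℤ z ∧ ∑ a, g a * w ^ (a * v).val = t * z := by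
  rw [periodic_sum hw hd g hg v]
  split_ifs
  · refine ⟨_, IsIntegral.sum _ fun r _ => IsIntegral.mul ?_
      ((hw.isIntegral (NeZero.pos d)).pow _), rfl⟩
    rcases hg01 (r : ZMod d) with h | h <;> rw [h]
    · exact isIntegral_zero
    · exact isIntegral_one
  · exact ⟨0, isIntegral_zero, by simp⟩

/-- The entries of F at coloured columns, through the Fourier vectors. -/
theorem mul_col_eq (hw : IsPrimitiveRoot w d) (c : ZMod d → Ω) (F : Ω → Ω → K)
    (g : ZMod d → Prop) [DecidablePred g]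
    (hF : ∀ a : ZMod d, a ≠ 0 → ∀ y, (∑ z, F y z * ∑ n, if c n = z then w ^ (a * n).val else 0) =
      if g a then ∑ n, (if c n = y then w ^ (a * n).val else 0) else 0)
    (p q : ZMod d) (y : Ω) :
    (d : K) * (F y (c p) - F y (c q)) = ∑ n, (if c n = y then
      ∑ a, (if g a then (w ^ (a * (n - p)).val - w ^ (a * (n - q)).val) else 0) else 0) := by
  have hrec : ∀ r : ZMod d, (d : K) * F y (c r) =
      ∑ a, w ^ (-(a * r)).val * ∑ n, F y (c n) * w ^ (a * n).val := by
    intro r
    simp only [mul_sum]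
    rw [sum_comm]
    have : ∀ n, ∑ a : ZMod d, w ^ (-(a * r)).val * (F y (c n) * w ^ (a * n).val) =
        F y (c n) * ∑ a : ZMod d, w ^ (a * (n - r)).val := by
      intro n
      rw [mul_sum]
      refine sum_congr rfl fun a _ => ?_
      rw [mul_left_comm, ← chi_add hw, neg_add_eq_sub, ← mul_sub]
    simp only [this, sum_chi_mul hw, sub_eq_zero, mul_ite, mul_zero, sum_ite_eq', mem_univ,
      if_true]
    exact mul_comm _ _
  have hcol : ∀ a : ZMod d, ∑ n, F y (c n) * w ^ (a * n).val =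
      ∑ z, F y z * ∑ n, if c n = z then w ^ (a * n).val else 0 := by
    intro a
    simp only [mul_sum, mul_ite, mul_zero]
    rw [sum_comm]
    simp
  rw [mul_sub, hrec p, hrec q, ← sum_sub_distrib]
  simp only [← sum_filter (fun n => c n = y)]
  rw [sum_comm]
  refine sum_congr rfl fun a _ => ?_
  rw [hcol, ← sub_mul]
  rcases eq_or_ne a 0 with rfl | ha
  · simp
  rw [hF a ha]
  split_ifs with hga
  · rw [← sum_filter, mul_sum]
    refine sum_congr rfl fun n _ => ?_
    rw [sub_mul, ← chi_add hw, ← chi_add hw, neg_add_eq_sub, neg_add_eq_sub, ← mul_sub, ← mul_sub]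
  · simp

/-- For every prime, two differently coloured columns agree up to numbers integral at it. -/
theorem diff_integral (hw : IsPrimitiveRoot w d) (c : ZMod d → Ω) (F : Ω → Ω → K)
    (g : ZMod d → Prop) [DecidablePred g] {l : ℕ} (hl : l.Prime)
    (hg : ∀ u : (ZMod d)ˣ, ordCompl[l] d ∣ ((u : ZMod d).val + d - 1) → ∀ a, g a → g (u * a))
    (hF : ∀ a : ZMod d, a ≠ 0 → ∀ y, (∑ z, F y z * ∑ n, if c n = z then w ^ (a * n).val else 0) =
      if g a then ∑ n, (if c n = y then w ^ (a * n).val else 0) else 0)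
    (hc : ∃ n n', c n ≠ c n')
    (hper : ∀ l : ℕ, l.Prime → l ∣ d → ∃ n, c (n + ((d / l : ℕ) : ZMod d)) ≠ c n) :
    ∃ p q, c p ≠ c q ∧ ∀ y, ∃ m : ℕ, ¬l ∣ m ∧ IsIntegral ℤ ((m : K) * (F y (c p) - F y (c q))) := by
  classical
  have hd0 : 0 < d := NeZero.pos d
  by_cases hld : l ∣ d
  swap
  · obtain ⟨p, q, hpq⟩ := hc
    refine ⟨p, q, hpq, fun y => ⟨d, hld, ?_⟩⟩
    rw [mul_col_eq hw c F g hF]
    refine IsIntegral.sum _ fun n _ => ?_
    split_ifs
    · refine IsIntegral.sum _ fun a _ => ?_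
      split_ifs
      · exact ((hw.isIntegral hd0).pow _).sub ((hw.isIntegral hd0).pow _)
      · exact isIntegral_zero
    · exact isIntegral_zero
  set D := d.factorization l with hD
  set m := ordCompl[l] d with hm
  have hlm : ¬l ∣ m := Nat.not_dvd_ordCompl hl hd0.ne'
  have hdm : d = l ^ D * m := (Nat.ordProj_mul_ordCompl_eq_self d l).symm
  have hm0 : 0 < m := Nat.pos_of_ne_zero fun h => by simp [h] at hdm; omega
  have hmd : m ∣ d := ⟨l ^ D, by rw [hdm, mul_comm]⟩
  obtain ⟨n₀, hn₀⟩ := hper l hl hld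
  set z : ZMod d := ((d / l : ℕ) : ZMod d) with hz
  refine ⟨n₀ + z, n₀, hn₀, fun y => ⟨m, hlm, ?_⟩⟩
  -- the indicator on the frequencies prime to l, extended periodically modulo m
  let h : ZMod d → K := fun a =>
    if ∃ b, g b ∧ ¬l ∣ b.val ∧ ((b.val : ZMod m) = (a.val : ZMod m)) then 1 else 0
  have hh01 : ∀ a, h a = 0 ∨ h a = 1 := fun a => by
    simp only [h]; split_ifs <;> simp
  have hhper : ∀ a, h (a + m) = h a := fun a => by
    have e : ((((a + m : ZMod d).val : ℕ)) : ZMod m) = (a.val : ZMod m) := by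
      rw [ZMod.natCast_eq_natCast_iff, ZMod.val_add, ZMod.val_natCast]
      refine (Nat.mod_modEq _ d).of_dvd hmd |>.trans ?_
      refine (Nat.ModEq.add_left _ ((Nat.mod_modEq m d).of_dvd hmd)).trans ?_
      exact Nat.add_modEq_right
    simp only [h, e]
  have hkey : ∀ (a v : ZMod d), (if g a then (w ^ (a * (v - z)).val - w ^ (a * v).val) else 0) =
      h a * w ^ (a * (v - z)).val - h a * w ^ (a * v).val := by
    intro a v
    by_cases hla : l ∣ a.val
    · have haz : a * z = 0 := by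
        rw [hz, ← ZMod.natCast_zmod_val a, ← Nat.cast_mul, ZMod.natCast_eq_zero_iff]
        obtain ⟨e, he⟩ := hla
        rw [he, mul_comm l, mul_assoc, Nat.mul_div_cancel' hld]
        exact dvd_mul_left _ _
      rw [mul_sub, haz, sub_zero]
      simp
    · have hiff : (∃ b, g b ∧ ¬l ∣ b.val ∧ ((b.val : ZMod m) = (a.val : ZMod m))) ↔ g a := by
        refine ⟨?_, fun hga => ⟨a, hga, hla, rfl⟩⟩
        rintro ⟨b, hgb, hlb, hba⟩
        obtain ⟨u, hu, hum⟩ := exists_unit_shift (D := D) hl hmd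
          (by rw [hdm, Nat.mul_div_cancel _ hm0])
          (fun l' hl' hl'd => by
            rw [hdm] at hl'd
            rcases hl'.dvd_mul.1 hl'd with h1 | h1
            · exact Or.inl ((Nat.prime_dvd_prime_iff_eq hl' hl).1 (hl'.dvd_of_dvd_pow h1))
            · exact Or.inr h1)
          hlb hla ((ZMod.intCast_eq_intCast_iff _ _ m).1 (by push_cast; exact hba))
        rw [hu]
        exact hg u hum b hgb
      simp only [h, if_congr hiff rfl rfl]
      split_ifs <;> simp
  have hsum : ∀ v : ZMod d, ∃ zz : K, IsIntegral ℤ zz ∧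
      (∑ a, if g a then (w ^ (a * (v - z)).val - w ^ (a * v).val) else 0) = (l ^ D : ℕ) * zz := by
    intro v
    obtain ⟨z1, hz1, e1⟩ := periodic_sum_integral hw (R := m) (t := l ^ D)
      (by rw [hdm, mul_comm]) h hhper hh01 (v - z)
    obtain ⟨z2, hz2, e2⟩ := periodic_sum_integral hw (R := m) (t := l ^ D)
      (by rw [hdm, mul_comm]) h hhper hh01 v
    refine ⟨z1 - z2, hz1.sub hz2, ?_⟩
    rw [sum_congr rfl fun a _ => hkey a v, sum_sub_distrib, e1, e2, mul_sub]
  choose zz hzz hzzeq using hsum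
  have hmain : (d : K) * (F y (c (n₀ + z)) - F y (c n₀)) =
      (l ^ D : ℕ) * ∑ n, (if c n = y then zz (n - n₀) else 0) := by
    rw [mul_col_eq hw c F g hF, mul_sum]
    refine sum_congr rfl fun n _ => ?_
    rw [mul_ite, mul_zero, ← hzzeq, show n - (n₀ + z) = n - n₀ - z by ring]
  have hne : ((l ^ D : ℕ) : K) ≠ 0 := Nat.cast_ne_zero.2 (pow_ne_zero _ hl.ne_zero)
  have : (m : K) * (F y (c (n₀ + z)) - F y (c n₀)) = ∑ n, (if c n = y then zz (n - n₀) else 0) := by
    refine mul_left_cancel₀ hne ?_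
    rw [← mul_assoc, ← Nat.cast_mul, ← hdm, hmain]
  rw [this]
  refine IsIntegral.sum _ fun n _ => ?_
  split_ifs
  · exact hzz _
  · exact isIntegral_zero

/-- The rationals whose denominator is prime to l. -/
def lIntRat (l : ℕ) [hl : Fact l.Prime] : AddSubgroup ℚ where
  carrier := {q | ¬l ∣ q.den}
  zero_mem' := by simpa using hl.out.ne_one
  add_mem' := fun {a b} ha hb h => ((hl.out.dvd_mul).1 (h.trans (Rat.add_den_dvd a b))).elim ha hb
  neg_mem' := fun {a} ha => by simpa using ha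

theorem mem_lIntRat_of_isIntegral {l : ℕ} [hl : Fact l.Prime] {x : ℚ} {m : ℕ} (hm : ¬l ∣ m)
    (h : IsIntegral ℤ ((m : K) * (x : K))) : x ∈ lIntRat l := by
  have h' : IsIntegral ℤ ((m : ℚ) * x) :=
    (isIntegral_algebraMap_iff (algebraMap ℚ K).injective).1 (by simpa using h)
  obtain ⟨k, hk⟩ := IsIntegrallyClosed.isIntegral_iff.1 h'
  intro hdvd
  have hk' : (k : ℚ) = (m : ℚ) * x := hk
  have hnum : (k * x.den : ℤ) = m * x.num := by
    have hq : ((k * x.den : ℤ) : ℚ) = ((m * x.num : ℤ) : ℚ) := by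
      push_cast
      rw [hk', mul_assoc, Rat.mul_den_eq_num]
    exact_mod_cast hq
  have h1 : (l : ℤ) ∣ (m : ℤ) * x.num := hnum ▸ dvd_mul_of_dvd_right (Int.natCast_dvd_natCast.2 hdvd) _
  rcases (Nat.prime_iff_prime_int.1 hl.out).dvd_mul.1 h1 with h2 | h2
  · exact hm (Int.natCast_dvd_natCast.1 h2)
  · have h3 : l ∣ x.num.natAbs := Int.natCast_dvd.1 h2
    exact hl.out.ne_one (Nat.eq_one_of_dvd_coprimes x.reduced h3 hdvd)

/-- A rational which is integral at all primes is an integer. -/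
theorem exists_int_of_forall_prime {x : ℚ}
    (h : ∀ l : ℕ, ∀ hl : l.Prime, x ∈ @lIntRat l ⟨hl⟩) : ∃ N : ℤ, x = N := by
  by_cases hden : x.den = 1
  · exact ⟨x.num, ((Rat.den_eq_one_iff x).1 hden).symm⟩
  · obtain ⟨l, hl, hld⟩ := Nat.exists_prime_and_dvd hden
    exact absurd hld (h l hl)

omit [DecidableEq Ω] in
/-- No two orthogonal rational invariant idempotents with integrally congruent columns. -/
theorem not_two_idempotents (H : Subgroup (Equiv.Perm Ω)) [MulAction.IsPreprimitive H Ω]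
    (F G : Ω → Ω → ℚ)
    (hFinv : ∀ h ∈ H, ∀ y z, F (h y) (h z) = F y z) (hGinv : ∀ h ∈ H, ∀ y z, G (h y) (h z) = G y z)
    (hFsym : ∀ y z, F y z = F z y) (hGsym : ∀ y z, G y z = G z y)
    (hF2 : ∀ y z, ∑ v, F y v * F v z = F y z) (hG2 : ∀ y z, ∑ v, G y v * G v z = G y z)
    (hF1 : ∀ y, ∑ z, F y z = 0) (hG1 : ∀ y, ∑ z, G y z = 0)
    (hFG : ∀ y z, ∑ v, F y v * G v z = 0)
    (hFtr : ∃ f : ℕ, 0 < f ∧ ∑ y, F y y = f) (hGtr : ∃ f : ℕ, 0 < f ∧ ∑ y, G y y = f)
    (hFint : ∀ l : ℕ, ∀ hl : l.Prime, ∃ u v, u ≠ v ∧ ∀ y, F y u - F y v ∈ @lIntRat l ⟨hl⟩)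
    (hGint : ∀ l : ℕ, ∀ hl : l.Prime, ∃ u v, u ≠ v ∧ ∀ y, G y u - G y v ∈ @lIntRat l ⟨hl⟩) :
    False := by
  classical
  set k := Fintype.card Ω with hk
  obtain ⟨u₀, _, hne₀, _⟩ := hFint 2 Nat.prime_two
  have hkpos : 0 < k := Fintype.card_pos_iff.2 ⟨u₀⟩
  have hkq : (0 : ℚ) < k := by exact_mod_cast hkpos
  have main : ∀ (F : Ω → Ω → ℚ), (∀ h ∈ H, ∀ y z, F (h y) (h z) = F y z) →
      (∀ y z, F y z = F z y) → (∀ y z, ∑ v, F y v * F v z = F y z) → (∀ y, ∑ z, F y z = 0) →
      (∃ f : ℕ, 0 < f ∧ ∑ y, F y y = f) →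
      (∀ l : ℕ, ∀ hl : l.Prime, ∃ u v, u ≠ v ∧ ∀ y, F y u - F y v ∈ @lIntRat l ⟨hl⟩) →
      ∃ (f : ℕ) (N : Ω → Ω → ℤ), (∀ y z, F y z = (f : ℚ) / k + N y z) ∧
        (∀ y, ∑ z, N y z = -(f : ℤ)) ∧ (∀ y z, N y z = N z y) ∧ Nat.gcd f k * Nat.gcd f k < k := by
    intro F hinv hsym h2 h1 htr hint
    obtain ⟨f, hf, htr⟩ := htr
    have hdiag : ∀ v, F v v = (f : ℚ) / k := by
      intro v
      have e : ∀ y, F y y = F v v := fun y => by
        obtain ⟨⟨h, hh⟩, he⟩ := MulAction.exists_smul_eq H v y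
        change h v = y at he
        rw [← he, hinv h hh]
      rw [sum_congr rfl fun y _ => e y, sum_const, card_univ, ← hk, nsmul_eq_mul] at htr
      rw [eq_div_iff hkq.ne', mul_comm, htr]
    have hN : ∀ y z, ∃ N : ℤ, F y z - (f : ℚ) / k = N := fun y z => by
      refine exists_int_of_forall_prime fun l hl => ?_
      have : Fact l.Prime := ⟨hl⟩
      obtain ⟨u, v, huv, hcol⟩ := hint l hl
      rw [← hdiag y]
      exact spread H (lIntRat l) F hinv huv hcol y z y
    choose N hN using hN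
    have hFN : ∀ y z, F y z = (f : ℚ) / k + N y z := fun y z => by rw [← hN]; ring
    refine ⟨f, N, hFN, fun y => ?_, fun y z => ?_, ?_⟩
    · have := h1 y
      simp only [hFN, sum_add_distrib, sum_const, card_univ, ← hk, nsmul_eq_mul] at this
      rw [mul_div_cancel₀ _ hkq.ne'] at this
      have : ((∑ z, N y z : ℤ) : ℚ) = ((-(f : ℤ) : ℤ) : ℚ) := by push_cast; linarith
      exact_mod_cast this
    · have : (N y z : ℚ) = N z y := by rw [← hN, ← hN, hsym]
      exact_mod_cast this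
    · -- the diagonal entry is less than one, all entries are at least gcd/k in absolute value
      obtain ⟨x⟩ : Nonempty Ω := ⟨u₀⟩
      have hsq : ∑ y, F y x ^ 2 = (f : ℚ) / k := by
        rw [← hdiag x]
        conv_rhs => rw [← h2 x x]
        exact sum_congr rfl fun y _ => by rw [hsym x y, sq]
      have hlt : (f : ℚ) / k < 1 := by
        have hpos : 0 < (f : ℚ) / k := div_pos (by exact_mod_cast hf) hkq
        have hsplit := add_sum_erase univ (fun y => F y x ^ 2) (mem_univ x)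
        have hrest : 0 ≤ ∑ y ∈ univ.erase x, F y x ^ 2 := sum_nonneg fun _ _ => sq_nonneg _
        rw [hsq, hdiag] at hsplit
        by_contra hge
        rw [not_lt] at hge
        have h0 : ∑ y ∈ univ.erase x, F y x ^ 2 = 0 := by nlinarith
        rw [sum_eq_zero_iff_of_nonneg fun _ _ => sq_nonneg _] at h0
        have h1' := h1 x
        rw [← add_sum_erase univ (fun z => F x z) (mem_univ x), hdiag,
          sum_eq_zero fun z hz => by rw [hsym]; exact pow_eq_zero_iff two_ne_zero |>.1 (h0 z hz),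
          add_zero] at h1'
        linarith
      have hfk : f < k := by
        rw [div_lt_one hkq] at hlt
        exact_mod_cast hlt
      set g := Nat.gcd f k
      have hgk : (g : ℤ) ∣ (k : ℤ) := Int.natCast_dvd_natCast.2 (Nat.gcd_dvd_right f k)
      have hgf : (g : ℤ) ∣ (f : ℤ) := Int.natCast_dvd_natCast.2 (Nat.gcd_dvd_left f k)
      have hentry : ∀ y, ((g : ℚ) / k) ^ 2 ≤ F y x ^ 2 := by
        intro y
        set A : ℤ := f + k * N y x with hA
        have hgA : (g : ℤ) ∣ A := dvd_add hgf (hgk.mul_right _)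
        have hA0 : A ≠ 0 := by
          intro h0
          have : (k : ℤ) ∣ (f : ℤ) := ⟨-N y x, by linarith⟩
          have := Nat.le_of_dvd hf (Int.natCast_dvd_natCast.1 this)
          omega
        have habs : (g : ℤ) ≤ |A| :=
          Int.le_of_dvd (abs_pos.2 hA0) ((dvd_abs _ _).2 hgA)
        have e : F y x = (A : ℚ) / k := by
          rw [hFN, hA]; push_cast; field_simp
        rw [e, div_pow, div_pow]
        refine div_le_div_of_nonneg_right ?_ (sq_nonneg _)
        rw [sq_le_sq, abs_of_nonneg (by positivity : (0 : ℚ) ≤ g)]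
        exact_mod_cast habs
      have hle := card_nsmul_le_sum univ (fun y => F y x ^ 2) (((g : ℚ) / k) ^ 2) fun y _ => hentry y
      rw [hsq, card_univ, ← hk, nsmul_eq_mul] at hle
      have h3 : (k : ℚ) * ((g : ℚ) / k) ^ 2 < 1 := hle.trans_lt hlt
      rw [show (k : ℚ) * ((g : ℚ) / k) ^ 2 = ((g : ℚ) * g) / k by field_simp, div_lt_one hkq] at h3
      exact_mod_cast h3
  obtain ⟨f, N, hFN, hNrow, hNsym, hg⟩ := main F hFinv hFsym hF2 hF1 hFtr hFint
  obtain ⟨f', N', hGN, hN'row, hN'sym, hg'⟩ := main G hGinv hGsym hG2 hG1 hGtr hGint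
  have hdvd : k ∣ f * f' := by
    have e := hFG u₀ u₀
    have hterm : ∀ v, F u₀ v * G v u₀ = (f : ℚ) / k * ((f' : ℚ) / k) + (f : ℚ) / k * N' u₀ v +
        (f' : ℚ) / k * N u₀ v + (N u₀ v : ℚ) * N' v u₀ := fun v => by
      rw [hFN, hGN, hN'sym v u₀]; ring
    rw [sum_congr rfl fun v _ => hterm v] at e
    simp only [sum_add_distrib, sum_const, card_univ, ← hk, nsmul_eq_mul, ← mul_sum] at e
    have r1 : (∑ v, (N' u₀ v : ℚ)) = -(f' : ℚ) := by exact_mod_cast hN'row u₀
    have r2 : (∑ v, (N u₀ v : ℚ)) = -(f : ℚ) := by exact_mod_cast hNrow u₀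
    rw [r1, r2] at e
    have e' : ((f : ℚ) * f') = (k : ℚ) * ((∑ v, N u₀ v * N' v u₀ : ℤ) : ℚ) := by
      push_cast
      field_simp at e
      linear_combination (-1 : ℚ) * e
    have e'' : ((f * f' : ℕ) : ℤ) = (k : ℤ) * ∑ v, N u₀ v * N' v u₀ := by exact_mod_cast e'
    exact Int.natCast_dvd_natCast.1 ⟨_, e''⟩
  have hkgg : k ∣ Nat.gcd f k * Nat.gcd f' k := by
    rw [Nat.gcd_comm f, Nat.gcd_comm f']
    exact Nat.dvd_gcd_mul_gcd_iff_dvd_mul.2 hdvd
  have hle : k ≤ Nat.gcd f k * Nat.gcd f' k :=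
    Nat.le_of_dvd (Nat.mul_pos (Nat.gcd_pos_of_pos_right _ hkpos) (Nat.gcd_pos_of_pos_right _ hkpos))
      hkgg
  nlinarith

end Upgrade

end Vale.Agent.P329
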