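import Mathlib
import Vale.Agent.P329.Family
import Vale.Agent.P329.RankTwoCore

/-!
The rank theorem for families (P329).

For a set S of classes that is stable under the units which are one on the prime-to-l part, all
entries of the projection E_S are congruent to μ/k modulo l-integral numbers (μ the rank of E_S,
k the number of points), and the l-part of k divides μ or μ + 1.  As a consequence the units act
transitively on the classes: two different orbits would give two orthogonal rational invariant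
idempotents, which a primitive group with congruent columns does not admit.
-/

namespace Vale.Agent.P329

set_option linter.unusedSectionVars false

namespace Rank

open Finset Matrix

variable {Ω : Type} [Fintype Ω] [DecidableEq Ω] {d : ℕ} [NeZero d]

section lint

variable {L : Type*} [Field L] [CharZero L]

/-- Numbers which become integral after multiplication by a number prime to l. -/
def lInt (l : ℕ) [hl : Fact l.Prime] : AddSubgroup L where
  carrier := {x | ∃ m : ℕ, ¬l ∣ m ∧ IsIntegral ℤ ((m : L) * x)}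
  zero_mem' := ⟨1, by simpa using hl.out.ne_one, by simpa using isIntegral_zero⟩
  add_mem' := by
    rintro a b ⟨m, hm, ha⟩ ⟨n, hn, hb⟩
    have hm' : IsIntegral ℤ (m : L) := by
      simpa using (isIntegral_algebraMap (R := ℤ) (A := L) (x := (m : ℤ)))
    have hn' : IsIntegral ℤ (n : L) := by
      simpa using (isIntegral_algebraMap (R := ℤ) (A := L) (x := (n : ℤ)))
    refine ⟨m * n, fun h => (hl.out.dvd_mul.1 h).elim hm hn, ?_⟩
    rw [show ((m * n : ℕ) : L) * (a + b) = (n : L) * ((m : L) * a) + (m : L) * ((n : L) * b) by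
      push_cast; ring]
    exact (hn'.mul ha).add (hm'.mul hb)
  neg_mem' := by
    rintro a ⟨m, hm, ha⟩
    exact ⟨m, hm, by simpa using ha.neg⟩

omit [CharZero L] in
theorem mul_mem_lInt {l : ℕ} [hl : Fact l.Prime] {a b : L} (ha : a ∈ lInt l)
    (hb : b ∈ lInt l) : a * b ∈ (lInt l : AddSubgroup L) := by
  obtain ⟨m, hm, ha⟩ := ha
  obtain ⟨n, hn, hb⟩ := hb
  refine ⟨m * n, fun h => (hl.out.dvd_mul.1 h).elim hm hn, ?_⟩
  have := ha.mul hb
  rwa [show ((m * n : ℕ) : L) * (a * b) = (m : L) * a * ((n : L) * b) by push_cast; ring]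

/-- If N / k is integral at l then the l-part of k divides N. -/
theorem ordProj_dvd_of_mem_lInt {l : ℕ} [hl : Fact l.Prime] {N k : ℕ} (hk : k ≠ 0)
    (h : (N : L) / (k : L) ∈ (lInt l : AddSubgroup L)) : ordProj[l] k ∣ N := by
  obtain ⟨m, hm, hint⟩ := h
  have hint' : IsIntegral ℤ ((m : ℚ) * ((N : ℚ) / k)) :=
    (isIntegral_algebraMap_iff (algebraMap ℚ L).injective).1 (by simpa using hint)
  obtain ⟨z, hz⟩ := IsIntegrallyClosed.isIntegral_iff.1 hint'
  have hz' : (z : ℚ) = (m : ℚ) * ((N : ℚ) / k) := hz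
  have hkq : (k : ℚ) ≠ 0 := Nat.cast_ne_zero.2 hk
  have hq : ((z * k : ℤ) : ℚ) = (((m * N : ℕ) : ℤ) : ℚ) := by
    push_cast
    rw [hz']
    field_simp
  have h1 : (k : ℤ) ∣ ((m * N : ℕ) : ℤ) := ⟨z, by rw [← Int.cast_injective hq, mul_comm]⟩
  have h2 : ordProj[l] k ∣ m * N := (Nat.ordProj_dvd k l).trans (Int.natCast_dvd_natCast.1 h1)
  exact (Nat.Coprime.pow_left _ (hl.out.coprime_iff_not_dvd.2 hm)).dvd_of_dvd_mul_left h2

/-- A rational in lInt is integral at l. -/
theorem ratCast_mem_lIntRat {l : ℕ} [Fact l.Prime] {x : ℚ}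
    (h : (x : L) ∈ (lInt l : AddSubgroup L)) : x ∈ Upgrade.lIntRat l := by
  obtain ⟨m, hm, hint⟩ := h
  exact Upgrade.mem_lIntRat_of_isIntegral hm hint

end lint

/-- The trace of a rational idempotent is not negative. -/
theorem trace_idem_nonneg {M : Matrix Ω Ω ℚ} (h : M * M = M) : 0 ≤ M.trace := by
  have hidem : IsIdempotentElem (Matrix.toLin' M) := by
    rw [IsIdempotentElem, Module.End.mul_eq_comp, ← Matrix.toLin'_mul, h]
  rw [← Matrix.trace_toLin'_eq, (LinearMap.IsIdempotentElem.isProj_range _ hidem).trace]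
  exact Nat.cast_nonneg _

/-- A rational idempotent commuting with its transpose is symmetric. -/
theorem symm_of_idem {G : Matrix Ω Ω ℚ} (h : G * G = G) (hc : G * Gᵀ = Gᵀ * G) (y z : Ω) :
    G y z = G z y := by
  have ht : Gᵀ * Gᵀ = Gᵀ := by rw [← Matrix.transpose_mul, h]
  have hP : (G * Gᵀ) * (G * Gᵀ) = G * Gᵀ := by
    rw [Matrix.mul_assoc, ← Matrix.mul_assoc Gᵀ, ← hc, Matrix.mul_assoc G Gᵀ Gᵀ, ht,
      ← Matrix.mul_assoc, h]
  have hQ : (G - G * Gᵀ) * (G - G * Gᵀ) = G - G * Gᵀ := by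
    have e1 : G * (G * Gᵀ) = G * Gᵀ := by rw [← Matrix.mul_assoc, h]
    have e2 : G * Gᵀ * G = G * Gᵀ := by rw [Matrix.mul_assoc, ← hc, e1]
    rw [Matrix.sub_mul, Matrix.mul_sub, Matrix.mul_sub, h, e1, e2, hP]
    abel
  have hle : (G * Gᵀ).trace ≤ G.trace := by
    have := trace_idem_nonneg hQ
    rw [Matrix.trace_sub] at this
    linarith
  have hsum : ∑ a, ∑ b, (G a b - G b a) ^ 2 = 2 * (G * Gᵀ).trace - 2 * (G * G).trace := by
    simp only [Matrix.trace, Matrix.diag, Matrix.mul_apply, Matrix.transpose_apply]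
    have e : ∀ a b, (G a b - G b a) ^ 2 =
        G a b * G a b + G b a * G b a - 2 * (G a b * G b a) := fun a b => by ring
    simp only [e, sum_sub_distrib, sum_add_distrib, ← mul_sum]
    rw [sum_comm (f := fun a b => G b a * G b a)]
    ring
  rw [h] at hsum
  have h0 : ∑ a, ∑ b, (G a b - G b a) ^ 2 = 0 :=
    le_antisymm (by rw [hsum]; linarith) (sum_nonneg fun _ _ => sum_nonneg fun _ _ => sq_nonneg _)
  rw [sum_eq_zero_iff_of_nonneg fun _ _ => sum_nonneg fun _ _ => sq_nonneg _] at h0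
  have h1 := h0 y (mem_univ y)
  rw [sum_eq_zero_iff_of_nonneg fun _ _ => sq_nonneg _] at h1
  exact sub_eq_zero.1 ((pow_eq_zero_iff two_ne_zero).1 (h1 z (mem_univ z)))

namespace Fam

variable (F : Fam Ω d)

/-- Stable under the units which are one on the prime-to-l part. -/
def Stable (l : ℕ) (S : Finset F.Cls) : Prop :=
  ∀ u : (ZMod d)ˣ, ordCompl[l] d ∣ ((u : ZMod d).val + d - 1) → ∀ q ∈ S, u • q ∈ S

/-- Two coloured columns of a stable projection agree up to l-integral numbers. -/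
theorem diff_mem_lInt {l : ℕ} [hl : Fact l.Prime] {S : Finset F.Cls} (hS : F.Stable l S) :
    ∃ p q, F.c p ≠ F.c q ∧
      ∀ y, (∑ r ∈ S, F.E r) y (F.c p) - (∑ r ∈ S, F.E r) y (F.c q) ∈ (lInt l : AddSubgroup (K d)) := by
  classical
  have hg : ∀ u : (ZMod d)ˣ, ordCompl[l] d ∣ ((u : ZMod d).val + d - 1) →
      ∀ a, F.Mem S a → F.Mem S (u * a) := by
    rintro u hu a ⟨ha, hmem⟩
    exact ⟨F.spec_unit_mul u ha, hS u hu _ hmem⟩
  refine Upgrade.diff_integral (root_spec (d := d)) F.c _ (F.Mem S) hl.out hg (fun a ha y => ?_)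
    F.nonconst F.hper
  have h := congrFun ((F.isProj_sum S).eig a ha) y
  change ∑ z, (∑ r ∈ S, F.E r) y z * F.chat a z = _ at h
  rw [ite_apply, Pi.zero_apply] at h
  exact h

theorem trace_sum_E (S : Finset F.Cls) :
    (∑ r ∈ S, F.E r).trace = ((∑ r ∈ S, F.dim r : ℕ) : K d) := by
  simp [Matrix.trace_sum, F.trace_E]

theorem diag_sum_E (S : Finset F.Cls) (v : Ω) : (∑ r ∈ S, F.E r) v v =
    ((∑ r ∈ S, F.dim r : ℕ) : K d) / (Fintype.card Ω : K d) := by
  rw [eq_div_iff F.card_ne_zero, ← F.trace_sum_E S]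
  simp only [Matrix.trace, Matrix.diag]
  rw [sum_congr rfl fun w _ => (F.isProj_sum S).inv.diag_eq w v, sum_const, card_univ,
    nsmul_eq_mul, mul_comm]

/-- All entries of a stable projection are congruent to its trace over k. -/
theorem cong_trace {l : ℕ} [Fact l.Prime] {S : Finset F.Cls} (hS : F.Stable l S) (y z : Ω) :
    (∑ r ∈ S, F.E r) y z - ((∑ r ∈ S, F.dim r : ℕ) : K d) / (Fintype.card Ω : K d) ∈ (lInt l : AddSubgroup (K d)) := by
  obtain ⟨p, q, hpq, hcol⟩ := F.diff_mem_lInt hS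
  rw [← F.diag_sum_E S y]
  have := F.prim
  exact Upgrade.spread F.H (lInt l) _ (F.isProj_sum S).inv hpq hcol y z y

/-- A diagonal entry of a product of stable projections. -/
theorem entry_mul_mem {l : ℕ} [Fact l.Prime] {S S' : Finset F.Cls} (hS : F.Stable l S)
    (hS' : F.Stable l S') (v : Ω) :
    ((∑ r ∈ S, F.E r) * ∑ r ∈ S', F.E r) v v +
      (((∑ r ∈ S, F.dim r) * ∑ r ∈ S', F.dim r : ℕ) : K d) / (Fintype.card Ω : K d) ∈ (lInt l : AddSubgroup (K d)) := by
  set A := ∑ r ∈ S, F.E r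
  set B := ∑ r ∈ S', F.E r
  set a : K d := ((∑ r ∈ S, F.dim r : ℕ) : K d) / (Fintype.card Ω : K d) with ha
  set b : K d := ((∑ r ∈ S', F.dim r : ℕ) : K d) / (Fintype.card Ω : K d) with hb
  have hA : ∑ w, A v w = 0 := (F.isProj_sum S).rowSum F v
  have hB : ∑ w, B w v = 0 := (F.isProj_sum S').colSum F v
  have e : (A * B) v v +
      (((∑ r ∈ S, F.dim r) * ∑ r ∈ S', F.dim r : ℕ) : K d) / (Fintype.card Ω : K d) =
      ∑ w, (A v w - a) * (B w v - b) := by
    simp only [sub_mul, mul_sub, sum_sub_distrib, ← sum_mul, ← mul_sum, hA, hB, sum_const,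
      card_univ, nsmul_eq_mul, Matrix.mul_apply]
    have := F.card_ne_zero
    rw [ha, hb, Nat.cast_mul]
    field_simp
    ring
  rw [e]
  exact AddSubgroup.sum_mem _ fun w _ =>
    mul_mem_lInt (F.cong_trace hS v w) (F.cong_trace hS' w v)

/-- The l-part of k divides the rank of a stable projection or its successor. -/
theorem lam_cases {l : ℕ} [hl : Fact l.Prime] {S : Finset F.Cls} (hS : F.Stable l S) :
    ordProj[l] (Fintype.card Ω) ∣ (∑ r ∈ S, F.dim r) ∨
      ordProj[l] (Fintype.card Ω) ∣ (∑ r ∈ S, F.dim r) + 1 := by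
  set μ := ∑ r ∈ S, F.dim r with hμ
  have h := F.entry_mul_mem hS hS (F.c 0)
  rw [(F.isProj_sum S).mul_self F, F.diag_sum_E S, ← hμ, ← add_div, ← Nat.cast_add] at h
  have h1 := ordProj_dvd_of_mem_lInt F.card_pos'.ne' h
  rw [show μ + μ * μ = μ * (μ + 1) by ring] at h1
  by_cases hlμ : l ∣ μ
  · have hn : ¬l ∣ μ + 1 := fun h2 => hl.out.not_dvd_one ((Nat.dvd_add_right hlμ).1 h2)
    exact Or.inl
      ((Nat.Coprime.pow_left _ (hl.out.coprime_iff_not_dvd.2 hn)).dvd_of_dvd_mul_right h1)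
  · exact Or.inr
      ((Nat.Coprime.pow_left _ (hl.out.coprime_iff_not_dvd.2 hlμ)).dvd_of_dvd_mul_left h1)

/-- Disjoint stable sets: the l-part of k divides the product of the ranks. -/
theorem dvd_mul_of_disjoint {l : ℕ} [Fact l.Prime] {S S' : Finset F.Cls} (hS : F.Stable l S)
    (hS' : F.Stable l S') (hdisj : Disjoint S S') :
    ordProj[l] (Fintype.card Ω) ∣ (∑ r ∈ S, F.dim r) * ∑ r ∈ S', F.dim r := by
  have h := F.entry_mul_mem hS hS' (F.c 0)
  rw [(F.isProj_sum S).mul_eq_zero F (F.isProj_sum S')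
    (fun a _ ⟨⟨_, h1⟩, ⟨_, h2⟩⟩ => Finset.disjoint_left.1 hdisj h1 h2), Matrix.zero_apply,
    zero_add] at h
  exact ordProj_dvd_of_mem_lInt F.card_pos'.ne' h

/-- Disjoint stable sets cannot both be in the second case at a prime dividing k. -/
theorem not_both_succ {l : ℕ} [hl : Fact l.Prime] (hlk : l ∣ Fintype.card Ω) {S S' : Finset F.Cls}
    (hS : F.Stable l S) (hS' : F.Stable l S') (hdisj : Disjoint S S') :
    ¬(ordProj[l] (Fintype.card Ω) ∣ (∑ r ∈ S, F.dim r) + 1 ∧
      ordProj[l] (Fintype.card Ω) ∣ (∑ r ∈ S', F.dim r) + 1) := by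
  rintro ⟨h1, h2⟩
  have hl1 : l ∣ ordProj[l] (Fintype.card Ω) :=
    dvd_pow_self l (hl.out.factorization_pos_of_dvd F.card_pos'.ne' hlk).ne'
  rcases hl.out.dvd_mul.1 (hl1.trans (F.dvd_mul_of_disjoint hS hS' hdisj)) with h | h
  · exact hl.out.not_dvd_one ((Nat.dvd_add_right h).1 (hl1.trans h1))
  · exact hl.out.not_dvd_one ((Nat.dvd_add_right h).1 (hl1.trans h2))

/-- A set of classes stable under all units has a rational symmetric projection with congruent
columns at every prime. -/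
theorem exists_rat_proj (S : Finset F.Cls) (hne : S.Nonempty)
    (hS : ∀ (u : (ZMod d)ˣ), ∀ r ∈ S, u • r ∈ S) :
    ∃ G : Matrix Ω Ω ℚ, G.map (algebraMap ℚ (K d)) = ∑ r ∈ S, F.E r ∧
      (∀ h ∈ F.H, ∀ y z, G (h y) (h z) = G y z) ∧ (∀ y z, G y z = G z y) ∧ G * G = G ∧
      (∀ y, ∑ z, G y z = 0) ∧ (∃ f : ℕ, 0 < f ∧ ∑ y, G y y = f) ∧
      ∀ l : ℕ, ∀ hl : l.Prime, ∃ u v, u ≠ v ∧ ∀ y, G y u - G y v ∈ @Upgrade.lIntRat l ⟨hl⟩ := by
  classical
  set A := ∑ r ∈ S, F.E r with hA
  have hP := F.isProj_sum S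
  rw [← hA] at hP
  have hfix : ∀ (u : (ZMod d)ˣ) y z, gal u (A y z) = A y z := by
    intro u y z
    simp only [hA, Matrix.sum_apply, map_sum]
    refine sum_nbij' (fun r => u • r) (fun r => u⁻¹ • r) (fun r hr => hS u r hr)
      (fun r hr => hS u⁻¹ r hr) (fun r _ => inv_smul_smul u r) (fun r _ => smul_inv_smul u r)
      fun r _ => ?_
    rw [F.E_smul, Matrix.map_apply]
  choose G hG using fun y z => exists_rat_of_fixed fun u => hfix u y z
  let G' : Matrix Ω Ω ℚ := Matrix.of G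
  have hinj := (algebraMap ℚ (K d)).injective
  have hmap : G'.map (algebraMap ℚ (K d)) = A := by
    ext y z; exact (hG y z).symm
  have hmulinj : ∀ M N : Matrix Ω Ω ℚ,
      M.map (algebraMap ℚ (K d)) = N.map (algebraMap ℚ (K d)) → M = N :=
    fun M N h => Matrix.map_injective hinj h
  have hidem : G' * G' = G' := hmulinj _ _ (by rw [Matrix.map_mul, hmap, hP.mul_self F])
  have hcomm : G' * G'ᵀ = G'ᵀ * G' := hmulinj _ _ (by
    rw [Matrix.map_mul, Matrix.map_mul, Matrix.transpose_map, hmap]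
    exact F.mul_comm_of_inv hP.inv hP.inv.transpose)
  refine ⟨G', hmap, fun h hh y z => hinj ?_, fun y z => symm_of_idem hidem hcomm y z, hidem,
    fun y => hinj ?_, ⟨∑ r ∈ S, F.dim r, sum_pos (fun r _ => F.dim_pos r) hne, hinj ?_⟩, ?_⟩
  · change algebraMap ℚ (K d) (G (h y) (h z)) = algebraMap ℚ (K d) (G y z)
    rw [← hG, ← hG]
    exact hP.inv h hh y z
  · rw [map_sum, map_zero]
    exact (sum_congr rfl fun z _ => (hG y z).symm).trans (hP.rowSum F y)
  · rw [map_sum, map_natCast, ← F.trace_sum_E S]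
    exact sum_congr rfl fun y _ => (hG y y).symm
  · intro l hl
    have : Fact l.Prime := ⟨hl⟩
    obtain ⟨p, q, hpq, hcol⟩ := F.diff_mem_lInt (l := l) (S := S) fun u _ => hS u
    refine ⟨F.c p, F.c q, hpq, fun y => ?_⟩
    have h := hcol y
    rw [← hA, hG, hG, ← map_sub, eq_ratCast] at h
    exact ratCast_mem_lIntRat h

/-- The rank theorem: the units act transitively on the classes. -/
theorem pretransitive_cls : MulAction.IsPretransitive (ZMod d)ˣ F.Cls := by
  classical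
  refine ⟨fun q q' => ?_⟩
  by_contra hno
  let S : F.Cls → Finset F.Cls := fun q =>
    univ.filter fun r => r ∈ MulAction.orbit (ZMod d)ˣ q
  have hmem : ∀ q r, r ∈ S q ↔ ∃ u : (ZMod d)ˣ, u • q = r := fun q r => by
    simp [S, MulAction.mem_orbit_iff]
  have hne : ∀ q, (S q).Nonempty := fun q => ⟨q, (hmem q q).2 ⟨1, one_smul _ q⟩⟩
  have hstab : ∀ q (u : (ZMod d)ˣ), ∀ r ∈ S q, u • r ∈ S q := by
    intro q u r hr
    obtain ⟨w, rfl⟩ := (hmem q r).1 hr
    exact (hmem q _).2 ⟨u * w, mul_smul u w q⟩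
  obtain ⟨G, hG, hGinv, hGsym, hG2, hG1, hGtr, hGint⟩ := F.exists_rat_proj _ (hne q) (hstab q)
  obtain ⟨G', hG', hG'inv, hG'sym, hG'2, hG'1, hG'tr, hG'int⟩ :=
    F.exists_rat_proj _ (hne q') (hstab q')
  have hGG' : G * G' = 0 := by
    refine Matrix.map_injective (algebraMap ℚ (K d)).injective ?_
    change (G * G').map (algebraMap ℚ (K d)) = (0 : Matrix Ω Ω ℚ).map (algebraMap ℚ (K d))
    rw [Matrix.map_mul, hG, hG', Matrix.map_zero _ (map_zero _)]
    refine (F.isProj_sum _).mul_eq_zero F (F.isProj_sum _) fun a _ h => ?_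
    obtain ⟨⟨_, h1⟩, ⟨_, h2⟩⟩ := h
    obtain ⟨u, hu⟩ := (hmem q _).1 h1
    obtain ⟨v, hv⟩ := (hmem q' _).1 h2
    exact hno ⟨v⁻¹ * u, by rw [mul_smul, hu, ← hv, inv_smul_smul]⟩
  have := F.prim
  exact Upgrade.not_two_idempotents F.H G G' hGinv hG'inv hGsym hG'sym
    (fun y z => by rw [← Matrix.mul_apply, hG2]) (fun y z => by rw [← Matrix.mul_apply, hG'2])
    hG1 hG'1 (fun y z => by rw [← Matrix.mul_apply, hGG', Matrix.zero_apply]) hGtr hG'tr
    hGint hG'int

end Fam

end Rank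

end Vale.Agent.P329
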