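import Vale.Agent.P329.StarFree

/-!
P329: a language of height at most one that restricts to the kernel of a morphism onto a simple
non-abelian group on a set of words closed under concatenation is controlled by a single star.
-/

namespace Vale.Agent.P329

variable {α : Type}

/-- A star atom: a finite aperiodic recogniser of the starred language. -/
structure Atom (α : Type) : Type 1 where
  /-- carrier -/
  M : Type
  [inst : Monoid M]
  fin : Finite M
  aper : IsAperiodic M
  /-- letters -/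
  f : α → M
  /-- accepting values -/
  Acc : Set M

attribute [instance] Atom.inst

/-- `s` recognises `K`, the body of its star. -/
def Atom.Recognises (s : Atom α) (K : Language α) : Prop := ∀ w, w ∈ K ↔ ev s.f w ∈ s.Acc

/-- The expressions to which a star is applied. -/
def GRegex.starBodies : GRegex α → List (GRegex α)
  | .plus P Q => P.starBodies ++ Q.starBodies
  | .mul P Q => P.starBodies ++ Q.starBodies
  | .compl P => P.starBodies
  | .star P => P :: P.starBodies
  | _ => []

/-- The relation of a word for a star atom. -/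
def Atom.R (s : Atom α) (w : List α) : RelM (Option s.M) := starRel s.f s.Acc w

theorem Atom.R_append (s : Atom α) (u v : List α) : s.R (u ++ v) = s.R u * s.R v :=
  starRel_append _ _ _ _

/-- A finite morphism recognising `L` and the relations of a list of stars, such that a word
acting like the idempotent word `e` on all these stars may replace `e` in `L`. -/
def Controlled (good : Atom α → Prop) (L : Language α) : Prop :=
  ∃ (T : Type) (_ : Monoid T) (η : α → T) (stars : List (Atom α)), Finite T ∧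
    (∀ s ∈ stars, good s) ∧
    (∀ u v, ev η u = ev η v → (u ∈ L ↔ v ∈ L)) ∧
    (∀ s ∈ stars, ∀ u v, ev η u = ev η v → s.R u = s.R v) ∧
    ∀ (e k : List α) (m : ℕ), 1 ≤ m → ev η e * ev η e = ev η e → ev η e * ev η k = ev η k →
      ev η k * ev η e = ev η k → ev η k ^ m = ev η e → (∀ s ∈ stars, s.R k = s.R e) →
      ∀ x y, x ++ k ++ y ∈ L ↔ x ++ e ++ y ∈ L

variable {good : Atom α → Prop}

theorem controlled_of_sh_zero {P : GRegex α} (h : P.sh = 0) : Controlled good P.lang := by
  obtain ⟨M, iM, fM, aM, f, Acc, hf⟩ := exists_aperiodic_recognizer P h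
  refine ⟨M, iM, f, [], fM, by simp, fun u v huv => by rw [hf, hf, huv], by simp, ?_⟩
  intro e k m hm hee hek hke hkm _ x y
  obtain ⟨n, -, hn⟩ := aM (ev f k)
  set a := ev f e
  set b := ev f k
  have hb : b ^ (m + 1) = b := by rw [pow_succ, hkm, hek]
  have hper : ∀ j, b ^ (j * m + 1) = b := fun j => by
    induction j with
    | zero => simp
    | succ j ih =>
      rw [show (j + 1) * m + 1 = j * m + (m + 1) by ring, pow_add, hb, ← pow_succ, ih]
  have hbb : b * b = b := by
    have h1 : b ^ (n * m + 1) = b ^ n := pow_stable hn (by nlinarith)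
    have h2 : b ^ (n * m + 1 + 1) = b ^ n := pow_stable hn (by nlinarith)
    rw [pow_succ, hper, ← h1, hper] at h2
    exact h2
  have hab : b = a := by
    rw [← hkm]
    exact (IsIdempotentElem.pow_eq hbb (by omega)).symm
  rw [hf, hf]
  simp only [ev_append]
  change ev f x * b * ev f y ∈ Acc ↔ ev f x * a * ev f y ∈ Acc
  rw [hab]

theorem controlled_compl {K : Language α} : Controlled good K → Controlled good Kᶜ := by
  rintro ⟨T, iT, η, stars, fT, hg, hL, hs, hswap⟩
  exact ⟨T, iT, η, stars, fT, hg, fun u v h => not_congr (hL u v h), hs,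
    fun e k m hm h1 h2 h3 h4 h5 x y => not_congr (hswap e k m hm h1 h2 h3 h4 h5 x y)⟩

theorem controlled_add {K L : Language α} : Controlled good K → Controlled good L → Controlled good (K + L) := by
  rintro ⟨A, iA, η, s₁, fA, hg₁, hK, hs₁, hw₁⟩ ⟨B, iB, θ, s₂, fB, hg₂, hL, hs₂, hw₂⟩
  refine ⟨A × B, inferInstance, fun a => (η a, θ a), s₁ ++ s₂, inferInstance,
    fun s hs => (List.mem_append.1 hs).elim (hg₁ s) (hg₂ s), ?_, ?_, ?_⟩
  · intro u v h
    simp only [ev_prod, Prod.mk.injEq] at h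
    rw [Language.mem_add, Language.mem_add, hK u v h.1, hL u v h.2]
  · intro s hs u v h
    simp only [ev_prod, Prod.mk.injEq] at h
    rcases List.mem_append.1 hs with hs | hs
    exacts [hs₁ s hs u v h.1, hs₂ s hs u v h.2]
  · intro e k m hm h1 h2 h3 h4 h5 x y
    simp only [ev_prod, Prod.mk_mul_mk, Prod.pow_mk, Prod.mk.injEq] at h1 h2 h3 h4
    rw [Language.mem_add, Language.mem_add,
      hw₁ e k m hm h1.1 h2.1 h3.1 h4.1 (fun s hs => h5 s (List.mem_append.2 (Or.inl hs))) x y,
      hw₂ e k m hm h1.2 h2.2 h3.2 h4.2 (fun s hs => h5 s (List.mem_append.2 (Or.inr hs))) x y]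

/-- A word repeated. -/
def wpow (k : List α) : ℕ → List α
  | 0 => []
  | n + 1 => wpow k n ++ k

theorem ev_wpow {M : Type} [Monoid M] (f : α → M) (k : List α) (n : ℕ) :
    ev f (wpow k n) = ev f k ^ n := by
  induction n with
  | zero => simp [wpow]
  | succ n ih => simp [wpow, ih, pow_succ]

theorem controlled_mul {K L : Language α} : Controlled good K → Controlled good L → Controlled good (K * L) := by
  rintro ⟨A, iA, η, s₁, fA, hg₁, hK, hs₁, hw₁⟩ ⟨B, iB, θ, s₂, fB, hg₂, hL, hs₂, hw₂⟩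
  set g := Triple.gen η θ with hg
  have hl : ∀ {u v}, ev g u = ev g v → ev η u = ev η v := fun h => by
    rw [← Triple.ev_gen_l η θ, ← hg, h, hg, Triple.ev_gen_l]
  have hr : ∀ {u v}, ev g u = ev g v → ev θ u = ev θ v := fun h => by
    rw [← Triple.ev_gen_r η θ, ← hg, h, hg, Triple.ev_gen_r]
  have hU : ∀ w, w ∈ K ↔ ev η w ∈ ev η '' (K : Set (List α)) := fun w =>
    ⟨fun h => ⟨w, h, rfl⟩, fun ⟨u, hu, he⟩ => (hK u w he).1 hu⟩
  have hV : ∀ w, w ∈ L ↔ ev θ w ∈ ev θ '' (L : Set (List α)) := fun w =>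
    ⟨fun h => ⟨w, h, rfl⟩, fun ⟨u, hu, he⟩ => (hL u w he).1 hu⟩
  have hrec : ∀ u v, ev g u = ev g v → (u ∈ K * L ↔ v ∈ K * L) := fun u v h => by
    rw [Triple.mem_mul_iff η θ K L _ _ hU hV, Triple.mem_mul_iff η θ K L _ _ hU hV, ← hg, h]
  refine ⟨Triple A B, inferInstance, g, s₁ ++ s₂, inferInstance,
    fun s hs => (List.mem_append.1 hs).elim (hg₁ s) (hg₂ s), hrec, ?_, ?_⟩
  · intro s hs u v h
    rcases List.mem_append.1 hs with hs | hs
    exacts [hs₁ s hs u v (hl h), hs₂ s hs u v (hr h)]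
  intro e k m hm h1 h2 h3 h4 h5
  have hK' := hw₁ e k m hm
    (by simpa using hl (u := e ++ e) (v := e) (by simpa using h1))
    (by simpa using hl (u := e ++ k) (v := k) (by simpa using h2))
    (by simpa using hl (u := k ++ e) (v := k) (by simpa using h3))
    (by simpa [ev_wpow] using hl (u := wpow k m) (v := e) (by simpa [ev_wpow] using h4))
    (fun s hs => h5 s (List.mem_append.2 (Or.inl hs)))
  have hL' := hw₂ e k m hm
    (by simpa using hr (u := e ++ e) (v := e) (by simpa using h1))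
    (by simpa using hr (u := e ++ k) (v := k) (by simpa using h2))
    (by simpa using hr (u := k ++ e) (v := k) (by simpa using h3))
    (by simpa [ev_wpow] using hr (u := wpow k m) (v := e) (by simpa [ev_wpow] using h4))
    (fun s hs => h5 s (List.mem_append.2 (Or.inr hs)))
  -- one replacement
  have key : ∀ x y, x ++ e ++ y ∈ K * L → x ++ k ++ y ∈ K * L := fun x y h => by
    have h' : x ++ e ++ e ++ y ∈ K * L :=
      (hrec _ _ (by simp only [ev_append, mul_assoc]; rw [← mul_assoc (ev g e), h1])).1 h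
    obtain ⟨u, hu, v, hv, huv⟩ := Language.mem_mul.1 h'
    rw [show x ++ e ++ e ++ y = (x ++ e) ++ (e ++ y) by simp] at huv
    rcases List.append_eq_append_iff.1 huv with ⟨c, hc, rfl⟩ | ⟨c, rfl, hc⟩
    · -- the cut is inside `x ++ e`
      have hk : c ++ k ++ y ∈ L := (hL' c y).2 (by simpa using hv)
      refine (hrec (x ++ e ++ k ++ y) _ ?_).1 ?_
      · simp only [ev_append, mul_assoc]
        rw [← mul_assoc (ev g e), h2]
      · rw [hc]
        exact Language.mem_mul.2 ⟨u, hu, _, hk, by simp⟩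
    · -- the cut is after `x ++ e`
      have hk : x ++ k ++ c ∈ K := (hK' x c).2 hu
      refine (hrec (x ++ k ++ e ++ y) _ ?_).1 ?_
      · simp only [ev_append, mul_assoc]
        rw [← mul_assoc (ev g k), h3]
      · rw [show x ++ k ++ e ++ y = (x ++ k) ++ (e ++ y) by simp, hc]
        exact Language.mem_mul.2 ⟨_, hk, v, hv, by simp⟩
  intro x y
  refine ⟨fun h => ?_, key x y⟩
  have hj : ∀ j, x ++ wpow k (j + 1) ++ y ∈ K * L := fun j => by
    induction j with
    | zero => simpa [wpow] using h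
    | succ j ih =>
      have h' : x ++ wpow k (j + 1) ++ e ++ y ∈ K * L :=
        (hrec _ _ (by
          simp only [ev_append, ev_wpow, pow_succ, mul_assoc]
          rw [← mul_assoc (ev g k), h3])).1 ih
      simpa [wpow] using key _ y h'
  refine (hrec _ _ ?_).1 (hj (m - 1))
  simp [ev_wpow, Nat.sub_add_cancel hm, h4]

theorem controlled_star {P : GRegex α} (h : P.sh = 0)
    (hgood : ∀ s : Atom α, s.Recognises P.lang → good s) :
    Controlled good (KStar.kstar P.lang) := by
  obtain ⟨M, iM, fM, aM, f, Acc, hf⟩ := exists_aperiodic_recognizer P h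
  have hmem := mem_kstar_iff_starRel f Acc P.lang hf
  refine ⟨RelM (Option M), inferInstance, stepRel f Acc, [⟨M, fM, aM, f, Acc⟩], inferInstance,
    fun s hs => by rw [List.mem_singleton] at hs; subst hs; exact hgood _ hf, ?_, ?_, ?_⟩
  · intro u v huv
    rw [hmem, hmem, starRel_eq_ev, starRel_eq_ev, huv]
  · intro s hs u v huv
    rw [List.mem_singleton] at hs
    subst hs
    exact huv
  · intro e k m _ _ _ _ _ h5 x y
    have := h5 _ (List.mem_singleton.2 rfl)
    simp only [Atom.R] at this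
    rw [hmem, hmem, starRel_append, starRel_append, starRel_append, starRel_append, this]

theorem controlled_of_sh_le_one : ∀ P : GRegex α, P.sh ≤ 1 →
    (∀ Q ∈ P.starBodies, ∀ s : Atom α, s.Recognises Q.lang → good s) → Controlled good P.lang
  | .zero, _, _ => controlled_of_sh_zero rfl
  | .one, _, _ => controlled_of_sh_zero rfl
  | .char a, _, _ => controlled_of_sh_zero (P := GRegex.char a) rfl
  | .plus P Q, h, hg => controlled_add
      (controlled_of_sh_le_one P ((le_max_left _ _).trans h)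
        fun R hR => hg R (List.mem_append_left _ hR))
      (controlled_of_sh_le_one Q ((le_max_right _ _).trans h)
        fun R hR => hg R (List.mem_append_right _ hR))
  | .mul P Q, h, hg => controlled_mul
      (controlled_of_sh_le_one P ((le_max_left _ _).trans h)
        fun R hR => hg R (List.mem_append_left _ hR))
      (controlled_of_sh_le_one Q ((le_max_right _ _).trans h)
        fun R hR => hg R (List.mem_append_right _ hR))
  | .compl P, h, hg => controlled_compl (controlled_of_sh_le_one P h hg)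
  | .star P, h, hg => controlled_star (Nat.le_zero.1 (Nat.le_of_succ_le_succ h))
      (hg P List.mem_cons_self)

/-- The core of a finite semigroup of words: an idempotent value whose local monoid is a group. -/
theorem exists_group_idempotent {T : Type} [Monoid T] [Finite T] (S : Set T) (hne : S.Nonempty)
    (hS : ∀ a ∈ S, ∀ b ∈ S, a * b ∈ S) :
    ∃ ε ∈ S, ε * ε = ε ∧ ∀ s ∈ S, ∃ n, 1 ≤ n ∧ (ε * s * ε) ^ n = ε := by
  classical
  have hpow : ∀ a ∈ S, ∀ n, 1 ≤ n → a ^ n ∈ S := fun a ha n hn => by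
    induction n, hn using Nat.le_induction with
    | base => simpa using ha
    | succ n _ ih => rw [pow_succ]; exact hS _ ih _ ha
  have hidem : ∀ a : T, ∃ n, 1 ≤ n ∧ a ^ n * a ^ n = a ^ n := fun a => by
    obtain ⟨i, j, hij, hpw⟩ : ∃ i j, i < j ∧ a ^ i = a ^ j := by
      obtain ⟨i, j, hne', he⟩ := Finite.exists_ne_map_eq_of_infinite fun n : ℕ => a ^ n
      rcases Nat.lt_or_gt_of_ne hne' with h | h
      exacts [⟨i, j, h, he⟩, ⟨j, i, h, he.symm⟩]
    obtain ⟨p, rfl⟩ : ∃ p, j = i + (p + 1) := ⟨j - i - 1, by omega⟩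
    have hstep : ∀ c, a ^ (i + c) = a ^ (i + c + (p + 1)) := fun c => by
      rw [show i + c + (p + 1) = i + (p + 1) + c by ring, pow_add, pow_add _ (i + (p + 1)), hpw]
    have hmult : ∀ r c, a ^ (i + c) = a ^ (i + c + r * (p + 1)) := fun r => by
      induction r with
      | zero => simp
      | succ r ih =>
        intro c
        rw [ih c, show i + c + r * (p + 1) = i + (c + r * (p + 1)) by ring, hstep]
        ring_nf
    refine ⟨(i + 1) * (p + 1), by nlinarith, ?_⟩
    obtain ⟨c, hc⟩ : ∃ c, (i + 1) * (p + 1) = i + c := ⟨(i + 1) * (p + 1) - i, by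
      have : i ≤ (i + 1) * (p + 1) := by nlinarith
      omega⟩
    rw [← pow_add, show (i + 1) * (p + 1) + (i + 1) * (p + 1)
      = i + c + (i + 1) * (p + 1) by omega, ← hmult (i + 1) c, hc]
  have hex : {ε | ε ∈ S ∧ ε * ε = ε}.Nonempty := by
    obtain ⟨a, ha⟩ := hne
    obtain ⟨n, hn, he⟩ := hidem a
    exact ⟨_, hpow a ha n hn, he⟩
  obtain ⟨ε, ⟨hεS, hεε⟩, hmin⟩ := Set.exists_min_image _
    (fun ε => ((fun s => ε * s * ε) '' S).ncard) (Set.toFinite _) hex
  refine ⟨ε, hεS, hεε, fun s hs => ?_⟩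
  have hy : ε * s * ε ∈ S := hS _ (hS _ hεS _ hs) _ hεS
  obtain ⟨n, hn, he⟩ := hidem (ε * s * ε)
  refine ⟨n, hn, ?_⟩
  set φ := (ε * s * ε) ^ n with hφ
  obtain ⟨n', rfl⟩ : ∃ n', n = n' + 1 := ⟨n - 1, by omega⟩
  have hl : ε * φ = φ := by
    rw [hφ, pow_succ', ← mul_assoc, ← mul_assoc ε (ε * s), ← mul_assoc ε ε, hεε]
  have hr : φ * ε = φ := by
    rw [hφ, pow_succ, mul_assoc ((ε * s * ε) ^ n'), mul_assoc (ε * s) ε ε, hεε]
  have hφS : φ ∈ S := hpow _ hy _ hn
  have hsub : (fun t => φ * t * φ) '' S ⊆ (fun t => ε * t * ε) '' S := by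
    rintro _ ⟨t, ht, rfl⟩
    refine ⟨φ * t * φ, hS _ (hS _ hφS _ ht) _ hφS, ?_⟩
    simp only [← mul_assoc, hl]
    rw [mul_assoc (φ * t) φ ε, hr]
  have heq := Set.eq_of_subset_of_ncard_le hsub (hmin φ ⟨hφS, he⟩) (Set.toFinite _)
  obtain ⟨t, -, ht⟩ : ε ∈ (fun t => φ * t * φ) '' S := heq.symm ▸ ⟨ε, hεS, by simp [hεε]⟩
  have : φ * ε = ε := by
    conv_lhs => rw [← ht]
    conv_rhs => rw [← ht]
    simp only [← mul_assoc, he]
  rw [← hr, this]

section control

variable {G : Type} [Group G]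

/-- Values of the words that act like `e` on all the given stars. -/
def trivialValues (W : Set (List α)) (nu : List α → G) (e : List α)
    (stars : List (Atom α)) : Set G :=
  {g | ∃ w ∈ W, nu w = g ∧ ∀ s ∈ stars, s.R (e ++ w ++ e) = s.R e}

variable (W : Set (List α)) (nu : List α → G) (e : List α) (stars : List (Atom α))
variable (hW : ∀ u ∈ W, ∀ v ∈ W, u ++ v ∈ W) (hnu : ∀ u ∈ W, ∀ v ∈ W, nu (u ++ v) = nu u * nu v)
variable (heW : e ∈ W) (he1 : nu e = 1) (hee : ∀ s ∈ stars, s.R e * s.R e = s.R e)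
variable (hinv : ∀ w ∈ W, ∃ w' ∈ W, nu w * nu w' = 1 ∧ ∀ s ∈ stars,
  s.R (e ++ w ++ e ++ w' ++ e) = s.R e ∧ s.R (e ++ w' ++ e ++ w ++ e) = s.R e)
variable (hsurj : ∀ g, ∃ w ∈ W, nu w = g)

include hW hnu heW he1 hee hinv hsurj

theorem exists_normal_trivialValues [Finite G] :
    ∃ N : Subgroup G, N.Normal ∧ (N : Set G) = trivialValues W nu e stars := by
  classical
  have hone : (1 : G) ∈ trivialValues W nu e stars :=
    ⟨e, heW, he1, fun s hs => by simp only [Atom.R_append, hee s hs]⟩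
  have hmul : ∀ a ∈ trivialValues W nu e stars, ∀ b ∈ trivialValues W nu e stars,
      a * b ∈ trivialValues W nu e stars := by
    rintro _ ⟨u, hu, rfl, hu'⟩ _ ⟨v, hv, rfl, hv'⟩
    refine ⟨u ++ e ++ v, hW _ (hW _ hu _ heW) _ hv, ?_, fun s hs => ?_⟩
    · rw [hnu _ (hW _ hu _ heW) _ hv, hnu _ hu _ heW, he1, mul_one]
    · have h1 := hu' s hs
      have h2 := hv' s hs
      simp only [Atom.R_append, ← mul_assoc] at h1 h2 ⊢
      rw [h1, h2]
  let N₀ : Submonoid G :=
    { carrier := trivialValues W nu e stars, one_mem' := hone,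
      mul_mem' := fun ha hb => hmul _ ha _ hb }
  let N : Subgroup G :=
    { N₀ with
      inv_mem' := fun {x} hx =>
        (Submonoid.powers_le.2 (show x ∈ N₀ from hx))
          (mem_powers_iff_mem_zpowers.2 ⟨-1, zpow_neg_one x⟩) }
  refine ⟨N, ⟨?_⟩, rfl⟩
  rintro _ ⟨v, hv, rfl, hv'⟩ g
  obtain ⟨a, ha, rfl⟩ := hsurj g
  obtain ⟨a', ha', hgg, hR⟩ := hinv a ha
  refine ⟨a ++ e ++ v ++ e ++ a', hW _ (hW _ (hW _ (hW _ ha _ heW) _ hv) _ heW) _ ha', ?_,
    fun s hs => ?_⟩
  · rw [hnu _ (hW _ (hW _ (hW _ ha _ heW) _ hv) _ heW) _ ha',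
      hnu _ (hW _ (hW _ ha _ heW) _ hv) _ heW, hnu _ (hW _ ha _ heW) _ hv, hnu _ ha _ heW, he1,
      mul_one, mul_one, eq_inv_of_mul_eq_one_right hgg]
  · have h1 := hv' s hs
    have h2 := (hR s hs).1
    simp only [Atom.R_append, mul_assoc] at h1 h2 ⊢
    rw [← mul_assoc (s.R v) (s.R e), ← mul_assoc (s.R e) (s.R v * s.R e), h1]
    exact h2

end control

/-- A single good star controls a morphism onto a simple non-abelian group. -/
theorem exists_controlling_atom {G : Type} [Group G] [Finite G]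
    (hsimple : IsSimpleGroup G) (hna : ∃ a b : G, a * b ≠ b * a) (L : Language α)
    (W : Set (List α)) (hW : ∀ u ∈ W, ∀ v ∈ W, u ++ v ∈ W)
    (nu : List α → G) (hnu : ∀ u ∈ W, ∀ v ∈ W, nu (u ++ v) = nu u * nu v)
    (hsurj : ∀ g, ∃ w ∈ W, nu w = g) (hL : ∀ w ∈ W, (w ∈ L ↔ nu w = 1))
    (hh : Controlled good L) :
    ∃ (s : Atom α) (e : List α), good s ∧ e ∈ W ∧ nu e = 1 ∧
        s.R (e ++ e) = s.R e ∧
        (∀ w ∈ W, ∃ w' ∈ W, s.R (e ++ w ++ e ++ w' ++ e) = s.R e) ∧
        ∀ w₁ ∈ W, ∀ w₂ ∈ W, s.R (e ++ w₁ ++ e) = s.R (e ++ w₂ ++ e) →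
          nu w₁ = nu w₂ := by
  classical
  obtain ⟨T, iT, η, stars, fT, hg, hrec, hstars, hswap⟩ := hh
  -- an idempotent value
  set S : Set (T × G) := (fun w => (ev η w, nu w)) '' W with hSdef
  obtain ⟨ε, ⟨e, heW, rfl⟩, hεε, hgroup⟩ := exists_group_idempotent S
    (by obtain ⟨w, hw, -⟩ := hsurj 1; exact ⟨_, w, hw, rfl⟩)
    (by rintro _ ⟨u, hu, rfl⟩ _ ⟨v, hv, rfl⟩; exact ⟨u ++ v, hW _ hu _ hv, by simp [hnu _ hu _ hv]⟩)
  simp only [Prod.mk_mul_mk, Prod.mk.injEq] at hεε
  have he1 : nu e = 1 := mul_left_cancel (hεε.2.trans (mul_one _).symm)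
  have hee : ∀ s ∈ stars, s.R e * s.R e = s.R e := fun s hs => by
    rw [← Atom.R_append]
    exact hstars s hs _ _ (by simpa using hεε.1)
  have hk : ∀ w ∈ W, e ++ w ++ e ∈ W := fun w hw => hW _ (hW _ heW _ hw) _ heW
  have hpowW : ∀ w ∈ W, ∀ n, wpow w (n + 1) ∈ W := fun w hw n => by
    induction n with
    | zero => simpa [wpow] using hw
    | succ n ih => exact hW _ ih _ hw
  have hnupow : ∀ w ∈ W, ∀ n, nu (wpow w (n + 1)) = nu w ^ (n + 1) := fun w hw n => by
    induction n with
    | zero => simp [wpow]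
    | succ n ih =>
      rw [show wpow w (n + 1 + 1) = wpow w (n + 1) ++ w from rfl, hnu _ (hpowW w hw n) _ hw, ih,
        ← pow_succ]
  have hnuk : ∀ w ∈ W, nu (e ++ w ++ e) = nu w := fun w hw => by
    rw [hnu _ (hW _ heW _ hw) _ heW, hnu _ heW _ hw, he1, one_mul, mul_one]
  -- powers of a bracketed value return to the idempotent
  have hperiod : ∀ w ∈ W, ∃ n, ev η (e ++ w ++ e) ^ (n + 1) = ev η e ∧ nu w ^ (n + 1) = 1 := by
    intro w hw
    obtain ⟨n, hn, hpow⟩ := hgroup _ ⟨w, hw, rfl⟩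
    obtain ⟨n, rfl⟩ : ∃ n', n = n' + 1 := ⟨n - 1, by omega⟩
    simp only [Prod.mk_mul_mk, Prod.pow_mk, Prod.mk.injEq, he1, one_mul, mul_one] at hpow
    exact ⟨n, by simpa [mul_assoc] using hpow.1, hpow.2⟩
  have hinv : ∀ w ∈ W, ∃ w' ∈ W, nu w * nu w' = 1 ∧ ∀ s ∈ stars,
      s.R (e ++ w ++ e ++ w' ++ e) = s.R e ∧ s.R (e ++ w' ++ e ++ w ++ e) = s.R e := by
    intro w hw
    obtain ⟨n, hn1, hn2⟩ := hperiod w hw
    have hkW := hk w hw
    refine ⟨wpow (e ++ w ++ e) (2 * n + 1), hpowW _ hkW _, ?_, fun s hs => ⟨?_, ?_⟩⟩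
    · rw [hnupow _ hkW, hnuk _ hw, ← pow_succ', show 2 * n + 1 + 1 = (n + 1) + (n + 1) by ring,
        pow_add, hn2, one_mul]
    all_goals
      refine hstars s hs _ _ ?_
      set b := ev η (e ++ w ++ e) with hb
      have h1 : ev η e * b = b := by
        simp only [hb, ev_append, ← mul_assoc, hεε.1]
      have h2 : b * ev η e = b := by
        simp only [hb, ev_append, mul_assoc, hεε.1]
      have h3 : b ^ (2 * n + 1 + 1) = ev η e := by
        rw [show 2 * n + 1 + 1 = (n + 1) + (n + 1) by ring, pow_add, hn1, hεε.1]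
    · calc ev η (e ++ w ++ e ++ wpow (e ++ w ++ e) (2 * n + 1) ++ e)
          = b * b ^ (2 * n + 1) * ev η e := by
            rw [ev_append, ev_append, ev_wpow, hb]
        _ = ev η e := by rw [← pow_succ', h3, hεε.1]
    · calc ev η (e ++ wpow (e ++ w ++ e) (2 * n + 1) ++ e ++ w ++ e)
          = ev η e * (b ^ (2 * n + 1) * b) := by
            simp only [hb, ev_append, ev_wpow, mul_assoc]
        _ = ev η e := by rw [← pow_succ, h3, hεε.1]
  -- one of the stars separates the values
  by_contra hno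
  have hsub : ∀ s ∈ stars, ∃ w ∈ W, nu w ≠ 1 ∧ s.R (e ++ w ++ e) = s.R e := by
    intro s hs
    by_contra hall
    push Not at hall
    refine hno ⟨s, e, hg s hs, heW, he1, ?_, ?_, ?_⟩
    · exact (s.R_append e e).trans (hee s hs)
    · intro w hw
      obtain ⟨w', hw', -, hR⟩ := hinv w hw
      exact ⟨w', hw', (hR s hs).1⟩
    · intro w₁ h₁ w₂ h₂ heq
      obtain ⟨w', hw', hgg, hR⟩ := hinv w₂ h₂
      have hR2 := (hR s hs).1
      have heq' : s.R (e ++ w₁ ++ e) = s.R (e ++ w₂ ++ e) := heq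
      have hz : s.R (e ++ (w₁ ++ e ++ w') ++ e) = s.R e := by
        simp only [Atom.R_append, ← mul_assoc] at heq' hR2 ⊢
        rw [heq', hR2]
      have h1 : nu (w₁ ++ e ++ w') = 1 := by
        by_contra hne
        exact hall _ (hW _ (hW _ h₁ _ heW) _ hw') hne hz
      rw [hnu _ (hW _ h₁ _ heW) _ hw', hnu _ h₁ _ heW, he1, mul_one] at h1
      exact mul_right_cancel (h1.trans hgg.symm)
  have htop : ∀ l : List (Atom α), (∀ s ∈ l, s ∈ stars) →
      trivialValues W nu e l = Set.univ := by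
    intro l hl
    induction l with
    | nil =>
      ext g
      obtain ⟨w, hw, hwg⟩ := hsurj g
      simp only [trivialValues, Set.mem_ofPred_eq, Set.mem_univ, iff_true]
      exact ⟨w, hw, hwg, by simp⟩
    | cons s l ih =>
      have hl' : ∀ t ∈ l, t ∈ stars := fun t ht => hl t (List.mem_cons_of_mem _ ht)
      have hs := hl s List.mem_cons_self
      obtain ⟨Ns, hNs, hNs'⟩ := exists_normal_trivialValues W nu e [s] hW hnu heW he1
        (fun t ht => hee t (List.mem_singleton.1 ht ▸ hs))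
        (fun w hw => by
          obtain ⟨w', h1, h2, h3⟩ := hinv w hw
          exact ⟨w', h1, h2, fun t ht => h3 t (List.mem_singleton.1 ht ▸ hs)⟩) hsurj
      have hNs_top : Ns = ⊤ := (hNs.eq_bot_or_eq_top).resolve_left fun hbot => by
        obtain ⟨w, hw, hne, hR⟩ := hsub s hs
        have hmem : nu w ∈ (Ns : Set G) := by
          rw [hNs']
          exact ⟨w, hw, rfl, fun t ht => List.mem_singleton.1 ht ▸ hR⟩
        rw [hbot] at hmem
        exact hne (by simpa using hmem)
      obtain ⟨N, hN, hN'⟩ := exists_normal_trivialValues W nu e (s :: l) hW hnu heW he1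
        (fun t ht => hee t (hl t ht))
        (fun w hw => by
          obtain ⟨w', h1, h2, h3⟩ := hinv w hw
          exact ⟨w', h1, h2, fun t ht => h3 t (hl t ht)⟩) hsurj
      have hN_top : N = ⊤ := (hN.eq_bot_or_eq_top).resolve_left fun hbot => by
        obtain ⟨a, b, hab⟩ := hna
        obtain ⟨u, hu, rfl, hu'⟩ : a ∈ trivialValues W nu e [s] := by
          rw [← hNs', hNs_top]; simp
        obtain ⟨v, hv, rfl, hv'⟩ : b ∈ trivialValues W nu e l := by
          rw [ih hl']; exact Set.mem_univ _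
        obtain ⟨u', hu₁, hu₂, hu₃⟩ := hinv u hu
        obtain ⟨v', hv₁, hv₂, hv₃⟩ := hinv v hv
        have hzW : u ++ e ++ v ++ e ++ u' ++ e ++ v' ∈ W :=
          hW _ (hW _ (hW _ (hW _ (hW _ (hW _ hu _ heW) _ hv) _ heW) _ hu₁) _ heW) _ hv₁
        have hz : nu u * nu v * (nu u)⁻¹ * (nu v)⁻¹ ∈ (N : Set G) := by
          rw [hN']
          refine ⟨_, hzW, ?_, fun t ht => ?_⟩
          · rw [hnu _ (hW _ (hW _ (hW _ (hW _ (hW _ hu _ heW) _ hv) _ heW) _ hu₁) _ heW) _ hv₁,
              hnu _ (hW _ (hW _ (hW _ (hW _ hu _ heW) _ hv) _ heW) _ hu₁) _ heW,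
              hnu _ (hW _ (hW _ (hW _ hu _ heW) _ hv) _ heW) _ hu₁,
              hnu _ (hW _ (hW _ hu _ heW) _ hv) _ heW, hnu _ (hW _ hu _ heW) _ hv,
              hnu _ hu _ heW, he1, mul_one, mul_one, mul_one,
              eq_inv_of_mul_eq_one_right hu₂, eq_inv_of_mul_eq_one_right hv₂]
          · rcases List.mem_cons.1 ht with rfl | ht
            · have a1 := hu' t (List.mem_singleton.2 rfl)
              have a2 := (hu₃ t hs).1
              have a3 := (hv₃ t hs).1
              simp only [Atom.R_append, ← mul_assoc] at a1 a2 a3 ⊢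
              rw [a1] at a2 ⊢
              -- the inverse of a trivial value is trivial
              have a4 : t.R e * t.R u' * t.R e = t.R e := a2
              calc t.R e * t.R v * t.R e * t.R u' * t.R e * t.R v' * t.R e
                  = t.R e * t.R v * (t.R e * t.R u' * t.R e) * t.R v' * t.R e := by
                    simp only [mul_assoc]
                _ = t.R e := by rw [a4, a3]
            · have a1 := hv' t ht
              have a2 := (hu₃ t (hl' t ht)).1
              have a3 := (hv₃ t (hl' t ht)).1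
              simp only [Atom.R_append, ← mul_assoc] at a1 a2 a3 ⊢
              rw [a1] at a3
              calc t.R e * t.R u * t.R e * t.R v * t.R e * t.R u' * t.R e * t.R v' * t.R e
                  = t.R e * t.R u * (t.R e * t.R v * t.R e) * t.R u' * t.R e * t.R v' * t.R e := by
                    simp only [mul_assoc]
                _ = t.R e := by rw [a1, a2, a3]
        rw [hbot] at hz
        simp only [Subgroup.coe_bot, Set.mem_singleton_iff] at hz
        exact hab (by
          have := congrArg (fun x => x * nu v * nu u) hz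
          simpa [mul_assoc] using this)
      rw [← hN', hN_top, Subgroup.coe_top]
  obtain ⟨a, b, hab⟩ := hna
  have hab' : a ≠ 1 := fun h => hab (by simp [h])
  obtain ⟨w, hw, rfl, hR⟩ : a ∈ trivialValues W nu e stars := by
    rw [htop stars fun s hs => hs]; exact Set.mem_univ _
  obtain ⟨n, hn1, hn2⟩ := hperiod w hw
  have hsw := hswap e (e ++ w ++ e) (n + 1) (by omega) hεε.1
    (by simp only [ev_append, ← mul_assoc, hεε.1])
    (by simp only [ev_append, mul_assoc, hεε.1]) hn1 hR [] []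
  simp only [List.nil_append, List.append_nil] at hsw
  rw [hL _ (hk w hw), hL _ heW, hnuk w hw, he1] at hsw
  exact hab' (hsw.2 rfl)

/-- A single star controls a morphism onto a simple non-abelian group. -/
theorem exists_controlling_star {G : Type} [Group G] [Finite G]
    (hsimple : IsSimpleGroup G) (hna : ∃ a b : G, a * b ≠ b * a) (L : Language α)
    (W : Set (List α)) (hW : ∀ u ∈ W, ∀ v ∈ W, u ++ v ∈ W)
    (nu : List α → G) (hnu : ∀ u ∈ W, ∀ v ∈ W, nu (u ++ v) = nu u * nu v)
    (hsurj : ∀ g, ∃ w ∈ W, nu w = g) (hL : ∀ w ∈ W, (w ∈ L ↔ nu w = 1)) (hh : HeightLE L 1) :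
    ∃ (M : Type) (_ : Monoid M), Finite M ∧ (∀ m : M, ∃ n, 1 ≤ n ∧ m ^ n = m ^ (n + 1)) ∧
      ∃ (f : α → M) (Acc : Set M) (e : List α), e ∈ W ∧ nu e = 1 ∧
        starRel f Acc (e ++ e) = starRel f Acc e ∧
        (∀ w ∈ W, ∃ w' ∈ W, starRel f Acc (e ++ w ++ e ++ w' ++ e) = starRel f Acc e) ∧
        ∀ w₁ ∈ W, ∀ w₂ ∈ W, starRel f Acc (e ++ w₁ ++ e) = starRel f Acc (e ++ w₂ ++ e) →
          nu w₁ = nu w₂ := by
  obtain ⟨P, rfl, hP⟩ := hh
  obtain ⟨s, e, -, h1, h2, h3, h4, h5⟩ := exists_controlling_atom (good := fun _ => True)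
    hsimple hna P.lang W hW nu hnu hsurj hL (controlled_of_sh_le_one P hP fun _ _ _ _ => trivial)
  exact ⟨s.M, s.inst, s.fin, s.aper, s.f, s.Acc, e, h1, h2, h3, h4, h5⟩

end Vale.Agent.P329
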