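import Mathlib.Algebra.CharP.Lemmas
import Mathlib.Algebra.MonoidAlgebra.Basic
import Mathlib.Data.ZMod.Basic
import Mathlib.FieldTheory.Finite.Basic
import Mathlib.GroupTheory.GroupAction.MultipleTransitivity
import Mathlib.GroupTheory.GroupAction.Primitive
import Mathlib.GroupTheory.Perm.Cycle.Basic
import Mathlib.GroupTheory.SpecificGroups.Cyclic
import Mathlib.GroupTheory.Sylow

/-!
Schur's theorem: a primitive permutation group with a regular cyclic subgroup of composite order
is 2-transitive.

Proof.  The points form a cyclic group G whose translations are in W; an orbit T of the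
stabiliser of 0 gives a W-invariant relation b - a ∈ T, and a subgroup of G which is a union of
orbits gives blocks, hence is trivial.  Let p be a prime divisor of |G| and P the kernel of
multiplication by p.  The coefficients of (∑_{t ∈ T} X^t)^p mod p are constant on orbits and live
on the proper subgroup pG, so they vanish off 0: T outside P is a union of cosets of P.  Therefore
T meets P (else P lies in the group of periods) and is not inside P.  For z ≠ 0 pick y in P in
the orbit of z: the number λ(z) of y' in T with y' - z in T equals λ(y) ≥ |T \ P|.  As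
∑ λ = |T|², two nonzero orbits would give |T| + 1 ≤ 2|T ∩ P| for the smaller one, absurd as
|T \ P| ≥ |P| > |T ∩ P|.
-/

namespace Vale.Agent.P329

namespace SchurProof

open Finset

variable {G : Type} [AddCommGroup G] [Fintype G] [DecidableEq G] (W : Subgroup (Equiv.Perm G))

/-- Constant on the orbits of the stabiliser of 0. -/
def Inv {β : Type*} (f : G → β) : Prop := ∀ u ∈ W, u 0 = 0 → ∀ x, f (u x) = f x

variable (htr : ∀ a : G, Equiv.addLeft a ∈ W)
include htr

theorem orbital {β : Type*} {f : G → β} (hf : Inv W f) {u : Equiv.Perm G} (hu : u ∈ W)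
    (a b : G) : f (u b - u a) = f (b - a) := by
  have h := hf (Equiv.addLeft (-u a) * u * Equiv.addLeft a)
    (W.mul_mem (W.mul_mem (htr _) hu) (htr _)) (by simp) (b - a)
  simpa [sub_eq_neg_add] using h

/-- Only the trivial subgroups are unions of orbits. -/
theorem subgroup_trivial
    (hprim : ∀ S : Set G, (∀ u ∈ W, ∀ a ∈ S, u a ∈ S → ∀ b ∈ S, u b ∈ S) → S.Nonempty →
      S.Subsingleton ∨ S = Set.univ)
    (H : AddSubgroup G) (hH : Inv W fun x => x ∈ H) : H = ⊥ ∨ H = ⊤ := by
  have hblk : ∀ u ∈ W, ∀ a ∈ (H : Set G), u a ∈ (H : Set G) → ∀ b ∈ (H : Set G),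
      u b ∈ (H : Set G) := fun u hu a ha hua b hb => by
    have h1 : u b - u a ∈ H := (Eq.to_iff (orbital W htr hH hu a b)).2 (H.sub_mem hb ha)
    simpa using H.add_mem h1 hua
  rcases hprim (H : Set G) hblk ⟨0, H.zero_mem⟩ with h | h
  · exact Or.inl ((AddSubgroup.eq_bot_iff_forall H).2 fun x hx => h hx H.zero_mem)
  · exact Or.inr (SetLike.coe_injective (by rw [h, AddSubgroup.coe_top]))

variable (T : Finset G) (hT : Inv W fun x => x ∈ T)
include hT

theorem image_mem_iff {u : Equiv.Perm G} (hu : u ∈ W) (hu0 : u 0 = 0) (x : G) :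
    u x ∈ T ↔ x ∈ T := Eq.to_iff (hT u hu hu0 x)

theorem inv_coeff_pow {R : Type} [CommRing R] (k : ℕ) :
    Inv W fun x => ((∑ t ∈ T, AddMonoidAlgebra.single t (1 : R)) ^ k :
      AddMonoidAlgebra R G).coeff x := by
  induction k with
  | zero =>
    intro u _ hu0 x
    have hiff : 0 = u x ↔ 0 = x := by
      conv_lhs => rw [← hu0]
      exact u.apply_eq_iff_eq
    simp [AddMonoidAlgebra.one_def, Finsupp.single_apply, hiff]
  | succ k ih =>
    intro u hu hu0 x
    simp only [pow_succ', sum_mul, AddMonoidAlgebra.coeff_sum, Finsupp.finsetSum_apply,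
      AddMonoidAlgebra.coeff_single_mul_apply, one_mul]
    symm
    refine sum_equiv u (fun t => (image_mem_iff W htr T hT hu hu0 t).symm) fun t _ => ?_
    rw [← sub_eq_neg_add, ← sub_eq_neg_add]
    exact (orbital W htr ih hu t x).symm

variable {p : ℕ} [hp : Fact p.Prime]

theorem inv_count :
    Inv W fun x => ((T.filter fun t => p • t = x).card : ZMod p) := by
  have hp' := inv_coeff_pow W htr T hT (R := ZMod p) p
  have : CharP (AddMonoidAlgebra (ZMod p) G) p :=
    charP_of_injective_ringHom (f := (AddMonoidAlgebra.singleZeroRingHom :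
      ZMod p →+* AddMonoidAlgebra (ZMod p) G))
      (fun a b hab => by simpa using congrArg (fun q => q.coeff 0) hab) p
  intro u hu hu0 x
  have h := hp' u hu hu0 x
  simp only [sum_pow_char, AddMonoidAlgebra.single_pow, one_pow, AddMonoidAlgebra.coeff_sum,
    Finsupp.finsetSum_apply, AddMonoidAlgebra.coeff_single, Finsupp.single_apply, sum_boole] at h
  exact h

variable [IsAddCyclic G] (hpG : p ∣ Fintype.card G) (hpn : p < Fintype.card G)
  (hprim : ∀ S : Set G, (∀ u ∈ W, ∀ a ∈ S, u a ∈ S → ∀ b ∈ S, u b ∈ S) → S.Nonempty →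
      S.Subsingleton ∨ S = Set.univ)
include hpG hpn hprim

/-- T is periodic outside the kernel of multiplication by p. -/
theorem periodic {t y : G} (ht : t ∈ T) (htp : p • t ≠ 0) (hy : p • y = 0) : t + y ∈ T := by
  classical
  set S : Set G := {x | ((T.filter fun t => p • t = x).card : ZMod p) ≠ 0} with hS
  set f : G →+ G := nsmulAddMonoidHom p
  set H := AddSubgroup.closure S with hH
  have hSle : S ⊆ f.range := fun x hx => by
    by_contra hne
    refine hx ?_
    rw [filter_false_of_mem, card_empty, Nat.cast_zero]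
    exact fun s _ hs => hne ⟨s, hs⟩
  have hHinv : Inv W fun x => x ∈ H := by
    have key : ∀ x ∈ H, ∀ u ∈ W, u 0 = 0 → u x ∈ H := by
      intro x hx
      have : ∀ u ∈ W, ∀ a, u (a + x) - u a ∈ H := by
        induction hx using AddSubgroup.closure_induction with
        | mem s hs =>
          intro u hu a
          refine AddSubgroup.subset_closure ?_
          have e := orbital W htr (inv_count W htr T hT (p := p)) hu a (a + s)
          simp only [add_sub_cancel_left] at e
          simpa [hS, e] using hs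
        | zero => intro u _ a; simp
        | add s s' _ _ h h' =>
          intro u hu a
          simpa [add_assoc] using H.add_mem (h' u hu (a + s)) (h u hu a)
        | neg s _ h =>
          intro u hu a
          simpa using H.neg_mem (h u hu (a + -s))
      intro u hu hu0
      simpa [hu0] using this u hu 0
    intro u hu hu0 x
    refine propext ⟨fun h => ?_, fun h => key x h u hu hu0⟩
    simpa using key _ h u⁻¹ (W.inv_mem hu) (by rw [Equiv.Perm.inv_eq_iff_eq, hu0])
  have hHne : H ≠ ⊤ := by
    intro htop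
    have hr : f.range = ⊤ := top_le_iff.1 (htop ▸ (AddSubgroup.closure_le _).2 hSle)
    have hinj : Function.Injective f :=
      Finite.injective_iff_surjective.2 (AddMonoidHom.range_eq_top.1 hr)
    obtain ⟨z, hz⟩ := exists_prime_addOrderOf_dvd_card p hpG
    have hz0 : z = 0 := hinj (by
      rw [map_zero]
      change p • z = 0
      rw [← hz]; exact addOrderOf_nsmul_eq_zero z)
    rw [hz0, addOrderOf_zero] at hz
    exact hp.out.ne_one hz.symm
  have hbot := (subgroup_trivial W htr hprim H hHinv).resolve_right hHne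
  have hzero : ((T.filter fun s => p • s = p • t).card : ZMod p) = 0 := by
    by_contra hne
    have h1 : p • t ∈ H := AddSubgroup.subset_closure hne
    rw [hbot, AddSubgroup.mem_bot] at h1
    exact htp h1
  obtain ⟨c, hc⟩ := (ZMod.natCast_eq_zero_iff _ _).1 hzero
  set F := (univ.filter fun s : G => p • s = p • t) with hF
  have hle : F.card ≤ p := by
    refine le_trans (le_of_eq ?_) (IsAddCyclic.card_nsmul_eq_zero_le (α := G) hp.out.pos)
    refine card_bij' (fun s _ => s - t) (fun z _ => z + t) ?_ ?_ (by simp) (by simp)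
    · intro s hs
      simp only [hF, mem_filter, mem_univ, true_and] at hs ⊢
      rw [smul_sub, hs, sub_self]
    · intro z hz
      simp only [hF, mem_filter, mem_univ, true_and] at hz ⊢
      rw [smul_add, hz, zero_add]
  have hsub : T.filter (fun s => p • s = p • t) ⊆ F := fun s hs => by
    simp only [mem_filter] at hs
    simp [hF, hs.2]
  have hpos : 1 ≤ c := by
    by_contra hc0
    have : c = 0 := by omega
    rw [this, mul_zero, card_eq_zero] at hc
    exact (Finset.eq_empty_iff_forall_notMem.1 hc) t (by simp [ht])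
  have heq := eq_of_subset_of_card_le hsub (by nlinarith)
  have : t + y ∈ F := by simp [hF, smul_add, hy]
  rw [← heq] at this
  exact (mem_filter.1 this).1

variable (h0 : (0 : G) ∉ T) (hne : T.Nonempty)
include h0 hne

theorem meets_kernel : ∃ t ∈ T, p • t = 0 := by
  by_contra hno
  push Not at hno
  let H : AddSubgroup G :=
    { carrier := {z | ∀ y, y ∈ T ↔ y - z ∈ T}
      zero_mem' := fun y => by simp
      add_mem' := fun {a b} ha hb y => by rw [ha y, hb (y - a), sub_sub]
      neg_mem' := fun {a} ha y => by simpa using (ha (y - -a)).symm }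
  have hmem : ∀ z, z ∈ H ↔ ∀ y, y ∈ T ↔ y - z ∈ T := fun _ => Iff.rfl
  have hHinv : Inv W fun z => z ∈ H := by
    intro u hu hu0 z
    simp only [hmem]
    refine propext ((u.forall_congr_right).symm.trans (forall_congr' fun y => ?_))
    rw [image_mem_iff W htr T hT hu hu0, Eq.to_iff (orbital W htr hT hu z y)]
  obtain ⟨z, hz⟩ := exists_prime_addOrderOf_dvd_card p hpG
  have hpz : p • z = 0 := by rw [← hz]; exact addOrderOf_nsmul_eq_zero z
  have hzH : z ∈ H := fun y => by
    refine ⟨fun hy => ?_, fun hy => ?_⟩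
    · simpa [sub_eq_add_neg] using periodic W htr T hT hpG hpn hprim hy (hno y hy)
        (show p • (-z) = 0 by rw [smul_neg, hpz, neg_zero])
    · simpa using periodic W htr T hT hpG hpn hprim hy (hno _ hy) hpz
  rcases subgroup_trivial W htr hprim H hHinv with hb | ht
  · rw [hb, AddSubgroup.mem_bot] at hzH
    rw [hzH, addOrderOf_zero] at hz
    exact hp.out.ne_one hz.symm
  · obtain ⟨t, ht'⟩ := hne
    have htH : t ∈ H := ht ▸ AddSubgroup.mem_top t
    exact h0 (by simpa using (htH t).1 ht')

theorem not_in_kernel : ∃ t ∈ T, p • t ≠ 0 := by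
  by_contra hno
  push Not at hno
  set H := AddSubgroup.closure (T : Set G) with hH
  have hHinv : Inv W fun x => x ∈ H := by
    have key : ∀ x ∈ H, ∀ u ∈ W, ∀ a, u (a + x) - u a ∈ H := by
      intro x hx
      induction hx using AddSubgroup.closure_induction with
      | mem s hs =>
        intro u hu a
        refine AddSubgroup.subset_closure ?_
        have e := orbital W htr hT hu a (a + s)
        simp only [add_sub_cancel_left] at e
        exact (Eq.to_iff e).2 hs
      | zero => intro u _ a; simp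
      | add s s' _ _ h h' =>
        intro u hu a
        simpa [add_assoc] using H.add_mem (h' u hu (a + s)) (h u hu a)
      | neg s _ h =>
        intro u hu a
        simpa using H.neg_mem (h u hu (a + -s))
    intro u hu hu0 x
    refine propext ⟨fun h => ?_, fun h => by simpa [hu0] using key x h u hu 0⟩
    have := key _ h u⁻¹ (W.inv_mem hu) 0
    rw [show u⁻¹ 0 = 0 by rw [Equiv.Perm.inv_eq_iff_eq, hu0]] at this
    simpa using this
  obtain ⟨t, ht⟩ := hne
  have hker : H ≤ (nsmulAddMonoidHom p : G →+ G).ker :=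
    (AddSubgroup.closure_le _).2 fun s hs => hno s hs
  rcases subgroup_trivial W htr hprim H hHinv with hb | htop
  · have : t ∈ H := AddSubgroup.subset_closure ht
    rw [hb, AddSubgroup.mem_bot] at this
    exact h0 (this ▸ ht)
  · refine absurd (IsAddCyclic.card_nsmul_eq_zero_le (α := G) hp.out.pos) (not_le.2 ?_)
    have hall : ∀ x : G, p • x = 0 := fun x => hker (show x ∈ H by rw [htop]; trivial)
    rw [filter_true_of_mem (fun x _ => hall x), card_univ]
    exact hpn

omit hprim hne in
theorem kernel_card_le (hprim : ∀ S : Set G, (∀ u ∈ W, ∀ a ∈ S, u a ∈ S → ∀ b ∈ S, u b ∈ S) →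
    S.Nonempty → S.Subsingleton ∨ S = Set.univ) (hne : T.Nonempty) :
    2 * (T.filter fun t => p • t = 0).card ≤ T.card := by
  obtain ⟨t, ht, htp⟩ := not_in_kernel W htr T hT hpG hpn hprim h0 hne
  set K := univ.filter fun z : G => p • z = 0 with hK
  have h1 : (T.filter fun s => p • s = 0).card ≤ K.card :=
    card_le_card fun s hs => by simp [hK, (mem_filter.1 hs).2]
  have h2 : K.card ≤ (T.filter fun s => ¬p • s = 0).card := by
    refine card_le_card_of_injOn (fun z => t + z) (fun z hz => ?_) fun a _ b _ => add_left_cancel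
    have hz' : p • z = 0 := (mem_filter.1 hz).2
    refine mem_filter.2 ⟨periodic W htr T hT hpG hpn hprim ht htp hz', ?_⟩
    rwa [smul_add, hz', add_zero]
  have := card_filter_add_card_filter_not (s := T) fun s => p • s = 0
  omega

end SchurProof

open SchurProof Finset in
/-- Schur's theorem for a group containing all translations of a finite cyclic group. -/
theorem schur_cyclic_group {G : Type} [AddCommGroup G] [Fintype G] [DecidableEq G] [IsAddCyclic G]
    (W : Subgroup (Equiv.Perm G)) (htr : ∀ a : G, Equiv.addLeft a ∈ W)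
    (hprim : ∀ S : Set G, (∀ u ∈ W, ∀ a ∈ S, u a ∈ S → ∀ b ∈ S, u b ∈ S) → S.Nonempty →
      S.Subsingleton ∨ S = Set.univ)
    (hcomp : ¬(Fintype.card G).Prime) (hcard : 1 < Fintype.card G) :
    ∀ x y : G, x ≠ 0 → y ≠ 0 → ∃ u ∈ W, u 0 = 0 ∧ u x = y := by
  classical
  intro x y hx hy
  by_contra hno
  set p := (Fintype.card G).minFac with hpdef
  have : Fact p.Prime := ⟨Nat.minFac_prime (by omega)⟩
  have hpG : p ∣ Fintype.card G := Nat.minFac_dvd _
  have hpn : p < Fintype.card G :=
    lt_of_le_of_ne (Nat.minFac_le (by omega)) fun h => hcomp (h ▸ Fact.out)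
  set O : G → Finset G := fun z => univ.filter fun w => ∃ u ∈ W, u 0 = 0 ∧ u z = w with hO
  have hOmem : ∀ z w, w ∈ O z ↔ ∃ u ∈ W, u 0 = 0 ∧ u z = w := fun z w => by simp [hO]
  have hself : ∀ z, z ∈ O z := fun z => (hOmem z z).2 ⟨1, W.one_mem, rfl, rfl⟩
  have hOinv : ∀ z, Inv W fun w => w ∈ O z := by
    intro z v hv hv0 w
    refine propext ⟨fun h => ?_, fun h => ?_⟩
    · obtain ⟨u, hu, hu0, hw⟩ := (hOmem z _).1 h
      refine (hOmem z w).2 ⟨v⁻¹ * u, W.mul_mem (W.inv_mem hv) hu, ?_, ?_⟩
      · rw [Equiv.Perm.mul_apply, hu0, Equiv.Perm.inv_eq_iff_eq, hv0]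
      · rw [Equiv.Perm.mul_apply, hw, Equiv.Perm.inv_eq_iff_eq]
    · obtain ⟨u, hu, hu0, hw⟩ := (hOmem z w).1 h
      exact (hOmem z _).2 ⟨v * u, W.mul_mem hv hu, by simp [hu0, hv0], by simp [hw]⟩
  have hO0 : ∀ z, z ≠ 0 → (0 : G) ∉ O z := by
    intro z hz h
    obtain ⟨u, _, hu0, hu⟩ := (hOmem z 0).1 h
    exact hz (u.injective (hu.trans hu0.symm))
  -- two disjoint orbits; let T be the smaller one
  have hdis : Disjoint (O x) (O y) := by
    rw [disjoint_left]
    intro w hwx hwy
    obtain ⟨u, hu, hu0, huw⟩ := (hOmem x w).1 hwx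
    obtain ⟨v, hv, hv0, hvw⟩ := (hOmem y w).1 hwy
    refine hno ⟨v⁻¹ * u, W.mul_mem (W.inv_mem hv) hu, ?_, ?_⟩
    · rw [Equiv.Perm.mul_apply, hu0, Equiv.Perm.inv_eq_iff_eq, hv0]
    · rw [Equiv.Perm.mul_apply, huw, Equiv.Perm.inv_eq_iff_eq, hvw]
  obtain ⟨a, ha, hsmall⟩ : ∃ a, a ≠ 0 ∧ 2 * (O a).card + 1 ≤ Fintype.card G := by
    have h1 : ((O x ∪ O y) ∪ {0}).card ≤ Fintype.card G := card_le_univ _
    rw [card_union_of_disjoint (by simp [hO0 x hx, hO0 y hy]), card_union_of_disjoint hdis,
      card_singleton] at h1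
    rcases le_total (O x).card (O y).card with h | h
    · exact ⟨x, hx, by omega⟩
    · exact ⟨y, hy, by omega⟩
  set T := O a with hTdef
  have hT := hOinv a
  have hTne : T.Nonempty := ⟨a, hself a⟩
  have hsA := kernel_card_le W htr T hT hpG hpn (hO0 a ha) hprim hTne
  set A := (T.filter fun t => p • t = 0).card with hA
  set s := T.card with hs
  set lam : G → ℕ := fun z => (T.filter fun w => w - z ∈ T).card with hlam
  have hlamInv : Inv W lam := by
    intro u hu hu0 z
    simp only [hlam]
    symm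
    refine card_equiv u fun w => ?_
    simp only [mem_filter]
    rw [image_mem_iff W htr T hT hu hu0, Eq.to_iff (orbital W htr hT hu z w)]
  have hlow : ∀ z, z ≠ 0 → s ≤ lam z + A := by
    intro z hz
    obtain ⟨w, hw, hwp⟩ := meets_kernel W htr (O z) (hOinv z) hpG hpn hprim (hO0 z hz) ⟨z, hself z⟩
    obtain ⟨u, hu, hu0, huw⟩ := (hOmem z w).1 hw
    have e : lam z = lam w := by rw [← huw, hlamInv u hu hu0 z]
    rw [e]
    have h2 : (T.filter fun t => ¬p • t = 0).card ≤ lam w := by
      refine card_le_card fun t ht => ?_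
      obtain ⟨ht1, ht2⟩ := mem_filter.1 ht
      refine mem_filter.2 ⟨ht1, ?_⟩
      simpa [sub_eq_add_neg] using periodic W htr T hT hpG hpn hprim ht1 ht2
        (show p • (-w) = 0 by rw [smul_neg, hwp, neg_zero])
    have := card_filter_add_card_filter_not (s := T) fun t => p • t = 0
    omega
  have hsum : ∑ z, lam z = s * s := by
    simp only [hlam, card_filter]
    rw [sum_comm]
    have : ∀ w : G, ∑ z, (if w - z ∈ T then 1 else 0) = s := fun w => by
      rw [← card_filter]
      exact card_equiv (Equiv.subLeft w) fun z => by simp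
    rw [sum_congr rfl fun w _ => this w, sum_const, smul_eq_mul]
  have h0 : lam 0 = s := by simp [hlam, hs]
  have hrest : (Fintype.card G - 1) * s ≤ ∑ z ∈ univ.erase (0 : G), (lam z + A) := by
    have h := card_nsmul_le_sum (univ.erase (0 : G)) (fun z => lam z + A) s
      fun z hz => hlow z (mem_erase.1 hz).1
    rwa [card_erase_of_mem (mem_univ _), card_univ, smul_eq_mul] at h
  rw [sum_add_distrib, sum_const, card_erase_of_mem (mem_univ _), card_univ, smul_eq_mul] at hrest
  have hsplit := add_sum_erase univ lam (mem_univ (0 : G))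
  rw [h0, hsum] at hsplit
  obtain ⟨N, hN⟩ : ∃ N, Fintype.card G = N + 1 := ⟨_, (Nat.sub_add_cancel hcard.le).symm⟩
  rw [hN, Nat.add_sub_cancel] at hrest
  have h3 : 2 * (N * A) ≤ N * s := by
    rw [← mul_assoc, mul_comm 2, mul_assoc]; exact Nat.mul_le_mul_left N hsA
  have h4 : 2 * s * s ≤ N * s := Nat.mul_le_mul_right s (by omega)
  have h5 : 1 ≤ s := hTne.card_pos
  nlinarith

/-- Schur's theorem: a primitive group with a regular cycle of composite degree is
2-transitive. -/
theorem schur_regular_cyclic {Ω : Type} [Fintype Ω] [DecidableEq Ω]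
    (U : Subgroup (Equiv.Perm Ω)) (c : Equiv.Perm Ω) (hc : c ∈ U)
    (hcyc : ∀ x y : Ω, ∃ i : ℤ, (c ^ i) x = y) [hprim : MulAction.IsPreprimitive U Ω]
    (hcomp : ¬(Fintype.card Ω).Prime) (hcard : 1 < Fintype.card Ω) :
    ∀ a b a' b' : Ω, a ≠ b → a' ≠ b' → ∃ u ∈ U, u a = a' ∧ u b = b' := by
  classical
  obtain ⟨o⟩ : Nonempty Ω := Fintype.card_pos_iff.1 (by omega)
  set n := Fintype.card Ω with hn
  have : NeZero n := ⟨by omega⟩
  have hper : (c ^ n) o = o := by
    have hnc : ∀ x, c x ≠ x := by
      intro x hx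
      obtain ⟨y, z, hyz⟩ := Fintype.one_lt_card_iff.1 hcard
      have hfix : ∀ w, w = x := fun w => by
        obtain ⟨i, rfl⟩ := hcyc x w
        exact Equiv.Perm.zpow_apply_eq_self_of_apply_eq_self hx i
      exact hyz ((hfix y).trans (hfix z).symm)
    have hcycle : c.IsCycle := ⟨o, hnc o, fun y _ => hcyc o y⟩
    have hord := hcycle.orderOf
    rw [show c.support = Finset.univ from Finset.eq_univ_iff_forall.2
      fun x => Equiv.Perm.mem_support.2 (hnc x), Finset.card_univ, ← hn] at hord
    rw [← hord, pow_orderOf_eq_one]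
    rfl
  have hmul : ∀ q : ℕ, (c ^ (n * q)) o = o := by
    intro q
    induction q with
    | zero => simp
    | succ q ih => rw [Nat.mul_succ, pow_add, Equiv.Perm.mul_apply, hper, ih]
  have hcast : ∀ i : ℕ, (c ^ ((i : ZMod n).val)) o = (c ^ i) o := by
    intro i
    conv_rhs => rw [← Nat.mod_add_div i n, pow_add, Equiv.Perm.mul_apply, hmul]
    rw [ZMod.val_natCast]
  have hnat : ∀ y, ∃ i : ℕ, (c ^ i) o = y := by
    intro y
    obtain ⟨i, hi⟩ := hcyc o y
    have hf : IsOfFinOrder c := isOfFinOrder_of_finite c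
    obtain ⟨j, hj⟩ := hf.mem_powers_iff_mem_zpowers.2 ⟨i, rfl⟩
    exact ⟨j, by rw [← hi]; exact congrFun (congrArg _ hj) o⟩
  let e0 : ZMod n → Ω := fun z => (c ^ z.val) o
  have hbij : Function.Bijective e0 := by
    rw [Fintype.bijective_iff_surjective_and_card]
    refine ⟨fun y => ?_, by rw [ZMod.card]⟩
    obtain ⟨i, hi⟩ := hnat y
    exact ⟨i, (hcast i).trans hi⟩
  let e : ZMod n ≃ Ω := Equiv.ofBijective e0 hbij
  have he : ∀ z, e z = (c ^ z.val) o := fun _ => rfl
  let φ : Equiv.Perm (ZMod n) →* Equiv.Perm Ω := e.permCongrHom.toMonoidHom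
  have hφ : ∀ w x, φ w (e x) = e (w x) := fun w x => by simp [φ]
  have htr : ∀ a : ZMod n, Equiv.addLeft a ∈ U.comap φ := by
    intro a
    have : φ (Equiv.addLeft a) = c ^ a.val := by
      refine Equiv.ext fun w => ?_
      obtain ⟨x, rfl⟩ := e.surjective w
      rw [hφ, he, he, ← Equiv.Perm.mul_apply, ← pow_add, ← hcast (a.val + x.val)]
      congr 3
      simp
    rw [Subgroup.mem_comap, this]
    exact U.pow_mem hc _
  have hpre : ∀ S : Set (ZMod n),
      (∀ u ∈ U.comap φ, ∀ a ∈ S, u a ∈ S → ∀ b ∈ S, u b ∈ S) → S.Nonempty →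
      S.Subsingleton ∨ S = Set.univ := by
    intro S hS hne
    have hblock : MulAction.IsBlock U (e '' S) := by
      rw [MulAction.isBlock_iff_smul_eq_of_nonempty]
      rintro ⟨u, hu⟩ ⟨w, hw1, hw2⟩
      obtain ⟨a, ha, rfl⟩ : ∃ a ∈ S, u (e a) = w := by
        obtain ⟨v, ⟨a, ha, rfl⟩, rfl⟩ := hw1
        exact ⟨a, ha, rfl⟩
      set v := e.permCongrHom.symm u with hv
      have hvu : φ v = u := e.permCongrHom.apply_symm_apply u
      have hvU : v ∈ U.comap φ := by rw [Subgroup.mem_comap, hvu]; exact hu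
      obtain ⟨b, hb, hbe⟩ := hw2
      have hva : v a ∈ S := by
        have : e (v a) = u (e a) := by rw [← hφ, hvu]
        rw [← hbe] at this
        exact e.injective this ▸ hb
      refine Set.Subset.antisymm ?_ ?_
      · rintro _ ⟨_, ⟨s, hs, rfl⟩, rfl⟩
        exact ⟨v s, hS v hvU a ha hva s hs, by rw [← hφ, hvu]; rfl⟩
      · rintro _ ⟨s, hs, rfl⟩
        have h2 := hS v⁻¹ (Subgroup.inv_mem _ hvU) (v a) hva (by simpa using ha) s hs
        refine ⟨e (v⁻¹ s), ⟨_, h2, rfl⟩, ?_⟩
        change u (e (v⁻¹ s)) = e s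
        rw [← hvu, hφ]; simp
    rcases hprim.isTrivialBlock_of_isBlock hblock with h | h
    · exact Or.inl fun a ha b hb => e.injective (h ⟨a, ha, rfl⟩ ⟨b, hb, rfl⟩)
    · refine Or.inr (Set.eq_univ_iff_forall.2 fun z => ?_)
      obtain ⟨a, ha, hae⟩ := h.symm ▸ Set.mem_univ (e z)
      exact e.injective hae ▸ ha
  have : IsAddCyclic (ZMod n) := inferInstance
  have key := schur_cyclic_group (U.comap φ) htr hpre (by rwa [ZMod.card]) (by rwa [ZMod.card])
  intro a b a' b' hab hab'
  obtain ⟨x, rfl⟩ := e.surjective a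
  obtain ⟨y, rfl⟩ := e.surjective b
  obtain ⟨x', rfl⟩ := e.surjective a'
  obtain ⟨y', rfl⟩ := e.surjective b'
  obtain ⟨v, hv, hv0, hvy⟩ := key (-x + y) (-x' + y')
    (fun h => hab (congrArg e (neg_add_eq_zero.1 h)))
    (fun h => hab' (congrArg e (neg_add_eq_zero.1 h)))
  refine ⟨φ (Equiv.addLeft x' * v * Equiv.addLeft (-x)), ?_, ?_, ?_⟩
  · exact Subgroup.mem_comap.1 (Subgroup.mul_mem _ (Subgroup.mul_mem _ (htr _) hv) (htr _))
  · rw [hφ]; simp [hv0]
  · rw [hφ]; simp [hvy]

/-- The same, in Mathlib's formulation. -/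
theorem schur_regular_cyclic_isMultiplyPretransitive {Ω : Type} [Fintype Ω] [DecidableEq Ω]
    (U : Subgroup (Equiv.Perm Ω)) (c : Equiv.Perm Ω) (hc : c ∈ U)
    (hcyc : ∀ x y : Ω, ∃ i : ℤ, (c ^ i) x = y) [MulAction.IsPreprimitive U Ω]
    (hcomp : ¬(Fintype.card Ω).Prime) (hcard : 1 < Fintype.card Ω) :
    MulAction.IsMultiplyPretransitive U Ω 2 := by
  rw [MulAction.is_two_pretransitive_iff]
  intro a b a' b' hab hab'
  obtain ⟨u, hu, h1, h2⟩ := schur_regular_cyclic U c hc hcyc hcomp hcard a b a' b' hab hab'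
  exact ⟨⟨u, hu⟩, h1, h2⟩

end Vale.Agent.P329
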