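import Vale.Agent.P329.Reduction

/-!
P329: the witness on bracketed words, and the inner idempotent inside a segment.
-/

namespace Vale.Agent.P329

variable {G : Type} [Group G]

/-- One segment. -/
def seg (u : List G) : List (Option G) := none :: (u.map some ++ [none])

omit [Group G] in
theorem seg_bracketed (u : List G) : Bracketed (seg u) := by
  refine ⟨rfl, ?_⟩
  rw [seg, ← List.cons_append, List.getLast?_concat]

omit [Group G] in
theorem Bracketed.append {u v : List (Option G)} (hu : Bracketed u) (hv : Bracketed v) :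
    Bracketed (u ++ v) := by
  refine ⟨?_, ?_⟩
  · simp [List.head?_append, hu.1]
  · simp [List.getLast?_append, hv.2]

theorem evalFrom_some (F : G → G) (w : List (Option G)) : ∀ p q g : G,
    (wDFA F).evalFrom (some (q * p, g)) w =
      ((wDFA F).evalFrom (some (p, g)) w).map fun s => (q * s.1, s.2) := by
  induction w with
  | nil => intro p q g; simp
  | cons a w ih =>
    intro p q g
    rcases a with _ | x
    · simp only [DFA.evalFrom_cons, wDFA, wStep] at ih ⊢
      rw [mul_assoc]
      exact ih _ _ _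
    · simp only [DFA.evalFrom_cons, wDFA, wStep] at ih ⊢
      exact ih _ _ _

/-- On a bracketed word the automaton ends just after a separator, carrying the value. -/
theorem eval_bracketed (F : G → G) {w : List (Option G)} (hw : Bracketed w) :
    (wDFA F).eval w = some (nu F w, 1) := by
  obtain ⟨v, rfl⟩ : ∃ v, w = v ++ [none] := List.getLast?_eq_some_iff.1 hw.2
  have h : ∀ (l : List (Option G)) (s : G × G),
      ∃ s' : G × G, (wDFA F).evalFrom (some s) l = some s' := by
    intro l
    induction l with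
    | nil => exact fun s => ⟨s, rfl⟩
    | cons a l ih =>
      intro s
      rw [DFA.evalFrom_cons]
      rcases a with _ | x <;> exact ih _
  rcases v with _ | ⟨a, v⟩
  · rfl
  · have ha : a = none := by simpa using hw.1
    subst ha
    obtain ⟨s, hs⟩ := h v (1, 1)
    have heval : (wDFA F).eval (none :: v ++ [none]) = some (s.1 * F s.2, 1) := by
      rw [DFA.eval_append_singleton,
        show (wDFA F).eval (none :: v) = (wDFA F).evalFrom (some (1, 1)) v from rfl, hs]
      rfl
    rw [nu, heval]
    rfl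

theorem nu_append (F : G → G) (hF1 : F 1 = 1) {u v : List (Option G)} (hu : Bracketed u)
    (hv : Bracketed v) : nu F (u ++ v) = nu F u * nu F v := by
  obtain ⟨v', rfl⟩ : ∃ v', v = none :: v' := by
    rcases v with _ | ⟨a, v⟩
    · simp [Bracketed] at hv
    · exact ⟨v, by simpa using hv.1⟩
  have h1 : (wDFA F).eval (u ++ none :: v') = (wDFA F).evalFrom (some (nu F u * 1, 1)) v' := by
    rw [DFA.eval, DFA.evalFrom_of_append, ← DFA.eval, eval_bracketed F hu, DFA.evalFrom_cons]
    simp [wDFA, wStep, hF1]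
  have h2 : (wDFA F).evalFrom (some (1, 1)) v' = some (nu F (none :: v'), 1) :=
    eval_bracketed F hv
  rw [nu, h1, evalFrom_some, h2]
  rfl

theorem mem_witness_iff (F : G → G) {w : List (Option G)} (hw : Bracketed w) :
    w ∈ witness F ↔ nu F w = 1 := by
  change (wDFA F).eval w ∈ {s : Option (G × G) | ∃ g : G, s = some (1, g)} ↔ _
  rw [eval_bracketed F hw]
  simp

theorem evalFrom_map_some (F : G → G) (u : List G) : ∀ p g : G,
    (wDFA F).evalFrom (some (p, g)) (u.map some) = some (p, g * u.prod) := by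
  induction u with
  | nil => intro p g; simp
  | cons x u ih =>
    intro p g
    rw [List.map_cons, DFA.evalFrom_cons, List.prod_cons, ← mul_assoc]
    exact ih p (g * x)

theorem nu_seg (F : G → G) (u : List G) : nu F (seg u) = F u.prod := by
  rw [nu, seg, ← List.cons_append, DFA.eval_append_singleton,
    show (wDFA F).eval (none :: u.map some) = (wDFA F).evalFrom (some (1, 1)) (u.map some) from rfl,
    evalFrom_map_some]
  simp [wDFA, wStep]

theorem nu_surjective [Finite G] (F : G → G) (hF1 : F 1 = 1)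
    (hgen : Subgroup.closure (Set.range F) = ⊤) (g : G) : ∃ w, Bracketed w ∧ nu F w = g := by
  let N₀ : Submonoid G :=
    { carrier := {g | ∃ w, Bracketed w ∧ nu F w = g}
      one_mem' := ⟨seg [], seg_bracketed _, by rw [nu_seg, List.prod_nil, hF1]⟩
      mul_mem' := by
        rintro _ _ ⟨u, hu, rfl⟩ ⟨v, hv, rfl⟩
        exact ⟨u ++ v, hu.append hv, nu_append F hF1 hu hv⟩ }
  let N : Subgroup G :=
    { N₀ with
      inv_mem' := fun {x} hx =>
        (Submonoid.powers_le.2 (show x ∈ N₀ from hx))
          (mem_powers_iff_mem_zpowers.2 ⟨-1, zpow_neg_one x⟩) }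
  have : Subgroup.closure (Set.range F) ≤ N := by
    rw [Subgroup.closure_le]
    rintro _ ⟨x, rfl⟩
    exact ⟨seg [x], seg_bracketed _, by rw [nu_seg, List.prod_singleton]⟩
  exact this (hgen ▸ Subgroup.mem_top g)

variable {M : Type} [Monoid M]

/-- The relation of a word of segment letters. -/
def segRel (f : Option G → M) (Acc : Set M) (u : List G) : RelM (Option M) :=
  starRel f Acc (u.map some)

omit [Group G] in
theorem segRel_append (f : Option G → M) (Acc : Set M) (u v : List G) :
    segRel f Acc (u ++ v) = segRel f Acc u * segRel f Acc v := by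
  simp only [segRel, List.map_append, starRel_append]

omit [Group G] in
theorem segRel_wpow (f : Option G → M) (Acc : Set M) (u : List G) (n : ℕ) :
    segRel f Acc (wpow u n) = segRel f Acc u ^ n := by
  induction n with
  | zero => rfl
  | succ n ih => rw [wpow, segRel_append, ih, pow_succ]

theorem nu_sandwich (F : G → G) {e0 : List G} (he0 : e0.prod = 1) (u : List G) :
    nu F (seg (e0 ++ u ++ e0)) = F u.prod := by
  rw [nu_seg, List.prod_append, List.prod_append, he0, one_mul, mul_one]

omit [Group G] in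
theorem starRel_seg (f : Option G → M) (Acc : Set M) (u : List G) :
    starRel f Acc (seg u) = starRel f Acc [none] * segRel f Acc u * starRel f Acc [none] := by
  rw [segRel, ← starRel_append, ← starRel_append]
  rfl

/-- The inner idempotent, below any given idempotent segment word. -/
theorem exists_inner [Finite G] [Finite M] (hsimple : IsSimpleGroup G) (F : G → G)
    (hF1 : F 1 = 1) (hFne : ∃ g, F g ≠ 1) (haper : IsAperiodic M) (f : Option G → M)
    (Acc : Set M) (e : List (Option G))
    (hctrl : ∀ w₁ w₂, Bracketed w₁ → Bracketed w₂ →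
      starRel f Acc (e ++ w₁ ++ e) = starRel f Acc (e ++ w₂ ++ e) → nu F w₁ = nu F w₂)
    (e1 : List G) (he1 : segRel f Acc (e1 ++ e1) = segRel f Acc e1) :
    ∃ e0 : List G, e0.prod = 1 ∧ segRel f Acc (e0 ++ e0) = segRel f Acc e0 ∧
      segRel f Acc (e1 ++ e0) = segRel f Acc e0 ∧ segRel f Acc (e0 ++ e1) = segRel f Acc e0 ∧
      (∀ u, ∃ u', u.prod * u'.prod = 1 ∧
        segRel f Acc (e0 ++ u ++ e0 ++ u' ++ e0) = segRel f Acc e0 ∧
        segRel f Acc (e0 ++ u' ++ e0 ++ u ++ e0) = segRel f Acc e0) ∧
      ∀ u v, segRel f Acc (e0 ++ u ++ e0) = segRel f Acc (e0 ++ v ++ e0) → u.prod = v.prod := by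
  classical
  set S : Set (RelM (Option M) × G) :=
    Set.range (fun u : List G => (segRel f Acc (e1 ++ u ++ e1), (e1 ++ u ++ e1).prod)) with hS
  obtain ⟨ε, ⟨a, rfl⟩, hεε, hgroup⟩ := exists_group_idempotent S
    ⟨_, [], rfl⟩ (by
      rintro _ ⟨u, rfl⟩ _ ⟨v, rfl⟩
      exact ⟨u ++ e1 ++ e1 ++ v, by simp [segRel_append, mul_assoc]⟩)
  set e0 := e1 ++ a ++ e1 with he0def
  simp only [Prod.mk_mul_mk, Prod.mk.injEq, ← he0def] at hεε hgroup
  have hp : e0.prod = 1 := mul_left_cancel (hεε.2.trans (mul_one _).symm)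
  have hee : segRel f Acc (e0 ++ e0) = segRel f Acc e0 := by rw [segRel_append]; exact hεε.1
  have hR1 : segRel f Acc e1 * segRel f Acc e1 = segRel f Acc e1 := by
    rw [← segRel_append]; exact he1
  have hl : segRel f Acc (e1 ++ e0) = segRel f Acc e0 := by
    simp only [he0def, segRel_append, ← mul_assoc, hR1]
  have hr : segRel f Acc (e0 ++ e1) = segRel f Acc e0 := by
    simp only [he0def, segRel_append, mul_assoc, hR1]
  have hinv : ∀ u, ∃ u', u.prod * u'.prod = 1 ∧
      segRel f Acc (e0 ++ u ++ e0 ++ u' ++ e0) = segRel f Acc e0 ∧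
      segRel f Acc (e0 ++ u' ++ e0 ++ u ++ e0) = segRel f Acc e0 := by
    intro u
    set y := e0 ++ u ++ e0 with hy
    have hyS : (segRel f Acc y, y.prod) ∈ S := ⟨a ++ e1 ++ u ++ e1 ++ a, by simp [hy, he0def]⟩
    obtain ⟨n, hn, hpow⟩ := hgroup _ hyS
    obtain ⟨n, rfl⟩ : ∃ n', n = n' + 1 := ⟨n - 1, by omega⟩
    simp only [Prod.mk_mul_mk, Prod.pow_mk, Prod.mk.injEq, hp, one_mul, mul_one] at hpow
    have hey : segRel f Acc e0 * segRel f Acc y = segRel f Acc y := by
      simp only [hy, segRel_append, ← mul_assoc, hεε.1]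
    have hye : segRel f Acc y * segRel f Acc e0 = segRel f Acc y := by
      simp only [hy, segRel_append, mul_assoc, hεε.1]
    rw [hey, hye] at hpow
    have hyprod : y.prod = u.prod := by simp [hy, hp]
    have hwprod : ∀ j, (wpow y j).prod = u.prod ^ j := fun j => by
      induction j with
      | zero => simp [wpow]
      | succ j ih => simp [wpow, ih, hyprod, pow_succ]
    have hsum : segRel f Acc y ^ (2 * n + 1 + 1) = segRel f Acc e0 := by
      rw [show 2 * n + 1 + 1 = (n + 1) + (n + 1) by ring, pow_add, hpow.1, hεε.1]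
    refine ⟨wpow y (2 * n + 1), ?_, ?_, ?_⟩
    · rw [hwprod, ← pow_succ', show 2 * n + 1 + 1 = (n + 1) + (n + 1) by ring, pow_add,
        ← hyprod, hpow.2, mul_one]
    · calc segRel f Acc (y ++ wpow y (2 * n + 1) ++ e0)
          = segRel f Acc y * segRel f Acc y ^ (2 * n + 1) * segRel f Acc e0 := by
            rw [segRel_append, segRel_append, segRel_wpow]
        _ = segRel f Acc e0 := by rw [← pow_succ', hsum, hεε.1]
    · calc segRel f Acc (e0 ++ wpow y (2 * n + 1) ++ e0 ++ u ++ e0)
          = segRel f Acc e0 * (segRel f Acc y ^ (2 * n + 1) * segRel f Acc y) := by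
            simp only [hy, segRel_append, segRel_wpow, mul_assoc]
        _ = segRel f Acc e0 := by rw [← pow_succ, hsum, hεε.1]
  refine ⟨e0, hp, hee, hl, hr, hinv, ?_⟩
  -- the kernel is normal, hence trivial
  let s : Atom G := ⟨M, inferInstance, haper, fun g => f (some g), Acc⟩
  have hsR : ∀ u, s.R u = segRel f Acc u := fun u => by
    simp only [Atom.R, s, segRel, starRel, List.map_map]
    rfl
  have hall : ∀ u : List G, u ∈ (Set.univ : Set (List G)) := fun u => Set.mem_univ u
  obtain ⟨N, hN, hN'⟩ := exists_normal_trivialValues (Set.univ : Set (List G)) List.prod e0 [s]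
    (fun u _ v _ => hall _) (fun u _ v _ => List.prod_append) (hall _) hp
    (fun t ht => by
      rw [List.mem_singleton.1 ht, hsR, ← segRel_append, hee])
    (fun u _ => by
      obtain ⟨u', h1, h2, h3⟩ := hinv u
      refine ⟨u', hall _, h1, fun t ht => ?_⟩
      rw [List.mem_singleton.1 ht, hsR, hsR, hsR]
      exact ⟨h2, h3⟩)
    (fun g => ⟨[g], hall _, List.prod_singleton⟩)
  have hbot : N = ⊥ := (hN.eq_bot_or_eq_top).resolve_right fun htop => by
    obtain ⟨g, hg⟩ := hFne
    have hmem : g ∈ trivialValues (Set.univ : Set (List G)) List.prod e0 [s] := by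
      rw [← hN', htop]; simp
    obtain ⟨u, -, rfl, hu⟩ := hmem
    have hu' := hu s (List.mem_singleton.2 rfl)
    rw [hsR, hsR] at hu'
    refine hg ?_
    have := hctrl (seg (e0 ++ u ++ e0)) (seg e0) (seg_bracketed _) (seg_bracketed _)
      (by simp only [starRel_append, starRel_seg, hu'])
    rwa [nu_sandwich F hp, nu_seg, hp, hF1] at this
  intro u v huv
  obtain ⟨v', hv1, hv2, -⟩ := hinv v
  have hz : u.prod * v'.prod ∈ (N : Set G) := by
    rw [hN']
    refine ⟨u ++ e0 ++ v', hall _, by simp [hp], fun t ht => ?_⟩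
    rw [List.mem_singleton.1 ht, hsR, hsR]
    simp only [segRel_append, ← mul_assoc] at huv hv2 ⊢
    rw [huv, hv2]
  rw [hbot, Subgroup.coe_bot, Set.mem_singleton_iff] at hz
  exact mul_right_cancel (hz.trans hv1.symm)

/-- If the witness had height at most one, a single star would control both levels. -/
theorem exists_outer_inner [Finite G] (hsimple : IsSimpleGroup G)
    (hna : ∃ a b : G, a * b ≠ b * a) (F : G → G) (hF1 : F 1 = 1) (hFne : ∃ g, F g ≠ 1)
    (hgen : Subgroup.closure (Set.range F) = ⊤) (hh : HeightLE (witness F) 1) :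
    ∃ (M : Type) (_ : Monoid M), Finite M ∧ IsAperiodic M ∧
      ∃ (f : Option G → M) (Acc : Set M) (e : List (Option G)), Bracketed e ∧ nu F e = 1 ∧
        starRel f Acc (e ++ e) = starRel f Acc e ∧
        (∀ w, Bracketed w → ∃ w', Bracketed w' ∧
          starRel f Acc (e ++ w ++ e ++ w' ++ e) = starRel f Acc e) ∧
        (∀ w₁ w₂, Bracketed w₁ → Bracketed w₂ →
          starRel f Acc (e ++ w₁ ++ e) = starRel f Acc (e ++ w₂ ++ e) → nu F w₁ = nu F w₂) ∧
        ∀ e1 : List G, segRel f Acc (e1 ++ e1) = segRel f Acc e1 →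
          ∃ e0 : List G, e0.prod = 1 ∧ segRel f Acc (e0 ++ e0) = segRel f Acc e0 ∧
            segRel f Acc (e1 ++ e0) = segRel f Acc e0 ∧
            segRel f Acc (e0 ++ e1) = segRel f Acc e0 ∧
            (∀ u, ∃ u', u.prod * u'.prod = 1 ∧
              segRel f Acc (e0 ++ u ++ e0 ++ u' ++ e0) = segRel f Acc e0 ∧
              segRel f Acc (e0 ++ u' ++ e0 ++ u ++ e0) = segRel f Acc e0) ∧
            ∀ u v, segRel f Acc (e0 ++ u ++ e0) = segRel f Acc (e0 ++ v ++ e0) →
              u.prod = v.prod := by
  obtain ⟨M, iM, fM, aM, f, Acc, e, heW, he1, hee, hinv, hctrl⟩ :=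
    exists_controlling_star hsimple hna (witness F) {w | Bracketed w}
      (fun u hu v hv => hu.append hv) (nu F) (fun u hu v hv => nu_append F hF1 hu hv)
      (fun g => by
        obtain ⟨w, hw, hwg⟩ := nu_surjective F hF1 hgen g
        exact ⟨w, hw, hwg⟩)
      (fun w hw => mem_witness_iff F hw) hh
  have hctrl' : ∀ w₁ w₂, Bracketed w₁ → Bracketed w₂ →
      starRel f Acc (e ++ w₁ ++ e) = starRel f Acc (e ++ w₂ ++ e) → nu F w₁ = nu F w₂ :=
    fun w₁ w₂ h₁ h₂ => hctrl w₁ h₁ w₂ h₂
  exact ⟨M, iM, fM, aM, f, Acc, e, heW, he1, hee, hinv, hctrl',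
    exists_inner hsimple F hF1 hFne aM f Acc e hctrl'⟩

end Vale.Agent.P329
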