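import Vale.Agent.P329.Reduction

/-!
P329: the powers of one letter in the relation monoid of a star are eventually periodic with any
eventual period of the trace of that star on the powers of the letter.
-/

namespace Vale.Agent.P329

variable {α : Type}

variable {M : Type} [Monoid M] (f : α → M) (Acc : Set M)

theorem starRel_replicate (a : α) (n : ℕ) :
    starRel f Acc (List.replicate n a) = stepRel f Acc a ^ n := by
  simp [starRel]

/-- Paths by a power of a letter ending in an uncut state. -/
theorem pow_rel_some (a : α) (n : ℕ) (q : Option M) (x : M) :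
    (stepRel f Acc a ^ (n + 1)).rel q (some x) ↔ x = stateVal q * f a ^ (n + 1) ∨
      ∃ t, 1 ≤ t ∧ t ≤ n ∧ (stepRel f Acc a ^ (n + 1 - t)).rel q none ∧ x = f a ^ t := by
  induction n generalizing x with
  | zero =>
    simp only [zero_add, pow_one]
    constructor
    · intro h
      rcases h with h | ⟨h, -⟩
      · exact Or.inl (Option.some.inj h)
      · simp at h
    · rintro (rfl | ⟨t, h1, h2, -⟩)
      · exact Or.inl rfl
      · omega
  | succ n ih =>
    rw [pow_succ]
    constructor
    · rintro ⟨q', hq', h⟩
      obtain h | ⟨h, -⟩ := h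
      swap
      · simp at h
      have hx : x = stateVal q' * f a := Option.some.inj h
      rcases q' with _ | y
      · refine Or.inr ⟨1, le_rfl, by omega, ?_, by simpa [stateVal] using hx⟩
        simpa using hq'
      · rcases (ih y).1 hq' with rfl | ⟨t, h1, h2, h3, rfl⟩
        · exact Or.inl (by simpa [stateVal, pow_succ _ (n + 1), mul_assoc] using hx)
        · refine Or.inr ⟨t + 1, by omega, by omega, ?_, by simpa [stateVal, pow_succ] using hx⟩
          rwa [show n + 1 + 1 - (t + 1) = n + 1 - t by omega]
    · rintro (rfl | ⟨t, h1, h2, h3, rfl⟩)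
      · exact ⟨some (stateVal q * f a ^ (n + 1)), (ih _).2 (Or.inl rfl),
          Or.inl (by simp [stateVal, pow_succ _ (n + 1), mul_assoc])⟩
      · rcases Nat.lt_or_ge t 2 with ht | ht
        · obtain rfl : t = 1 := by omega
          refine ⟨none, ?_, Or.inl (by simp [stateVal])⟩
          simpa using h3
        · refine ⟨some (f a ^ (t - 1)), (ih _).2 (Or.inr ⟨t - 1, by omega, by omega, ?_, rfl⟩),
            Or.inl ?_⟩
          · rwa [show n + 1 - (t - 1) = n + 1 + 1 - t by omega]
          · simp only [stateVal, Option.getD_some, Option.some.injEq]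
            rw [← pow_succ, Nat.sub_add_cancel (by omega : 1 ≤ t)]

/-- Paths by a power of a letter ending in the cut state. -/
theorem pow_rel_none (P : Language α) (hP : ∀ w, w ∈ P ↔ ev f w ∈ Acc) (a : α) {n : ℕ}
    (hn : 1 ≤ n) (q : Option M) :
    (stepRel f Acc a ^ n).rel q none ↔ ∃ s, 1 ≤ s ∧ s ≤ n ∧ stateVal q * f a ^ s ∈ Acc ∧
      List.replicate (n - s) a ∈ KStar.kstar P := by
  rw [← starRel_replicate, starRel_rel_cut f Acc P hP]
  constructor
  · rintro (⟨-, h⟩ | ⟨u, v, hu, huv, hA, hv⟩)
    · exact absurd (((List.replicate_eq_nil_iff a).1 h)) (by omega)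
    · obtain ⟨hlen, hu', hv'⟩ := List.append_eq_replicate_iff.1 huv
      refine ⟨u.length, List.length_pos_of_ne_nil hu, by omega, ?_, ?_⟩
      · rw [hu'] at hA
        simpa [ev] using hA
      · rw [show n - u.length = v.length by omega, ← hv']
        exact hv
  · rintro ⟨s, h1, h2, hA, hv⟩
    refine Or.inr ⟨List.replicate s a, List.replicate (n - s) a, ?_, ?_, by simpa [ev] using hA, hv⟩
    · simp; omega
    · rw [List.replicate_append_replicate, Nat.add_sub_cancel' h2]

/-- An eventual period of the trace of the star on the powers of `a` is one of the powers of the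
relation of `a`. -/
theorem stepRel_pow_periodic (hM : IsAperiodic M) (P : Language α)
    (hP : ∀ w, w ∈ P ↔ ev f w ∈ Acc) (a : α) {m : ℕ} (hm : 1 ≤ m)
    (hT : ∃ N, ∀ n, N ≤ n →
      (List.replicate n a ∈ KStar.kstar P ↔ List.replicate (n + m) a ∈ KStar.kstar P)) :
    ∃ N, ∀ n, N ≤ n → stepRel f Acc a ^ n = stepRel f Acc a ^ (n + m) := by
  obtain ⟨N, hN⟩ := hT
  obtain ⟨K, hK1, hK⟩ := hM (f a)
  have hst : ∀ {i j : ℕ}, K ≤ i → K ≤ j → f a ^ i = f a ^ j := fun hi hj => by
    rw [pow_stable hK hi, pow_stable hK hj]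
  -- the cut state
  have hcut : ∀ n, N + K + m + 1 ≤ n → ∀ q,
      ((stepRel f Acc a ^ n).rel q none ↔ (stepRel f Acc a ^ (n + m)).rel q none) := by
    intro n hn q
    rw [pow_rel_none f Acc P hP a (by omega), pow_rel_none f Acc P hP a (by omega)]
    constructor
    · rintro ⟨s, h1, h2, hA, hv⟩
      rcases Nat.lt_or_ge s K with hs | hs
      · refine ⟨s, h1, by omega, hA, ?_⟩
        rw [show n + m - s = n - s + m by omega]
        exact (hN _ (by omega)).1 hv
      · refine ⟨s + m, by omega, by omega, by rwa [hst (i := s + m) (j := s) (by omega) hs], ?_⟩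
        rwa [show n + m - (s + m) = n - s by omega]
    · rintro ⟨s, h1, h2, hA, hv⟩
      rcases Nat.lt_or_ge s (K + m) with hs | hs
      · refine ⟨s, h1, by omega, hA, ?_⟩
        rw [show n + m - s = n - s + m by omega] at hv
        exact (hN _ (by omega)).2 hv
      · refine ⟨s - m, by omega, by omega,
          by rwa [hst (i := s - m) (j := s) (by omega) (by omega)], ?_⟩
        rwa [show n - (s - m) = n + m - s by omega]
  refine ⟨N + 2 * K + 2 * m + 2, fun n hn => RelM.ext ?_⟩
  funext q q'
  apply propext
  rcases q' with _ | x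
  · exact hcut n (by omega) q
  obtain ⟨k, rfl⟩ : ∃ k, n = k + 1 := ⟨n - 1, by omega⟩
  rw [show k + 1 + m = k + m + 1 by omega, pow_rel_some, pow_rel_some,
    hst (i := k + 1) (j := k + m + 1) (by omega) (by omega)]
  apply or_congr Iff.rfl
  constructor
  · rintro ⟨t, h1, h2, hr, rfl⟩
    rcases Nat.lt_or_ge t K with ht | ht
    · refine ⟨t, h1, by omega, ?_, rfl⟩
      rw [show k + m + 1 - t = k + 1 - t + m by omega]
      exact (hcut _ (by omega) q).1 hr
    · refine ⟨t + m, by omega, by omega, ?_, hst ht (by omega)⟩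
      rwa [show k + m + 1 - (t + m) = k + 1 - t by omega]
  · rintro ⟨t, h1, h2, hr, rfl⟩
    rcases Nat.lt_or_ge t (K + m) with ht | ht
    · refine ⟨t, h1, by omega, ?_, rfl⟩
      rw [show k + m + 1 - t = k + 1 - t + m by omega] at hr
      exact (hcut _ (by omega) q).2 hr
    · refine ⟨t - m, by omega, by omega, ?_, hst (by omega) (by omega)⟩
      rwa [show k + 1 - (t - m) = k + m + 1 - t by omega]

theorem replicate_mem_kstar_iff (P : Language α) (a : α) (n : ℕ) :
    List.replicate n a ∈ KStar.kstar P ↔
      n ∈ AddSubmonoid.closure {j | List.replicate j a ∈ P} := by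
  constructor
  · intro h
    obtain ⟨L, hL, hmem⟩ := Language.mem_kstar.1 h
    have key : ∀ (L : List (List α)) (n : ℕ), List.replicate n a = L.flatten →
        (∀ y ∈ L, y ∈ P) → n ∈ AddSubmonoid.closure {j | List.replicate j a ∈ P} := by
      intro L
      induction L with
      | nil => intro n hn _; simp at hn; subst hn; exact zero_mem _
      | cons u L ih =>
        intro n hn hmem
        obtain ⟨hlen, hu, hv⟩ := List.append_eq_replicate_iff.1 hn.symm
        rw [← hlen]
        refine add_mem (AddSubmonoid.subset_closure ?_)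
          (ih _ hv.symm fun y hy => hmem y (List.mem_cons_of_mem _ hy))
        show List.replicate u.length a ∈ P
        rw [← hu]
        exact hmem u List.mem_cons_self
    exact key L n hL hmem
  · intro h
    induction h using AddSubmonoid.closure_induction with
    | mem j hj => exact Language.mem_kstar.2 ⟨[List.replicate j a], by simp, by simpa using hj⟩
    | zero => exact Language.nil_mem_kstar P
    | add i j _ _ hi hj =>
      obtain ⟨Li, hLi, hi'⟩ := Language.mem_kstar.1 hi
      obtain ⟨Lj, hLj, hj'⟩ := Language.mem_kstar.1 hj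
      refine Language.mem_kstar.2 ⟨Li ++ Lj, ?_, fun y hy =>
        (List.mem_append.1 hy).elim (hi' y) (hj' y)⟩
      rw [← List.replicate_append_replicate, hLi, hLj, List.flatten_append]

/-- The trace of a star on the powers of a letter is eventually periodic with period the gcd of
the exponents in its body (period one if there are none). -/
theorem kstar_trace_periodic (P : Language α) (a : α) :
    ∃ m, 1 ≤ m ∧ (∀ p : ℕ, p ∣ m → p ≠ 1 → (∃ n, 1 ≤ n ∧ List.replicate n a ∈ P) ∧
        ∀ n, List.replicate n a ∈ P → p ∣ n) ∧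
      ∃ N, ∀ n, N ≤ n →
        (List.replicate n a ∈ KStar.kstar P ↔ List.replicate (n + m) a ∈ KStar.kstar P) := by
  set S : Set ℕ := {j | List.replicate j a ∈ P} with hS
  by_cases hne : ∃ n, 1 ≤ n ∧ n ∈ S
  · obtain ⟨n₀, hn₀, hn₀S⟩ := hne
    have hg : 1 ≤ Nat.setGcd S := by
      rcases Nat.eq_zero_or_pos (Nat.setGcd S) with h | h
      · have := Nat.setGcd_dvd_of_mem hn₀S
        rw [h, zero_dvd_iff] at this
        omega
      · exact h
    obtain ⟨N, hN⟩ := Nat.exists_mem_closure_of_ge S
    refine ⟨Nat.setGcd S, hg, fun p hp _ => ⟨⟨n₀, hn₀, hn₀S⟩,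
      fun n hn => hp.trans (Nat.setGcd_dvd_of_mem hn)⟩, N, fun n hn => ?_⟩
    rw [replicate_mem_kstar_iff, replicate_mem_kstar_iff, ← hS]
    constructor
    · intro h
      exact hN _ (by omega) (dvd_add (Nat.setGcd_dvd_of_mem_closure h) dvd_rfl)
    · intro h
      exact hN _ hn ((Nat.dvd_add_left dvd_rfl).1 (Nat.setGcd_dvd_of_mem_closure h))
  · push Not at hne
    refine ⟨1, le_rfl, fun p hp hp1 => absurd (Nat.dvd_one.1 hp) hp1, 1, fun n hn => ?_⟩
    rw [replicate_mem_kstar_iff, replicate_mem_kstar_iff, ← hS]
    have hz : ∀ j ∈ AddSubmonoid.closure S, j = 0 := fun j hj => by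
      induction hj using AddSubmonoid.closure_induction with
      | mem j hj => by_contra h; exact hne j (by omega) hj
      | zero => rfl
      | add i j _ _ hi hj => omega
    exact ⟨fun h => by have := hz _ h; omega, fun h => by have := hz _ h; omega⟩

end Vale.Agent.P329
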