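import Mathlib.Algebra.Group.Subgroup.Basic
import Mathlib.Algebra.Group.Action.Defs
import Mathlib.Data.Set.Basic
import Mathlib.GroupTheory.Perm.Basic

/-!
The transfer lemma (A6 of the P329 blueprint).

A group B acts on Ω preserving the blocks `blk`; it is transitive on each block, 2-transitive
inside blocks and transitive on pairs from two different blocks.  The outer maps `s b` are given by
exclusive incidences: `s b i = j` iff `b • L i` meets `R j`.  Then `b ↦ (s 1)⁻¹ * s b` is a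
homomorphism.
-/

namespace Vale.Agent.P329

namespace TransferProof

variable {B Ω κ O : Type*} [Group B] [MulAction B Ω] (blk : Ω → κ) (L R : O → Set Ω)
  (s : B → Equiv.Perm O)

/-- The incidence hypotheses. -/
structure Incidence : Prop where
  stable : ∀ (b : B) (p : Ω), blk (b • p) = blk p
  trans : ∀ p q : Ω, blk p = blk q → ∃ b : B, b • p = q
  two : ∀ p p' q q' : Ω, p ≠ p' → q ≠ q' → blk p' = blk p → blk q = blk p → blk q' = blk p →
    ∃ b : B, b • p = q ∧ b • p' = q'
  ind : ∀ p p' q q' : Ω, blk p ≠ blk p' → blk q = blk p → blk q' = blk p' →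
    ∃ b : B, b • p = q ∧ b • p' = q'
  spec : ∀ b i j, (∃ p ∈ L i, b • p ∈ R j) ↔ s b i = j

variable {blk L R s} (H : Incidence blk L R s)
include H

theorem det {b : B} {i j : O} {p : Ω} (hp : p ∈ L i) (hq : b • p ∈ R j) : s b i = j :=
  (H.spec b i j).1 ⟨p, hp, hq⟩

theorem det' {b : B} {i j : O} {p q : Ω} (hp : p ∈ L i) (he : b • p = q) (hq : q ∈ R j) :
    s b i = j := det H hp (he.symm ▸ hq)

theorem hit (b : B) (i : O) : ∃ p ∈ L i, b • p ∈ R (s b i) := (H.spec b i _).2 rfl

/-- A moved point has a single live point in its incidence set. -/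
theorem point_unique {i : O} {b₀ : B} (hmv : s b₀ i ≠ s 1 i) {p p' : Ω} (hp : p ∈ L i)
    (hp' : p' ∈ L i) {q q' : Ω} {j j' : O} (hq : blk q = blk p) (hqR : q ∈ R j)
    (hq' : blk q' = blk p') (hqR' : q' ∈ R j') : p = p' := by
  by_contra hne
  -- any two colours seen from `i` agree
  have cross : ∀ x x' y y' : Ω, ∀ k k' : O, x ∈ L i → x' ∈ L i → blk x ≠ blk x' → blk y = blk x →
      blk y' = blk x' → y ∈ R k → y' ∈ R k' → k = k' := by
    intro x x' y y' k k' hx hx' hxx hy hy' hk hk'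
    obtain ⟨b, e1, e2⟩ := H.ind x x' y y' hxx hy hy'
    rw [← det' H hx e1 (hk), det' H hx' e2 (hk')]
  have same : ∀ x x' y y' : Ω, ∀ k k' : O, x ∈ L i → x' ∈ L i → blk x = blk x' → blk y = blk x →
      blk y' = blk x' → y ∈ R k → y' ∈ R k' → k = k' := by
    intro x x' y y' k k' hx hx' hxx hy hy' hk hk'
    by_cases h1 : blk p = blk x
    · by_cases h2 : blk p' = blk x
      · rcases eq_or_ne y y' with rfl | hyy
        · obtain ⟨b, e⟩ := H.trans x y hy.symm
          rw [← det' H hx e (hk), det' H hx e (hk')]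
        · obtain ⟨b, e1, e2⟩ := H.two p p' y y' hne hyy (h2.trans h1.symm) (hy.trans h1.symm)
            (hy'.trans (hxx.symm.trans h1.symm))
          rw [← det' H hp e1 (hk), det' H hp' e2 (hk')]
      · rw [cross x p' y q' k j' hx hp' (Ne.symm h2) hy hq' hk hqR',
          cross x' p' y' q' k' j' hx' hp' (fun e => h2 (e.symm.trans hxx.symm)) hy' hq' hk' hqR']
    · rw [cross x p y q k j hx hp (Ne.symm h1) hy hq hk hqR,
        cross x' p y' q k' j hx' hp (fun e => h1 (e.symm.trans hxx.symm)) hy' hq hk' hqR]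
  obtain ⟨x, hx, hxR⟩ := hit H b₀ i
  obtain ⟨x', hx', hxR'⟩ := hit H 1 i
  refine hmv ?_
  rcases eq_or_ne (blk x) (blk x') with e | e
  · exact same x x' _ _ _ _ hx hx' e (H.stable _ _) (H.stable _ _) hxR hxR'
  · exact cross x x' _ _ _ _ hx hx' e (H.stable _ _) (H.stable _ _) hxR hxR'

/-- The point of a moved element: its colour under every b is read at the image of this point. -/
theorem exists_point {i : O} {b₀ : B} (hmv : s b₀ i ≠ s 1 i) :
    ∃ p ∈ L i, ∀ b : B, b • p ∈ R (s b i) := by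
  obtain ⟨p, hp, hpR⟩ := hit H 1 i
  refine ⟨p, hp, fun b => ?_⟩
  obtain ⟨x, hx, hxR⟩ := hit H b i
  rw [point_unique H hmv hp hx (H.stable 1 p) hpR (H.stable b x) hxR]
  exact hxR

/-- Two elements receiving the same colour: both are moved, and their points share a block. -/
theorem moved_same_block {i i' : O} {b₀ : B} (hmv : s b₀ i ≠ s 1 i) {b b' : B} (hne : i' ≠ i)
    (heq : s b' i' = s b i) {p : Ω} (hp : p ∈ L i) (hpR : ∀ c : B, c • p ∈ R (s c i)) :
    s b i' ≠ s b' i' ∧ ∀ p' ∈ L i', (∀ c : B, c • p' ∈ R (s c i')) → blk p' = blk p := by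
  refine ⟨fun h => hne ((s b).injective (h.trans heq)), fun p' hp' hpR' => ?_⟩
  by_contra hblk
  obtain ⟨c, e1, e2⟩ := H.ind p p' (b • p) (b' • p') (Ne.symm hblk) (H.stable _ _) (H.stable _ _)
  have h1 : s c i = s b i := det' H hp e1 (hpR b)
  have h2 : s c i' = s b' i' := det' H hp' e2 (hpR' b')
  exact hne ((s c).injective (h2.trans (heq.trans h1.symm)))

end TransferProof

open TransferProof in
/-- The transfer lemma. -/
theorem transfer_mul {B Ω κ O : Type*} [Group B] [MulAction B Ω] (blk : Ω → κ)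
    (L R : O → Set Ω) (s : B → Equiv.Perm O)
    (hstable : ∀ (b : B) (p : Ω), blk (b • p) = blk p)
    (htrans : ∀ p q : Ω, blk p = blk q → ∃ b : B, b • p = q)
    (htwo : ∀ p p' q q' : Ω, p ≠ p' → q ≠ q' → blk p' = blk p → blk q = blk p → blk q' = blk p →
      ∃ b : B, b • p = q ∧ b • p' = q')
    (hind : ∀ p p' q q' : Ω, blk p ≠ blk p' → blk q = blk p → blk q' = blk p' →
      ∃ b : B, b • p = q ∧ b • p' = q')
    (hs : ∀ b i j, (∃ p ∈ L i, b • p ∈ R j) ↔ s b i = j) (a b : B) :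
    (s 1)⁻¹ * s (a * b) = ((s 1)⁻¹ * s a) * ((s 1)⁻¹ * s b) := by
  have H : Incidence blk L R s := ⟨hstable, htrans, htwo, hind, hs⟩
  refine Equiv.ext fun i => ?_
  simp only [Equiv.Perm.mul_apply]
  congr 1
  set i' := (s 1)⁻¹ (s b i) with hi'
  have hsi' : s 1 i' = s b i := by rw [hi']; simp
  by_cases hfix : ∀ c, s c i = s 1 i
  · have : i' = i := (s 1).injective (by rw [hsi', hfix b])
    rw [this, hfix a, hfix (a * b)]
  obtain ⟨b₀, hmv⟩ := not_forall.1 hfix
  obtain ⟨p, hp, hpR⟩ := exists_point H hmv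
  -- a second element with point in the same block
  set i₂ := (s 1)⁻¹ (s b₀ i) with hi₂
  have hsi₂ : s 1 i₂ = s b₀ i := by rw [hi₂]; simp
  have hne₂ : i₂ ≠ i := fun e => hmv (by rw [← hsi₂, e])
  obtain ⟨p₂, hp₂, hpR₂⟩ := exists_point H (moved_same_block H hmv hne₂ hsi₂ hp hpR).1
  have hblk₂ := (moved_same_block H hmv hne₂ hsi₂ hp hpR).2 p₂ hp₂ hpR₂
  have hpne : p₂ ≠ p := fun e => hne₂ ((s 1).injective
    (det H hp₂ (e.symm ▸ hpR 1 : (1 : B) • p₂ ∈ R (s 1 i))))
  -- colours are injective on the block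
  have hinj : ∀ q q' : Ω, ∀ j, blk q = blk p → blk q' = blk p → q ∈ R j → q' ∈ R j → q = q' := by
    intro q q' j hq hq' hqj hqj'
    by_contra hqq
    obtain ⟨c, e1, e2⟩ := H.two p p₂ q q' hpne.symm hqq hblk₂ hq hq'
    have h1 : s c i = j := det' H hp e1 (hqj)
    have h2 : s c i₂ = j := det' H hp₂ e2 (hqj')
    exact hne₂ ((s c).injective (h2.trans h1.symm))
  rcases eq_or_ne i' i with hii | hii
  · have e : p = b • p := by
      refine hinj p (b • p) (s b i) rfl (H.stable _ _) ?_ (hpR b)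
      have h1 := hpR 1
      rw [one_smul] at h1
      rwa [← hsi', hii]
    rw [hii]
    refine det H hp ?_
    rw [mul_smul, ← e]
    exact hpR a
  · obtain ⟨p', hp', hpR'⟩ := exists_point H (moved_same_block H hmv hii hsi' hp hpR).1
    have hblk := (moved_same_block H hmv hii hsi' hp hpR).2 p' hp' hpR'
    have e : p' = b • p := by
      refine hinj p' (b • p) (s b i) hblk (H.stable _ _) ?_ (hpR b)
      have h1 := hpR' 1
      rwa [one_smul, hsi'] at h1
    refine det H hp ?_
    rw [mul_smul, ← e]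
    exact hpR' a

/-- If the transferred maps are evaluated multiplicatively, the outer function is a
homomorphism. -/
theorem transfer_hom {B Ω κ O G : Type*} [Group B] [MulAction B Ω] [Group G] (blk : Ω → κ)
    (L R : O → Set Ω) (s : B → Equiv.Perm O)
    (hstable : ∀ (b : B) (p : Ω), blk (b • p) = blk p)
    (htrans : ∀ p q : Ω, blk p = blk q → ∃ b : B, b • p = q)
    (htwo : ∀ p p' q q' : Ω, p ≠ p' → q ≠ q' → blk p' = blk p → blk q = blk p → blk q' = blk p →
      ∃ b : B, b • p = q ∧ b • p' = q')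
    (hind : ∀ p p' q q' : Ω, blk p ≠ blk p' → blk q = blk p → blk q' = blk p' →
      ∃ b : B, b • p = q ∧ b • p' = q')
    (hs : ∀ b i j, (∃ p ∈ L i, b • p ∈ R j) ↔ s b i = j)
    (K : Subgroup (Equiv.Perm O)) (hK : ∀ b, s b ∈ K) (ν : Equiv.Perm O → G)
    (hν : ∀ x ∈ K, ∀ y ∈ K, ν (x * y) = ν x * ν y)
    (ψ : B →* G) (hψ : Function.Surjective ψ) (F : G → G) (hF : F 1 = 1)
    (hνs : ∀ b, ν (s b) = F (ψ b)) (x y : G) : F (x * y) = F x * F y := by
  obtain ⟨a, rfl⟩ := hψ x
  obtain ⟨b, rfl⟩ := hψ y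
  have h1 : ν (s 1) = 1 := by rw [hνs, map_one, hF]
  have hh : ∀ c, (s 1)⁻¹ * s c ∈ K := fun c => K.mul_mem (K.inv_mem (hK 1)) (hK c)
  have hval : ∀ c, ν ((s 1)⁻¹ * s c) = F (ψ c) := fun c => by
    have e := hν (s 1) (hK 1) _ (hh c)
    rw [mul_inv_cancel_left, h1, one_mul] at e
    rw [← e, hνs]
  rw [← map_mul, ← hval (a * b), transfer_mul blk L R s hstable htrans htwo hind hs a b,
    hν _ (hh a) _ (hh b), hval, hval]

end Vale.Agent.P329
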