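import Mathlib

/-!
P329: for a prime `p ≥ 5`, the alternating group on `p` points is generated by two conjugate
cycles of length `p`.
-/

namespace Vale.Agent.P329

open Equiv Equiv.Perm

theorem exists_two_generators {p : ℕ} (hp : p.Prime) (h5 : 5 ≤ p) :
    ∃ a b : alternatingGroup (Fin p), orderOf a = p ∧ orderOf b = p ∧
      Subgroup.closure ({a, b} : Set (alternatingGroup (Fin p))) = ⊤ := by
  obtain ⟨n, rfl⟩ : ∃ n, p = n + 2 := ⟨p - 2, by omega⟩
  set a : Perm (Fin (n + 2)) := finRotate (n + 2) with ha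
  set c : Perm (Fin (n + 2)) := swap 0 1 * swap 1 2 with hc
  have hodd : Odd (n + 2) := hp.odd_of_ne_two (by omega)
  have hsign : sign a = 1 := by
    rw [ha, sign_finRotate, Even.neg_one_pow]
    obtain ⟨k, hk⟩ := hodd
    exact ⟨k, by omega⟩
  have hcyc : a.IsCycle := isCycle_finRotate
  have horda : orderOf a = n + 2 := by
    rw [hcyc.orderOf, support_finRotate]
    simp
  set b : Perm (Fin (n + 2)) := c * a * c⁻¹ with hb
  have hsignb : sign b = 1 := by
    rw [hb, map_mul, map_mul, map_inv, hsign, mul_one, mul_inv_cancel]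
  have hordb : orderOf b = n + 2 := by
    rw [hb, show c * a * c⁻¹ = (MulAut.conj c) a from rfl, MulEquiv.orderOf_eq, horda]
  -- the commutator is a three-cycle
  have h01 : (0 : Fin (n + 2)) ≠ 1 := by simp [Fin.ext_iff]
  have h12 : (1 : Fin (n + 2)) ≠ 2 := by
    simp [Fin.ext_iff, Fin.val_two, Nat.mod_eq_of_lt (show 2 < n + 2 by omega)]
  have h02 : (0 : Fin (n + 2)) ≠ 2 := by
    simp [Fin.ext_iff, Fin.val_two, Nat.mod_eq_of_lt (show 2 < n + 2 by omega)]
  have hsymm : ∀ x, a⁻¹ (x + 1) = x := fun x => by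
    rw [Perm.inv_eq_iff_eq, ha, finRotate_succ_apply]
  have hx : a⁻¹ * b = swap 0 (Fin.last (n + 1)) * swap 0 2 := by
    have e0 : a⁻¹ 0 = Fin.last (n + 1) := by
      have := hsymm (Fin.last (n + 1))
      rwa [Fin.last_add_one] at this
    have e1 : a⁻¹ 1 = 0 := by simpa using hsymm 0
    have e2 : a⁻¹ 2 = 1 := by
      rw [show (2 : Fin (n + 2)) = 1 + 1 by
        simp [Fin.ext_iff, Fin.val_add, Nat.mod_eq_of_lt (show 2 < n + 2 by omega)]]
      exact hsymm 1
    have h4 : swap (0 : Fin (n + 2)) 1 * swap 1 2 * swap 0 1 = swap 0 2 := by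
      rw [swap_comm 1 2, swap_comm 0 1, swap_mul_swap_mul_swap h12.symm h02.symm]
    calc a⁻¹ * b = a⁻¹ * swap 0 1 * a * (a⁻¹ * swap 1 2 * a) * (swap 1 2 * swap 0 1) := by
          rw [hb, hc, mul_inv_rev, swap_inv, swap_inv]; group
      _ = swap 0 (Fin.last (n + 1)) * swap 0 2 := by
          have hconj : ∀ x y, a⁻¹ * swap x y * a = swap (a⁻¹ x) (a⁻¹ y) := fun x y => by
            rw [swap_apply_apply, inv_inv]
          rw [hconj, hconj, e0, e1, e2, swap_comm (Fin.last (n + 1)) 0, mul_assoc,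
            ← mul_assoc (swap 0 1) (swap 1 2), h4]
  have h2l : (2 : Fin (n + 2)) ≠ Fin.last (n + 1) := by
    simp [Fin.ext_iff, Nat.mod_eq_of_lt (show 2 < n + 2 by omega)]
    omega
  have h0l : (0 : Fin (n + 2)) ≠ Fin.last (n + 1) := by simp [Fin.ext_iff]
  have h3 : IsThreeCycle (a⁻¹ * b) := by
    rw [hx]
    exact isThreeCycle_swap_mul_swap_same h0l h02 h2l.symm
  set H : Subgroup (Perm (Fin (n + 2))) := Subgroup.closure {a, b} with hH
  have haH : a ∈ H := Subgroup.subset_closure (Set.mem_insert _ _)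
  have hbH : b ∈ H := Subgroup.subset_closure (Set.mem_insert_of_mem _ rfl)
  have htrans : MulAction.IsPretransitive H (Fin (n + 2)) := by
    refine ⟨fun x y => ?_⟩
    obtain ⟨i, hi⟩ := hcyc.exists_zpow_eq
      (x := x) (y := y) (mem_support.1 (by rw [ha, support_finRotate]; exact Finset.mem_univ _))
      (mem_support.1 (by rw [ha, support_finRotate]; exact Finset.mem_univ _))
    exact ⟨⟨a ^ i, zpow_mem haH i⟩, hi⟩
  have hprim : MulAction.IsPreprimitive H (Fin (n + 2)) :=
    MulAction.IsPreprimitive.of_prime_card (by simpa using hp)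
  have hle : alternatingGroup (Fin (n + 2)) ≤ H :=
    Equiv.Perm.alternatingGroup_le_of_isPreprimitive_of_isThreeCycle_mem hprim h3
      (mul_mem (inv_mem haH) hbH)
  refine ⟨⟨a, mem_alternatingGroup.2 hsign⟩, ⟨b, mem_alternatingGroup.2 hsignb⟩, ?_, ?_, ?_⟩
  · rw [← orderOf_injective (alternatingGroup (Fin (n + 2))).subtype Subtype.coe_injective]
    exact horda
  · rw [← orderOf_injective (alternatingGroup (Fin (n + 2))).subtype Subtype.coe_injective]
    exact hordb
  · apply Subgroup.map_injective (f := (alternatingGroup (Fin (n + 2))).subtype)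
      Subtype.coe_injective
    rw [MonoidHom.map_closure, Set.image_pair, ← MonoidHom.range_eq_map, Subgroup.range_subtype]
    refine le_antisymm ?_ (by simpa [← hH] using hle)
    rw [Subgroup.closure_le]
    rintro z (rfl | rfl)
    exacts [mem_alternatingGroup.2 hsign, mem_alternatingGroup.2 hsignb]

end Vale.Agent.P329
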