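import Mathlib

/-!
Auxiliary lemmas for the upgrade from rank two to 2-transitivity (P329): fibres of the colour map
of a family, divisibility from vanishing Fourier coefficients, units lifting congruences, an
integrality obstruction at a primitive p-th root of unity, and orbits in transitive abelian actions.
-/

namespace Vale.Agent.P329

namespace Upgrade

open Finset

variable {Ω : Type} [Fintype Ω] [DecidableEq Ω] {d : ℕ} [NeZero d]

/-- In a family the colours of the range are equally frequent: (number of phased points) times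
(size of a fibre) is d. -/
theorem fibre_mul_phased (c : ZMod d → Ω) (x : Ω → Option (ZMod d))
    (s : ZMod d → Equiv.Perm Ω) (hsome : ∀ n y l, x y = some l → s n y = c (n + l))
    (hnone : ∀ n y, x y = none → s n y = s 0 y) (hex : ∃ y l, x y = some l)
    (v : Ω) (hv : ∃ n, c n = v) :
    (univ.filter fun y => x y ≠ none).card * (univ.filter fun n => c n = v).card = d := by
  have h1 : ∑ y, (univ.filter fun n => s n y = v).card = d := by
    simp only [card_filter]
    rw [sum_comm]
    have : ∀ n, (∑ y, if s n y = v then (1 : ℕ) else 0) = 1 := fun n => by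
      rw [sum_eq_single ((s n).symm v) (fun y _ hy => if_neg fun h => hy (by rw [← h]; simp))
        (fun h => absurd (mem_univ _) h)]
      simp
    simp [this, ZMod.card]
  have h2 : ∀ y, (univ.filter fun n => s n y = v).card =
      if x y ≠ none then (univ.filter fun n => c n = v).card else 0 := by
    intro y
    cases hy : x y with
    | some l =>
      rw [if_pos (by simp)]
      exact card_equiv (Equiv.addRight l) fun n => by simp [hsome n y l hy]
    | none =>
      rw [if_neg (by simp), card_eq_zero, filter_eq_empty_iff]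
      intro n _ hn
      obtain ⟨y₀, l, hl⟩ := hex
      obtain ⟨m, hm⟩ := hv
      have e1 : s (m - l) y₀ = v := by rw [hsome _ _ _ hl, sub_add_cancel, hm]
      have e2 : s (m - l) y = v := by rw [hnone _ _ hy, ← hnone n _ hy, hn]
      have e3 := (s (m - l)).injective (e2.trans e1.symm)
      rw [e3, hl] at hy
      exact Option.some_ne_none _ hy
  rw [sum_congr rfl fun y _ => h2 y, ← sum_filter, sum_const, smul_eq_mul] at h1
  exact h1

/-- A nonconstant colour map has at least two phased points. -/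
theorem two_le_phased (c : ZMod d → Ω) (x : Ω → Option (ZMod d))
    (s : ZMod d → Equiv.Perm Ω) (hsome : ∀ n y l, x y = some l → s n y = c (n + l))
    (hnone : ∀ n y, x y = none → s n y = s 0 y) (hex : ∃ y l, x y = some l)
    (hc : ∃ n n', c n ≠ c n') : 2 ≤ (univ.filter fun y => x y ≠ none).card := by
  obtain ⟨n, n', hne⟩ := hc
  have h := fibre_mul_phased c x s hsome hnone hex (c n) ⟨n, rfl⟩
  set Y := (univ.filter fun y => x y ≠ none).card with hY
  by_contra hlt
  have hd : 0 < d := NeZero.pos d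
  have hY1 : Y = 1 := by
    rcases Nat.eq_zero_or_pos Y with h0 | h0
    · rw [h0, zero_mul] at h; omega
    · omega
  rw [hY1, one_mul] at h
  refine hne ?_
  have hmem : n' ∈ univ.filter fun k => c k = c n := by
    rw [eq_univ_of_card (univ.filter fun k => c k = c n) (by rw [h, ZMod.card])]
    exact mem_univ _
  exact (mem_filter.1 hmem).2.symm

omit [Fintype Ω] in
/-- If the Fourier coefficients of a fibre vanish at the nonzero frequencies killed by m, then
m divides the size of the fibre. -/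
theorem dvd_fibre {K : Type*} [Field K] [CharZero K] {w : K} (hw : IsPrimitiveRoot w d)
    {m : ℕ} (hm : m ∣ d) (c : ZMod d → Ω) (v : Ω)
    (h : ∀ a : ZMod d, a ≠ 0 → (m : ZMod d) * a = 0 →
      ∑ n, (if c n = v then w ^ (a * n).val else 0) = 0) :
    m ∣ (univ.filter fun n => c n = v).card := by
  obtain ⟨t, ht⟩ := hm
  have hd : 0 < d := NeZero.pos d
  have hm0 : 0 < m := Nat.pos_of_ne_zero fun h0 => by simp [h0] at ht; omega
  have ht0 : 0 < t := Nat.pos_of_ne_zero fun h0 => by simp [h0] at ht; omega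
  have he : IsPrimitiveRoot (w ^ t) m := hw.pow hd (by rw [ht, mul_comm])
  have hpow : ∀ (i : ℕ) (n : ZMod d), w ^ (((t * i : ℕ) : ZMod d) * n).val =
      ((w ^ t) ^ n.val) ^ i := by
    intro i n
    rw [ZMod.val_mul, ZMod.val_natCast, Nat.mod_mul_mod, ← pow_mul, ← pow_mul,
      show t * (n.val * i) = t * i * n.val by ring]
    refine Eq.symm ?_
    conv_lhs => rw [← Nat.mod_add_div (t * i * n.val) d, pow_add, pow_mul, hw.pow_eq_one,
      one_pow, mul_one]
  have hgeo : ∀ n : ZMod d, ∑ i ∈ range m, ((w ^ t) ^ n.val) ^ i =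
      if m ∣ n.val then (m : K) else 0 := by
    intro n
    split_ifs with hn
    · simp [(he.pow_eq_one_iff_dvd _).2 hn]
    · have hne : (w ^ t) ^ n.val ≠ 1 := fun h1 => hn ((he.pow_eq_one_iff_dvd _).1 h1)
      rw [geom_sum_eq hne, ← pow_mul, mul_comm, pow_mul, he.pow_eq_one, one_pow, sub_self,
        zero_div]
  have hS : ∑ i ∈ range m, ∑ n, (if c n = v then w ^ (((t * i : ℕ) : ZMod d) * n).val else 0) =
      ((univ.filter fun n => c n = v).card : K) := by
    rw [sum_eq_single 0]
    · simp [sum_boole]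
    · intro i hi hi0
      refine h _ ?_ ?_
      · rw [Ne, ZMod.natCast_eq_zero_iff]
        intro hdvd
        rw [ht, mul_comm m t, Nat.mul_dvd_mul_iff_left ht0] at hdvd
        exact hi0 (Nat.eq_zero_of_dvd_of_lt hdvd (mem_range.1 hi))
      · rw [← Nat.cast_mul, ZMod.natCast_eq_zero_iff, ht, ← mul_assoc]
        exact dvd_mul_right _ _
    · intro h0
      exact absurd (mem_range.2 hm0) h0
  rw [sum_comm] at hS
  have hS' : ∑ n, (if c n = v ∧ m ∣ n.val then (m : K) else 0) =
      ((univ.filter fun n => c n = v).card : K) := by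
    rw [← hS]
    refine sum_congr rfl fun n _ => ?_
    by_cases hn : c n = v
    · simp only [hn, true_and, if_true]
      rw [sum_congr rfl fun i _ => hpow i n, hgeo n]
    · simp [hn]
  rw [← sum_filter, sum_const, nsmul_eq_mul, ← Nat.cast_mul] at hS'
  exact Dvd.intro_left _ (Nat.cast_injective hS')

/-- Congruent frequencies, prime to p, differ by a unit congruent to one. -/
theorem exists_unit_shift {p D R : ℕ} (hp : p.Prime) (hRd : R ∣ d) (hq : d / R ∣ p ^ D)
    (hprimes : ∀ l : ℕ, l.Prime → l ∣ d → l = p ∨ l ∣ R) {a b : ZMod d}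
    (ha : ¬p ∣ a.val) (hb : ¬p ∣ b.val) (hab : (a.val : ℤ) ≡ b.val [ZMOD R]) :
    ∃ u : (ZMod d)ˣ, b = u * a ∧ R ∣ ((u : ZMod d).val + d - 1) := by
  obtain ⟨t, ht⟩ := Int.modEq_iff_dvd.1 hab
  have hd : 0 < d := NeZero.pos d
  have hcop : IsCoprime (a.val : ℤ) ((d / R : ℕ) : ℤ) := by
    rw [Int.isCoprime_iff_gcd_eq_one, Int.gcd_natCast_natCast]
    exact Nat.Coprime.coprime_dvd_right hq
      (Nat.Coprime.pow_right D ((hp.coprime_iff_not_dvd.2 ha).symm))
  obtain ⟨α, β, hαβ⟩ := hcop
  set s : ℤ := t * α with hs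
  set U : ℤ := 1 + R * s with hU
  have hUa : (b.val : ℤ) = U * a.val + (R * (d / R : ℕ) : ℕ) * (t * β) := by
    rw [Nat.cast_mul]
    rw [hU, hs]
    linear_combination ht - (R : ℤ) * t * hαβ
  rw [Nat.mul_div_cancel' hRd] at hUa
  have hba : b = (U : ZMod d) * a := by
    have := congrArg (fun z : ℤ => (z : ZMod d)) hUa
    simpa using this
  have hunit : IsCoprime U (d : ℤ) := by
    rw [Int.isCoprime_iff_gcd_eq_one]
    by_contra hne
    obtain ⟨l, hl, hldvd⟩ := Nat.exists_prime_and_dvd hne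
    have hlU : (l : ℤ) ∣ U := dvd_trans (Int.natCast_dvd_natCast.2 hldvd) (Int.gcd_dvd_left _ _)
    have hld : l ∣ d := Int.natCast_dvd_natCast.1
      (dvd_trans (Int.natCast_dvd_natCast.2 hldvd) (Int.gcd_dvd_right _ _))
    rcases hprimes l hl hld with rfl | hlR
    · refine hb (Int.natCast_dvd_natCast.1 ?_)
      rw [hUa]
      exact dvd_add (dvd_mul_of_dvd_left hlU _)
        (dvd_mul_of_dvd_left (Int.natCast_dvd_natCast.2 hld) _)
    · have h1 : (l : ℤ) ∣ 1 := by
        have := dvd_sub hlU (dvd_mul_of_dvd_left (Int.natCast_dvd_natCast.2 hlR) s)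
        simpa [hU] using this
      exact hl.not_dvd_one (Int.natCast_dvd_natCast.1 (by simpa using h1))
  obtain ⟨A, B, hAB⟩ := hunit
  have hmul : (U : ZMod d) * (A : ZMod d) = 1 := by
    have := congrArg (fun z : ℤ => (z : ZMod d)) hAB
    simpa [mul_comm] using this
  refine ⟨⟨U, A, hmul, by rw [mul_comm]; exact hmul⟩, hba, ?_⟩
  refine Int.natCast_dvd_natCast.1 ?_
  have hRd' : (R : ℤ) ∣ d := Int.natCast_dvd_natCast.2 hRd
  rw [Nat.cast_sub (by omega), Nat.cast_add, Nat.cast_one]
  simp only [ZMod.val_intCast]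
  have : U % (d : ℤ) + d - 1 = R * s + (d : ℤ) * (1 - U / d) := by
    rw [Int.emod_def, hU]; ring
  rw [this]
  exact dvd_add (dvd_mul_right _ _) (dvd_mul_of_dvd_left hRd' _)

section root

variable {K : Type*} [Field K] [CharZero K]

/-- The integrality obstruction: a multiple of (ζ - 1)² is never prime to p. -/
theorem no_sq_dvd {p : ℕ} (hp : p.Prime) {ζ : K} (hζ : IsPrimitiveRoot ζ p) {y : K}
    (hy : IsIntegral ℤ y) {M : ℕ} (hM : ¬p ∣ M) : y * (ζ - 1) ^ 2 ≠ M := by
  classical
  intro heq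
  have : Fact p.Prime := ⟨hp⟩
  have hprod : (p : K) = ∏ μ ∈ primitiveRoots p K, (1 - μ) := by
    rw [← Polynomial.eval_one_cyclotomic_prime (R := K) (p := p),
      Polynomial.cyclotomic_eq_prod_X_sub_primitiveRoots hζ, Polynomial.eval_prod]
    simp
  have hint : ∀ μ ∈ primitiveRoots p K, IsIntegral ℤ (1 - μ) := fun μ hμ =>
    isIntegral_one.sub (((mem_primitiveRoots hp.pos).1 hμ).isIntegral hp.pos)
  have hζmem : ζ ∈ primitiveRoots p K := (mem_primitiveRoots hp.pos).2 hζ
  set z := ∏ μ ∈ (primitiveRoots p K).erase ζ, (1 - μ) with hz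
  have hpz : (p : K) = (1 - ζ) * z := by rw [hprod, hz, mul_prod_erase _ _ hζmem]
  have hzint : IsIntegral ℤ z := IsIntegral.prod _ fun μ hμ => hint μ (mem_of_mem_erase hμ)
  obtain ⟨α, β, hαβ⟩ : IsCoprime (p : ℤ) (M : ℤ) := by
    rw [Int.isCoprime_iff_gcd_eq_one, Int.gcd_natCast_natCast]
    exact hp.coprime_iff_not_dvd.2 hM
  have hone : (α : K) * p + β * M = 1 := by exact_mod_cast congrArg (fun t : ℤ => (t : K)) hαβ
  set r : K := α * z - β * y * (ζ - 1) with hr
  have hrint : IsIntegral ℤ r := ((isIntegral_algebraMap (R := ℤ) (x := α)).mul hzint).sub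
    (((isIntegral_algebraMap (R := ℤ) (x := β)).mul hy).mul
      ((hζ.isIntegral hp.pos).sub isIntegral_one))
  have hr1 : (1 - ζ) * r = 1 := by
    rw [hr]; linear_combination hone - (α : K) * hpz + (β : K) * heq
  have hinv : ∀ μ ∈ primitiveRoots p K, ∃ q, IsIntegral ℤ q ∧ (1 - μ) * q = 1 := by
    intro μ hμ
    have hμ' := (mem_primitiveRoots hp.pos).1 hμ
    have : NeZero p := ⟨hp.pos.ne'⟩
    obtain ⟨i, -, hi⟩ := hμ'.eq_pow_of_pow_eq_one hζ.pow_eq_one
    refine ⟨(∑ j ∈ range i, μ ^ j) * r, (IsIntegral.sum _ fun j _ =>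
      (hμ'.isIntegral hp.pos).pow j).mul hrint, ?_⟩
    rw [← mul_assoc, mul_neg_geom_sum, hi, hr1]
  choose! q hq hq1 using hinv
  have hQ : (p : K) * ∏ μ ∈ primitiveRoots p K, q μ = 1 := by
    rw [hprod, ← prod_mul_distrib, prod_eq_one hq1]
  have hQint : IsIntegral ℤ ((p : K)⁻¹) := by
    have : (p : K)⁻¹ = ∏ μ ∈ primitiveRoots p K, q μ := (eq_inv_of_mul_eq_one_right hQ).symm
    rw [this]
    exact IsIntegral.prod _ hq
  have hQrat : IsIntegral ℤ ((p : ℚ)⁻¹) :=
    (isIntegral_algebraMap_iff (algebraMap ℚ K).injective).1 (by simpa using hQint)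
  obtain ⟨k, hk⟩ := IsIntegrallyClosed.isIntegral_iff.1 hQrat
  have hk' : ((k * p : ℤ) : ℚ) = ((1 : ℤ) : ℚ) := by
    push_cast
    rw [show (k : ℚ) = (p : ℚ)⁻¹ from hk, inv_mul_cancel₀ (Nat.cast_ne_zero.2 hp.pos.ne')]
  exact hp.not_dvd_one (Int.natCast_dvd_natCast.1
    (Dvd.intro_left k (by exact_mod_cast Int.cast_injective hk') : (p : ℤ) ∣ ((1 : ℕ) : ℤ)))

end root

section abelian

variable {G X : Type*} [CommGroup G] [MulAction G X] [MulAction.IsPretransitive G X]

/-- In a transitive abelian action subgroup orbits divide the number of points. -/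
theorem orbit_ncard_dvd (N : Subgroup G) (a : X) :
    (MulAction.orbit N a).ncard ∣ Nat.card X :=
  (MulAction.IsBlock.orbit_of_normal a).ncard_dvd_card (MulAction.nonempty_orbit a)

/-- An element whose order is prime to the number of points acts trivially. -/
theorem smul_eq_self_of_coprime [Finite X] {u : G} {n : ℕ} (hu : u ^ n = 1)
    (hn : n.Coprime (Nat.card X)) (a : X) : u • a = a := by
  have h1 := orbit_ncard_dvd (X := X) (Subgroup.zpowers u) a
  have h2 : (MulAction.orbit (Subgroup.zpowers u) a).ncard =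
      Function.minimalPeriod (u • ·) a := by
    rw [← Nat.card_coe_set_eq,
      Nat.card_congr (MulAction.orbitZPowersEquiv u a), Nat.card_zmod]
  have h3 : Function.minimalPeriod (u • ·) a ∣ n := by
    refine Function.IsPeriodicPt.minimalPeriod_dvd ?_
    change (u • ·)^[n] a = a
    rw [smul_iterate]
    change u ^ n • a = a
    rw [hu, one_smul]
  rw [h2] at h1
  have h4 := Nat.eq_one_of_dvd_coprimes hn h3 h1
  exact Function.minimalPeriod_eq_one_iff_isFixedPt.1 h4

end abelian

/-- A unit congruent to one modulo p * m has p-power order when p ^ (D + 1) * m = d. -/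
theorem unit_pow_eq_one {p D m : ℕ} (hd : p ^ (D + 1) * m = d) (hcop : p.Coprime m)
    {u : (ZMod d)ˣ} (hu : p * m ∣ ((u : ZMod d).val + d - 1)) : u ^ p ^ D = 1 := by
  have hd0 : 0 < d := NeZero.pos d
  have h : ((p * m : ℕ) : ℤ) ∣ (((u : ZMod d).val + d : ℤ) - 1) := by
    have h' := Int.natCast_dvd_natCast.2 hu
    rwa [Nat.cast_sub (by omega), Nat.cast_add, Nat.cast_one] at h'
  push_cast at h
  have h1 : (p : ℤ) ^ (D + 1) ∣ (((u : ZMod d).val + d : ℤ) ^ p ^ D - 1) := by
    have := dvd_sub_pow_of_dvd_sub (R := ℤ) (dvd_trans (dvd_mul_right _ _) h) D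
    simpa using this
  have h2 : (m : ℤ) ∣ (((u : ZMod d).val + d : ℤ) ^ p ^ D - 1) :=
    dvd_trans (dvd_trans (dvd_mul_left _ _) h) (sub_one_dvd_pow_sub_one _ _)
  have h3 : ((d : ℕ) : ℤ) ∣ (((u : ZMod d).val + d : ℤ) ^ p ^ D - 1) := by
    have hc : IsCoprime ((p : ℤ) ^ (D + 1)) (m : ℤ) := by
      rw [Int.isCoprime_iff_gcd_eq_one, ← Nat.cast_pow, Int.gcd_natCast_natCast]
      exact Nat.Coprime.pow_left _ hcop
    have := hc.mul_dvd h1 h2
    have hd' : ((p : ℤ) ^ (D + 1) * (m : ℤ)) = (d : ℤ) := by exact_mod_cast hd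
    rwa [hd'] at this
  rw [← ZMod.intCast_zmod_eq_zero_iff_dvd] at h3
  refine Units.ext ?_
  push_cast at h3
  rw [ZMod.natCast_zmod_val, ZMod.natCast_self, add_zero, sub_eq_zero] at h3
  simpa using h3

end Upgrade

end Vale.Agent.P329
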