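import Mathlib
import Vale.Agent.P329.Family
import Vale.Agent.P329.UpgradeBase

/-!
Note 559 for families (P329): if the units congruent to one modulo every p'-part act transitively
on the classes, a family of composite degree has only one class, hence is 2-transitive.
-/

namespace Vale.Agent.P329

set_option linter.unusedSectionVars false

namespace Rank

open Finset Matrix

variable {Ω : Type} [Fintype Ω] [DecidableEq Ω] {d : ℕ} [NeZero d]

theorem chi_one_nat (j : ℕ) (n : ZMod d) : chi 1 ((j : ZMod d) * n) = chi 1 n ^ j := by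
  induction j with
  | zero => simp [chi_zero_right]
  | succ j ih => rw [Nat.cast_succ, add_mul, one_mul, chi_add_right, ih, pow_succ]

theorem isPrimitiveRoot_chi {p : ℕ} (hp : p.Prime) (hpd : p ∣ d) :
    IsPrimitiveRoot (chi (1 : ZMod d) ((d / p : ℕ) : ZMod d)) p := by
  have hd := NeZero.pos d
  have h : chi (1 : ZMod d) ((d / p : ℕ) : ZMod d) = root d ^ (d / p) := by
    rw [chi, one_mul, ZMod.val_cast_of_lt (Nat.div_lt_self hd hp.one_lt)]
  rw [h]
  exact root_spec.pow hd (Nat.div_mul_cancel hpd).symm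

theorem mul_divPrime_eq_zero_iff {p : ℕ} (hp : p.Prime) (hpd : p ∣ d) (a : ZMod d) :
    a * ((d / p : ℕ) : ZMod d) = 0 ↔ p ∣ a.val := by
  have h : 0 < d / p := Nat.div_pos (Nat.le_of_dvd (NeZero.pos d) hpd) hp.pos
  conv_lhs => rw [← ZMod.natCast_zmod_val a, ← Nat.cast_mul, ZMod.natCast_eq_zero_iff]
  conv_lhs => arg 1; rw [← Nat.mul_div_cancel' hpd]
  exact Nat.mul_dvd_mul_iff_right h

theorem modEq_of_cast_eq {R : ℕ} (hRd : R ∣ d) {a b : ZMod d}
    (h : ZMod.castHom hRd (ZMod R) a = ZMod.castHom hRd (ZMod R) b) :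
    (a.val : ℤ) ≡ b.val [ZMOD R] := by
  rw [← ZMod.natCast_zmod_val a, ← ZMod.natCast_zmod_val b, map_natCast, map_natCast,
    ZMod.natCast_eq_natCast_iff] at h
  exact Int.natCast_modEq_iff.2 h

theorem mem_ker_of_dvd {R : ℕ} (hRd : R ∣ d) {u : (ZMod d)ˣ}
    (h : R ∣ (u : ZMod d).val + d - 1) : u ∈ (ZMod.unitsMap hRd).ker := by
  rw [MonoidHom.mem_ker]
  refine Units.ext ?_
  change ZMod.castHom hRd (ZMod R) (u : ZMod d) = 1
  rw [← ZMod.natCast_eq_zero_iff, Nat.cast_sub (by have := NeZero.pos d; omega), Nat.cast_add,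
    (ZMod.natCast_eq_zero_iff d R).2 hRd, add_zero, Nat.cast_one, sub_eq_zero] at h
  rw [← ZMod.natCast_zmod_val (u : ZMod d), map_natCast, h]

theorem dvd_of_mem_ker {R : ℕ} (hRd : R ∣ d) {u : (ZMod d)ˣ}
    (h : u ∈ (ZMod.unitsMap hRd).ker) : R ∣ (u : ZMod d).val + d - 1 := by
  have h' : ZMod.castHom hRd (ZMod R) (u : ZMod d) = 1 := congrArg Units.val h
  rw [← ZMod.natCast_zmod_val (u : ZMod d), map_natCast] at h'
  rw [← ZMod.natCast_eq_zero_iff, Nat.cast_sub (by have := NeZero.pos d; omega), Nat.cast_add,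
    (ZMod.natCast_eq_zero_iff d R).2 hRd, add_zero, Nat.cast_one, sub_eq_zero]
  exact h'

theorem mul_eq_self_of_ker {m : ℕ} (hmd : m ∣ d) {u : (ZMod d)ˣ}
    (hu : u ∈ (ZMod.unitsMap hmd).ker) {a : ZMod d} (ha : (m : ZMod d) * a = 0) :
    (u : ZMod d) * a = a := by
  obtain ⟨s, hs⟩ := dvd_of_mem_ker hmd hu
  have h := congrArg (fun j : ℕ => (j : ZMod d) * a) hs
  simp only [Nat.cast_sub (show 1 ≤ (u : ZMod d).val + d by have := NeZero.pos d; omega),
    Nat.cast_add, ZMod.natCast_zmod_val, ZMod.natCast_self, add_zero, Nat.cast_one,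
    Nat.cast_mul] at h
  rw [mul_comm (m : ZMod d), mul_assoc, ha, mul_zero, sub_mul, one_mul, sub_eq_zero] at h
  exact h

/-- Integral away from p. -/
def awayInt (d : ℕ) [NeZero d] (p : ℕ) (hp : p.Prime) : Subring (K d) where
  carrier := {x | ∃ M : ℕ, ¬p ∣ M ∧ IsIntegral ℤ ((M : K d) * x)}
  zero_mem' := ⟨1, hp.not_dvd_one, by simpa using isIntegral_zero⟩
  one_mem' := ⟨1, hp.not_dvd_one, by simpa using isIntegral_one⟩
  add_mem' := by
    rintro x y ⟨M, hM, hx⟩ ⟨N, hN, hy⟩
    refine ⟨M * N, fun h => (hp.dvd_mul.1 h).elim hM hN, ?_⟩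
    have := ((isIntegral_algebraMap (R := ℤ) (A := K d) (x := (N : ℤ))).mul hx).add
      ((isIntegral_algebraMap (R := ℤ) (A := K d) (x := (M : ℤ))).mul hy)
    rw [show ((M * N : ℕ) : K d) * (x + y) = algebraMap ℤ (K d) (N : ℤ) * ((M : K d) * x) +
      algebraMap ℤ (K d) (M : ℤ) * ((N : K d) * y) by simp; ring]
    exact this
  neg_mem' := by
    rintro x ⟨M, hM, hx⟩
    exact ⟨M, hM, by simpa using hx.neg⟩
  mul_mem' := by
    rintro x y ⟨M, hM, hx⟩ ⟨N, hN, hy⟩
    refine ⟨M * N, fun h => (hp.dvd_mul.1 h).elim hM hN, ?_⟩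
    rw [show ((M * N : ℕ) : K d) * (x * y) = (M : K d) * x * ((N : K d) * y) by simp; ring]
    exact hx.mul hy

namespace Fam

variable (F : Fam Ω d)

open Classical in
/-- Column differences of a projection whose top part is periodic modulo R. -/
theorem IsProj.period_diff {Q : ZMod d → Prop} {E : Matrix Ω Ω (K d)} (h : F.IsProj Q E)
    {R t : ℕ} (hd : R * t = d) (z : ZMod d) (hRz : (R : ZMod d) * z = 0) (g : ZMod d → K d)
    (hg : ∀ a, g (a + R) = g a)
    (hQ : ∀ a, F.Spec a → a * z ≠ 0 → g a = if Q a then 1 else 0) (y : Ω) (n : ZMod d) :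
    (R : K d) * (E y (F.c (n + z)) - E y (F.c n)) =
      ∑ w, if F.c w = y ∧ (R : ZMod d) * (w - n) = 0 then
        ∑ r ∈ range R, g r * chi (r : ZMod d) (w - n) * (chi (r : ZMod d) (-z) - 1) else 0 := by
  have ht : (t : K d) ≠ 0 := by
    refine Nat.cast_ne_zero.2 fun h0 => NeZero.ne d ?_
    rw [← hd, h0, mul_zero]
  refine mul_left_cancel₀ ht ?_
  rw [← mul_assoc, ← Nat.cast_mul, mul_comm t, hd, h.diff]
  have hterm : ∀ a, (if a ≠ 0 ∧ Q a then (chi a (-(n + z)) - chi a (-n)) * F.chat a y else 0) =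
      g a * (chi a (-(n + z)) - chi a (-n)) * F.chat a y := by
    intro a
    by_cases hz : a * z = 0
    · have : chi a (-(n + z)) = chi a (-n) := by
        rw [neg_add, chi_add_right, (chi_eq_one_iff a (-z)).2 (by rw [mul_neg, hz, neg_zero]),
          mul_one]
      rw [this]
      simp
    · have ha : a ≠ 0 := fun h0 => hz (by simp [h0])
      by_cases hc : F.chat a y = 0
      · simp [hc]
      · rw [hQ a ⟨ha, fun h0 => hc (congrFun h0 y)⟩ hz]
        by_cases hq : Q a <;> simp [hq, ha]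
  rw [sum_congr rfl fun a _ => hterm a]
  simp only [chat, mul_sum, mul_ite, mul_zero]
  rw [sum_comm]
  refine sum_congr rfl fun w _ => ?_
  by_cases hw : F.c w = y
  · simp only [hw, true_and, if_true]
    have hper : ∀ a, (fun a => g a * (chi a (-z) - 1)) (a + (R : ZMod d)) =
        (fun a => g a * (chi a (-z) - 1)) a := by
      intro a
      simp only [hg, chi_add_left]
      rw [(chi_eq_one_iff (R : ZMod d) (-z)).2 (by rw [mul_neg, hRz, neg_zero]), mul_one]
    have hs := Upgrade.periodic_sum (root_spec (d := d)) hd (fun a => g a * (chi a (-z) - 1)) hper (w - n)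
    refine Eq.trans (Eq.trans (sum_congr rfl fun a _ => ?_) hs) ?_
    · change _ = g a * (chi a (-z) - 1) * chi a (w - n)
      rw [show -(n + z) = -z + -n by ring, chi_add_right, sub_eq_add_neg w, chi_add_right]
      ring
    · split_ifs with hv
      · rw [mul_sum]
        refine sum_congr rfl fun r _ => ?_
        change (t : K d) * (g (r : ZMod d) * (chi (r : ZMod d) (-z) - 1) * chi (r : ZMod d) (w - n)) = _
        ring
      · rfl
  · simp [hw]

theorem dim_mul_card [MulAction.IsPretransitive (ZMod d)ˣ F.Cls] (q : F.Cls) :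
    Fintype.card F.Cls * F.dim q + 1 = Fintype.card Ω := by
  rw [← F.sum_dim]
  congr 1
  rw [sum_congr rfl fun q' _ => ?_, sum_const, card_univ, smul_eq_mul]
  obtain ⟨u, rfl⟩ := MulAction.exists_smul_eq (ZMod d)ˣ q q'
  rw [F.dim_smul]

theorem diag_eq_dim (q : F.Cls) (y : Ω) :
    (Fintype.card Ω : K d) * F.E q y y = (F.dim q : K d) := by
  rw [← F.trace_E, Matrix.trace, sum_congr rfl fun z _ => ?_, sum_const, card_univ, nsmul_eq_mul]
  exact (F.isProj_E q).inv.diag_eq z y

/-- Composite degree: only one class, given transitivity of the small unit groups. -/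
theorem subsingleton_cls [MulAction.IsPretransitive (ZMod d)ˣ F.Cls]
    (hU : ∀ p : ℕ, p.Prime → p ∣ Fintype.card Ω → ∀ (m e : ℕ) (hmd : m ∣ d),
      p ^ e * m = d → p.Coprime m → ∀ q q' : F.Cls,
        ∃ u ∈ (ZMod.unitsMap hmd).ker, u • q = q')
    (hk : ¬(Fintype.card Ω).Prime) : Subsingleton F.Cls := by
  classical
  by_contra hns
  rw [not_subsingleton_iff_nontrivial] at hns
  obtain ⟨q₁, q₂, hq⟩ := exists_pair_ne F.Cls
  set k := Fintype.card Ω with hkdef
  obtain ⟨n₁, n₂, hne⟩ := F.nonconst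
  have hk1 : 1 < k := Fintype.one_lt_card_iff.2 ⟨_, _, hne⟩
  have := F.prim
  -- the colour range divides a power of every prime of the degree
  set Y := (univ.filter fun y => F.x y ≠ none).card with hY
  have hY2 : 2 ≤ Y := Upgrade.two_le_phased F.c F.x F.s F.hsome F.hnone F.hex ⟨n₁, n₂, hne⟩
  have hrange : ∀ p : ℕ, p.Prime → p ∣ k → ∃ e m, p ^ e * m = d ∧ p.Coprime m ∧ Y ∣ p ^ e := by
    intro p hp hpk
    obtain ⟨e, m, hpm, hem⟩ := Nat.exists_eq_pow_mul_and_not_dvd (NeZero.ne d) p hp.ne_one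
    have hmd : m ∣ d := Dvd.intro_left _ hem.symm
    have hcop : p.Coprime m := hp.coprime_iff_not_dvd.2 hpm
    refine ⟨e, m, hem.symm, hcop, ?_⟩
    have hfib : m ∣ (univ.filter fun n => F.c n = F.c n₁).card := by
      refine Upgrade.dvd_fibre (root_spec (d := d)) hmd F.c _ fun a ha hma => ?_
      by_contra hc
      have hs : F.Spec a := ⟨ha, fun h0 => hc (congrFun h0 (F.c n₁))⟩
      have hfix : ∀ q', F.cls a hs = q' := by
        intro q'
        obtain ⟨u, hu, rfl⟩ := hU p hp hpk m e hmd hem.symm hcop (F.cls a hs) q'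
        rw [F.smul_cls]
        exact F.cls_congr (mul_eq_self_of_ker hmd hu hma).symm hs
      exact hq ((hfix q₁).symm.trans (hfix q₂))
    obtain ⟨j, hj⟩ := hfib
    have h := Upgrade.fibre_mul_phased F.c F.x F.s F.hsome F.hnone F.hex (F.c n₁) ⟨n₁, rfl⟩
    rw [hj] at h
    have hm0 : 0 < m := Nat.pos_of_dvd_of_pos hmd (NeZero.pos d)
    refine Dvd.intro j (Nat.eq_of_mul_eq_mul_right hm0 ?_)
    rw [← hem, ← h]
    ring
  obtain ⟨p, hp, hpk⟩ := Nat.exists_prime_and_dvd (show k ≠ 1 by omega)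
  obtain ⟨e, m, hem, hcop, hYe⟩ := hrange p hp hpk
  -- the degree is a prime power
  have huniq : ∀ r : ℕ, r.Prime → r ∣ k → r = p := by
    intro r hr hrk
    by_contra hrp
    obtain ⟨e', m', -, -, hYe'⟩ := hrange r hr hrk
    have h1 : Nat.Coprime (p ^ e) (r ^ e') :=
      Nat.Coprime.pow _ _ ((Nat.coprime_primes hp hr).2 (Ne.symm hrp))
    have := Nat.eq_one_of_dvd_coprimes h1 hYe hYe'
    omega
  obtain ⟨α, rfl'⟩ : ∃ α, k = p ^ α := by
    refine ⟨k.primeFactorsList.length, Nat.eq_prime_pow_of_unique_prime_dvd (by omega) ?_⟩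
    exact fun {r} hr hrk => huniq r hr hrk
  have hα : 2 ≤ α := by
    by_contra hlt
    rcases (show α = 0 ∨ α = 1 by omega) with rfl | rfl
    · simp [rfl'] at hk1
    · exact hk (by rw [rfl', pow_one]; exact hp)
  obtain ⟨e, rfl⟩ : ∃ e', e = e' + 1 := ⟨e - 1, by
    rcases Nat.eq_zero_or_pos e with rfl | he
    · have := Nat.le_of_dvd Nat.one_pos (by simpa using hYe)
      omega
    · omega⟩
  -- units congruent to one modulo p * m act trivially
  set R := p * m with hR
  have hRd : R ∣ d := ⟨p ^ e, by rw [hR, ← hem, pow_succ]; ring⟩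
  have hdim : ∀ q, F.dim q = F.dim q₁ := fun q => by
    obtain ⟨u, rfl⟩ := MulAction.exists_smul_eq (ZMod d)ˣ q₁ q
    rw [F.dim_smul]
  have hcard := F.dim_mul_card q₁
  rw [← hkdef] at hcard
  set f := Fintype.card F.Cls with hf
  set μ := F.dim q₁ with hμ
  have hpk' : p ∣ f * μ + 1 := hcard ▸ hpk
  have hpμ : ¬p ∣ μ := fun h => hp.not_dvd_one ((Nat.dvd_add_right (dvd_mul_of_dvd_right h f)).1 hpk')
  have hpf : p.Coprime f := hp.coprime_iff_not_dvd.2 fun h =>
    hp.not_dvd_one ((Nat.dvd_add_right (dvd_mul_of_dvd_left h μ)).1 hpk')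
  have hW : ∀ u ∈ (ZMod.unitsMap hRd).ker, ∀ q : F.Cls, u • q = q := by
    intro u hu q
    refine Upgrade.smul_eq_self_of_coprime (n := p ^ e) ?_ ?_ q
    · exact Upgrade.unit_pow_eq_one hem hcop (dvd_of_mem_ker hRd hu)
    · rw [Nat.card_eq_fintype_card]
      exact Nat.Coprime.pow_left _ hpf
  -- the scaled column congruences
  have hpd : p ∣ d := dvd_trans (dvd_mul_right p m) hRd
  set z : ZMod d := ((d / p : ℕ) : ZMod d) with hz
  set ζ := chi (1 : ZMod d) z with hζ
  have hζp : IsPrimitiveRoot ζ p := isPrimitiveRoot_chi hp hpd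
  have hζ1 : ζ - 1 ≠ 0 := sub_ne_zero.2 (hζp.ne_one hp.one_lt)
  set ι : K d := (p : K d) / (ζ - 1) with hι
  obtain ⟨n, hn⟩ := F.hper p hp hpd
  have hRz : (R : ZMod d) * z = 0 :=
    (mul_divPrime_eq_zero_iff hp hpd _).2 (by
      rw [ZMod.val_natCast]
      exact (Nat.dvd_mod_iff hpd).2 (dvd_mul_right p m))
  have hcong : ∀ q : F.Cls, ∀ y w v, ι * F.E q y w - ι * F.E q v v ∈ awayInt d p hp := by
    intro q
    have hE := F.isProj_E q
    set good : ZMod R → Prop := fun r => ∃ b hb, F.cls b hb = q ∧ ¬p ∣ b.val ∧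
      ZMod.castHom hRd (ZMod R) b = r
    let g : ZMod d → K d := fun a => if good (ZMod.castHom hRd (ZMod R) a) then 1 else 0
    have hg : ∀ a, g (a + R) = g a := fun a => by
      simp only [g, map_add, map_natCast, ZMod.natCast_self, add_zero]
    have hgI : ∀ a, IsIntegral ℤ (g a) := fun a => by
      simp only [g]
      split_ifs
      · exact isIntegral_one
      · exact isIntegral_zero
    have hQ : ∀ a, F.Spec a → a * z ≠ 0 →
        g a = @ite _ (∃ ha, F.cls a ha = q) (Classical.propDecidable _) 1 0 := by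
      intro a ha haz
      have hap : ¬p ∣ a.val := fun h => haz ((mul_divPrime_eq_zero_iff hp hpd a).2 h)
      suffices hiff : good (ZMod.castHom hRd (ZMod R) a) ↔ ∃ ha, F.cls a ha = q by
        simp only [g]
        split_ifs <;> first | rfl | exact absurd (hiff.1 ‹_›) ‹_› | exact absurd (hiff.2 ‹_›) ‹_›
      refine ⟨?_, ?_⟩
      · rintro ⟨b, hb, hbq, hbp, hba⟩
        obtain ⟨u, hu, hu'⟩ := Upgrade.exists_unit_shift (p := p) (D := e) hp hRd (by
          refine dvd_of_eq (Nat.div_eq_of_eq_mul_left (Nat.pos_of_dvd_of_pos hRd (NeZero.pos d)) ?_)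
          rw [hR, ← hem, pow_succ]; ring) (by
          intro l hl hld
          rw [← hem] at hld
          rcases hl.dvd_mul.1 hld with h | h
          · exact Or.inl ((Nat.prime_dvd_prime_iff_eq hl hp).1 (hl.dvd_of_dvd_pow h))
          · exact Or.inr (dvd_mul_of_dvd_right h p))
          hbp hap (modEq_of_cast_eq hRd hba)
        refine ⟨ha, ?_⟩
        rw [F.cls_congr hu ha, ← F.smul_cls u b hb, hbq, hW u (mem_ker_of_dvd hRd hu') q]
      · rintro ⟨_, hq'⟩
        exact ⟨a, ha, hq', hap, rfl⟩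
    have hcol : ∀ y, ι * F.E q y (F.c (n + z)) - ι * F.E q y (F.c n) ∈
        (awayInt d p hp).toAddSubgroup := by
      intro y
      refine ⟨m, hp.coprime_iff_not_dvd.1 hcop, ?_⟩
      have key := hE.period_diff F (R := R) (t := p ^ e) (by rw [hR, ← hem, pow_succ]; ring)
        z hRz g hg hQ y n
      have hgeom : ∀ r : ℕ, chi (r : ZMod d) (-z) - 1 =
          (ζ - 1) * ∑ j ∈ range ((-(r : ZMod d)).val), ζ ^ j := by
        intro r
        rw [mul_geom_sum, hζ, ← chi_one_nat, ZMod.natCast_zmod_val, chi, chi]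
        ring_nf
      set X : K d := ∑ w, if F.c w = y ∧ (R : ZMod d) * (w - n) = 0 then
        ∑ r ∈ range R, g r * chi (r : ZMod d) (w - n) *
          ∑ j ∈ range ((-(r : ZMod d)).val), ζ ^ j else 0 with hX
      have hXI : IsIntegral ℤ X := IsIntegral.sum _ fun w _ => by
        split_ifs
        · exact IsIntegral.sum _ fun r _ => ((hgI _).mul (chi_isIntegral _ _)).mul
            (IsIntegral.sum _ fun j _ => (chi_isIntegral _ _).pow j)
        · exact isIntegral_zero
      have key' : (R : K d) * (F.E q y (F.c (n + z)) - F.E q y (F.c n)) = (ζ - 1) * X := by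
        rw [key, hX, mul_sum]
        refine sum_congr rfl fun w _ => ?_
        split_ifs
        · rw [mul_sum]
          exact sum_congr rfl fun r _ => by rw [hgeom]; ring
        · rw [mul_zero]
      convert hXI using 1
      rw [hι, hR, Nat.cast_mul] at *
      field_simp
      linear_combination key'
    have := Upgrade.spread F.H (awayInt d p hp).toAddSubgroup (fun y w => ι * F.E q y w)
      (fun h hh y w => by rw [hE.inv h hh]) hn hcol
    exact this
  -- the product of two different classes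
  have hk0 : (k : K d) ≠ 0 := F.card_ne_zero
  set y := F.c n₁
  set lam : K d := (μ : K d) / k with hlam
  have hdiag : ∀ q, F.E q y y = lam := fun q => by
    rw [hlam, eq_div_iff hk0, mul_comm, hkdef, F.diag_eq_dim, hdim q]
  have hzero : F.E q₁ * F.E q₂ = 0 := (F.isProj_E q₁).mul_eq_zero F (F.isProj_E q₂)
    fun a _ ⟨⟨_, h1⟩, ⟨_, h2⟩⟩ => hq (h1.symm.trans h2)
  have hprod : ∑ w, (ι * F.E q₁ y w - ι * F.E q₁ y y) * (ι * F.E q₂ w y - ι * F.E q₂ y y) =
      ι ^ 2 * (k : K d) * lam ^ 2 := by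
    have h1 : ∑ w, F.E q₁ y w * F.E q₂ w y = 0 := by
      rw [← Matrix.mul_apply, hzero]; rfl
    have h2 := (F.isProj_E q₁).rowSum F y
    have h3 := (F.isProj_E q₂).colSum F y
    calc _ = ι ^ 2 * ∑ w, F.E q₁ y w * F.E q₂ w y - ι ^ 2 * lam * ∑ w, F.E q₂ w y
          - ι ^ 2 * lam * ∑ w, F.E q₁ y w + ∑ _w : Ω, ι ^ 2 * lam ^ 2 := by
          simp only [hdiag, mul_sum, ← sum_sub_distrib, ← sum_add_distrib]
          exact sum_congr rfl fun w _ => by ring
      _ = _ := by
          rw [h1, h2, h3, sum_const, card_univ, nsmul_eq_mul, ← hkdef]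
          ring
  obtain ⟨M, hM, hMI⟩ : ι ^ 2 * (k : K d) * lam ^ 2 ∈ awayInt d p hp :=
    hprod ▸ sum_mem fun w _ => mul_mem (hcong q₁ y w y) (hcong q₂ w y y)
  refine Upgrade.no_sq_dvd hp hζp (y := (M : K d) * (ι ^ 2 * (k : K d) * lam ^ 2) *
    ((p ^ (α - 2) : ℕ) : K d)) (hMI.mul (by
      simpa using isIntegral_algebraMap (R := ℤ) (A := K d) (x := ((p ^ (α - 2) : ℕ) : ℤ))))
      (M := M * μ ^ 2) ?_ ?_
  · exact fun h => (hp.dvd_mul.1 h).elim hM fun h' => hpμ (hp.dvd_of_dvd_pow h')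
  · have hkk : (k : K d) = (p : K d) ^ 2 * ((p ^ (α - 2) : ℕ) : K d) := by
      rw [rfl', ← Nat.cast_pow, ← Nat.cast_mul, ← pow_add, Nat.add_sub_cancel' hα]
    rw [hlam, hι, Nat.cast_mul, Nat.cast_pow μ]
    field_simp
    rw [hkk]
    ring

end Fam

end Rank

end Vale.Agent.P329
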