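import Mathlib
import Vale.Agent.P329.Upgrade
import Vale.Agent.P329.RankTwo

/-!
A family of composite degree is 2-transitive (P329).
-/

namespace Vale.Agent.P329

namespace Rank

open Finset

variable {Ω : Type} [Fintype Ω] [DecidableEq Ω] {d : ℕ} [NeZero d]

namespace Fam

variable (F : Fam Ω d)

/-- For a prime of the degree the units congruent to one modulo the prime-to-p part move any
class to any other. -/
theorem ker_transitive {p : ℕ} (hp : p.Prime) (hpk : p ∣ Fintype.card Ω) (m e : ℕ) (hmd : m ∣ d)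
    (hem : p ^ e * m = d) (hcop : p.Coprime m) (q q' : F.Cls) :
    ∃ u ∈ (ZMod.unitsMap hmd).ker, u • q = q' := by
  classical
  have := F.pretransitive_cls
  have : Fact p.Prime := ⟨hp⟩
  set U := (ZMod.unitsMap hmd).ker
  have hm : ordCompl[p] d = m := by
    rw [← hem, Nat.ordCompl_self_pow_mul _ _ hp,
      Nat.ordCompl_eq_self_iff_zero_or_not_dvd _ hp]
    exact Or.inr (hp.coprime_iff_not_dvd.1 hcop)
  set S : F.Cls → Finset F.Cls := fun a => (MulAction.orbit U a).toFinset with hS
  have hst : ∀ a, F.Stable p (S a) := by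
    intro a u hu b hb
    rw [hS, Set.mem_toFinset] at hb ⊢
    exact MulAction.mem_orbit_of_mem_orbit (⟨u, mem_ker_of_dvd hmd (hm ▸ hu)⟩ : U) hb
  have hsum : ∀ a, ∑ b ∈ S a, F.dim b = (S a).card * F.dim q := by
    intro a
    rw [sum_congr rfl fun b _ => ?_, sum_const, smul_eq_mul]
    obtain ⟨u, rfl⟩ := MulAction.exists_smul_eq (ZMod d)ˣ q b
    rw [F.dim_smul]
  have hsecond : ∀ a, ordProj[p] (Fintype.card Ω) ∣ ∑ b ∈ S a, F.dim b + 1 := by
    intro a
    refine (F.lam_cases (hst a)).resolve_left fun h => hp.not_dvd_one ?_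
    have hS' : (S a).card ∣ Fintype.card F.Cls := by
      have h' := Upgrade.orbit_ncard_dvd (X := F.Cls) U a
      rwa [Nat.card_eq_fintype_card, Set.ncard_eq_toFinset_card'] at h'
    have h1 : p ∣ ∑ b ∈ S a, F.dim b := dvd_trans
      (dvd_pow_self p (hp.factorization_pos_of_dvd F.card_pos'.ne' hpk).ne') h
    rw [hsum a] at h1
    have h2 : p ∣ Fintype.card F.Cls * F.dim q := dvd_trans h1 (Nat.mul_dvd_mul_right hS' _)
    have h3 := hpk
    rw [← F.dim_mul_card q] at h3
    exact (Nat.dvd_add_right h2).1 h3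
  by_contra hno
  have hdis : Disjoint (S q) (S q') := by
    rw [Finset.disjoint_left]
    intro b hb hb'
    rw [hS, Set.mem_toFinset] at hb hb'
    have h1 : MulAction.orbit U q = MulAction.orbit U q' := by
      rw [← MulAction.orbit_eq_iff.2 hb, ← MulAction.orbit_eq_iff.2 hb']
    obtain ⟨⟨u, hu⟩, he⟩ : q' ∈ MulAction.orbit U q := h1 ▸ MulAction.mem_orbit_self q'
    exact hno ⟨u, hu, he⟩
  exact F.not_both_succ hpk (hst q) (hst q') hdis ⟨hsecond q, hsecond q'⟩

/-- A family of composite degree is 2-transitive. -/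
theorem two_transitive (hk : ¬(Fintype.card Ω).Prime) :
    ∀ a b a' b' : Ω, a ≠ b → a' ≠ b' → ∃ h ∈ F.H, h a = a' ∧ h b = b' := by
  have := F.pretransitive_cls
  have := F.subsingleton_cls (fun p hp hpk m e hmd hem hcop q q' =>
    F.ker_transitive hp hpk m e hmd hem hcop q q') hk
  exact F.two_transitive_of_subsingleton

end Fam

end Rank

/-- A primitive group of composite degree containing a family of permutations with one moving
colour map is 2-transitive. -/
theorem family_two_transitive {Ω : Type} [Fintype Ω] [DecidableEq Ω]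
    (H : Subgroup (Equiv.Perm Ω)) [MulAction.IsPreprimitive H Ω] {d : ℕ} [NeZero d]
    (c : ZMod d → Ω) (x : Ω → Option (ZMod d)) (s : ZMod d → Equiv.Perm Ω)
    (hmem : ∀ n, s n ∈ H) (hsome : ∀ n y l, x y = some l → s n y = c (n + l))
    (hnone : ∀ n y, x y = none → s n y = s 0 y) (hex : ∃ y l, x y = some l)
    (hc : ∃ n n', c n ≠ c n') (hk : ¬(Fintype.card Ω).Prime) :
    ∀ a b a' b' : Ω, a ≠ b → a' ≠ b' → ∃ h ∈ H, h a = a' ∧ h b = b' := by
  obtain ⟨e, he, c', x', s', h1, h2, h3, h4, h5, h6⟩ :=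
    Upgrade.exists_min_period H d c x s hmem hsome hnone hex hc
  exact Rank.Fam.two_transitive ⟨H, inferInstance, c', x', s', h1, h2, h3, h4, h5, h6⟩ hk

end Vale.Agent.P329
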